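import Vale.Agent.P287D.St
import Vale.Agent.P287D.Cb.Fr
import Vale.Agent.P287D.Va.Bas

/-!
# P287D: subfields and residue fields of function fields
-/

open Set
open Vale.Agent.P297Z

noncomputable section

namespace Vale.Agent.P287D.Gm

open scoped IntermediateField.algebraAdjoinAdjoin in
theorem fin_algCl (L F : Type) [Field L] [Field F] [Algebra L F] [Algebra.EssFiniteType L F] :
    Module.Finite L (algebraicClosure L F) := by
  obtain ⟨ι, x, hx⟩ := exists_isTranscendenceBasis' L F
  have h1 := hx.isAlgebraic_field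
  have h2 : Algebra.EssFiniteType (IntermediateField.adjoin L (range x)) F := .of_comp L _ _
  have h3 : Module.Finite (IntermediateField.adjoin L (range x)) F :=
    Algebra.finite_of_essFiniteType_of_isAlgebraic
  have h4 : Function.Injective _ := hx.1.algebraicClosure
  rw [← Module.rank_lt_aleph0_iff]
  refine (rank_le (n := Module.finrank (IntermediateField.adjoin L (range x)) F)
    fun s hs => ?_).trans_lt (Cardinal.natCast_lt_aleph0)
  rw [← Fintype.card_coe]
  refine LinearIndependent.fintype_card_le_finrank (b := fun i : s => ((i : _) : F))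
    ((LinearIndependent.iff_fractionRing (Algebra.adjoin L (range x)) _).1 ?_)
  refine Fintype.linearIndependent_iff.2 fun p hp i => ?_
  have h5 : ∀ i, ∃ P : MvPolynomial ι L, MvPolynomial.aeval x P = (p i : F) := fun i =>
    (Algebra.adjoin_range_eq_range_aeval L x).le (p i).2
  choose P hP using h5
  have h6 : ∑ i : s, MvPolynomial.C (i : algebraicClosure L F) *
      MvPolynomial.map (algebraMap L (algebraicClosure L F)) (P i) = 0 := by
    apply h4
    rw [map_zero, map_sum, ← hp]
    refine Finset.sum_congr rfl fun i _ => ?_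
    rw [map_mul, MvPolynomial.aeval_C, MvPolynomial.aeval_map_algebraMap, hP, mul_comm]
    rfl
  have h7 : P i = 0 := by
    ext m
    refine Fintype.linearIndependent_iff.1 hs (fun i => (P i).coeff m) ?_ i
    have := congrArg (MvPolynomial.coeff m) h6
    rw [MvPolynomial.coeff_sum, MvPolynomial.coeff_zero] at this
    rw [← this]
    refine Finset.sum_congr rfl fun i _ => ?_
    rw [MvPolynomial.coeff_C_mul, MvPolynomial.coeff_map, Algebra.smul_def, mul_comm]
  exact Subtype.ext (by rw [← hP, h7, map_zero]; rfl)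

variable {K : Type} [Field K] [Algebra ℂ K] {n : ℕ}

/-- a transcendence basis indexed by `Fin n` -/
theorem exists_basis (k E : Type) [Field k] [Field E] [Algebra k E] (h : Algebra.trdeg k E = n) :
    ∃ y : Fin n → E, IsTranscendenceBasis k y := by
  obtain ⟨ι, x, hx⟩ := exists_isTranscendenceBasis' k E
  have e : Cardinal.mk ι = Cardinal.mk (Fin n) := by
    rw [hx.cardinalMk_eq_trdeg, h, Cardinal.mk_fin]
  obtain ⟨e⟩ := Cardinal.eq.1 e
  exact ⟨x ∘ e.symm, hx.comp_equiv e.symm⟩

theorem ff_of_ess [Algebra.EssFiniteType ℂ K] (h : Algebra.trdeg ℂ K = n) : FF K n := by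
  obtain ⟨y, hy⟩ := exists_basis ℂ K h
  have := hy.isAlgebraic_field
  have := Algebra.EssFiniteType.of_comp ℂ (IntermediateField.adjoin ℂ (range y)) K
  exact ⟨y, hy.1, Algebra.finite_of_essFiniteType_of_isAlgebraic⟩

/-- a subfield of a function field is a function field -/
theorem ff_alg {L : Type} [Field L] [Algebra ℂ L] [Algebra L K] [IsScalarTower ℂ L K]
    (h : FF K n) : ∃ m ≤ n, FF L m := by
  have le : Algebra.trdeg ℂ L ≤ n := h.trdeg ▸
    trdeg_le_of_injective (IsScalarTower.toAlgHom ℂ L K) (algebraMap L K).injective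
  obtain ⟨m, hm⟩ := Cardinal.lt_aleph0.1 (le.trans_lt Cardinal.natCast_lt_aleph0)
  obtain ⟨y, hy⟩ := exists_basis ℂ L hm
  refine ⟨m, by exact_mod_cast hm ▸ le, y, hy.1, ?_⟩
  have := hy.isAlgebraic_field
  have := h.ess
  have := Algebra.EssFiniteType.of_comp ℂ (IntermediateField.adjoin ℂ (range y)) K
  have := fin_algCl (IntermediateField.adjoin ℂ (range y)) K
  let f : L →ₗ[IntermediateField.adjoin ℂ (range y)]
      algebraicClosure (IntermediateField.adjoin ℂ (range y)) K :=
    (IsScalarTower.toAlgHom _ L K).toLinearMap.codRestrict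
      (algebraicClosure (IntermediateField.adjoin ℂ (range y)) K).toSubalgebra.toSubmodule fun a =>
        mem_algebraicClosure_iff.2 (Algebra.IsAlgebraic.isAlgebraic a).algebraMap
  exact Module.Finite.of_injective f fun a b e =>
    (algebraMap L K).injective (congrArg Subtype.val e :)

theorem ff_sub (h : FF K n) (L : IntermediateField ℂ K) : ∃ m ≤ n, FF L m := ff_alg h

theorem ff_uniq (h : FF K n) {m : ℕ} (h' : FF K m) : m = n := by
  exact_mod_cast h'.trdeg.symm.trans h.trdeg

theorem exists_cld (L : IntermediateField ℂ K) :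
    ∃ L', L ≤ L' ∧ Cld L' ∧ ∀ f ∈ L', IsAlgebraic L f :=
  ⟨(algebraicClosure L K).restrictScalars ℂ,
    fun a ha => (algebraicClosure L K).algebraMap_mem ⟨a, ha⟩,
    fun f hf => by
      have h1 : IsAlgebraic (algebraicClosure L K) f := hf
      exact mem_algebraicClosure_iff.2 (h1.restrictScalars L),
    fun _ hf => mem_algebraicClosure_iff.1 hf⟩

section rsd

variable (P : Pl K)

/-- the residue map on the ring -/
def rdA : P.ring →+* P.κ := IsLocalRing.residue P.ring

theorem rdA_const (c : ℂ) : rdA P ⟨algebraMap ℂ K c, P.con c⟩ = algebraMap ℂ P.κ c := rfl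

theorem rdA_surj : Function.Surjective (rdA P) := IsLocalRing.residue_surjective

theorem t_mem : P.t ∈ P.ring := (Pl.ord_nonneg_iff _ P.t_ne).1 (by rw [P.ord_t]; exact zero_le_one)

theorem rdA_t : rdA P ⟨P.t, t_mem P⟩ = 0 := by
  refine (IsLocalRing.residue_eq_zero_iff _).2 ((Pl.mem_maximalIdeal_iff _ _).2 (Or.inr ?_))
  exact P.ord_t.symm ▸ zero_lt_one

/-- the constants in the ring -/
def cR : ℂ →+* P.ring := (algebraMap ℂ K).codRestrict P.ring P.con

/-- relations between lifts and the uniformizer -/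
theorem lift_rel {ι σ : Type} [Fintype ι] (u : σ → P.ring) (x : ι → P.ring)
    (h : ∀ c : ι → MvPolynomial σ ℂ,
      ∑ i, MvPolynomial.aeval (fun j => rdA P (u j)) (c i) * rdA P (x i) = 0 → ∀ i, c i = 0)
    (N : ℕ) : ∀ p : ι → Polynomial (MvPolynomial σ ℂ), (∀ i, (p i).natDegree ≤ N) →
      ∑ i, (p i).eval₂ (MvPolynomial.eval₂Hom (cR P) u) ⟨P.t, t_mem P⟩ * x i = 0 →
        ∀ i, p i = 0 := by
  have e : ∀ c : MvPolynomial σ ℂ, rdA P (MvPolynomial.eval₂Hom (cR P) u c) =
      MvPolynomial.aeval (fun j => rdA P (u j)) c := fun c => by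
    rw [MvPolynomial.map_eval₂Hom]
    rfl
  have k : ∀ p : ι → Polynomial (MvPolynomial σ ℂ),
      ∑ i, (p i).eval₂ (MvPolynomial.eval₂Hom (cR P) u) ⟨P.t, t_mem P⟩ * x i = 0 →
        ∀ i, (p i).coeff 0 = 0 := fun p hp => by
    refine h _ ?_
    have := congrArg (rdA P) hp
    rw [map_sum, map_zero] at this
    rw [← this]
    refine Finset.sum_congr rfl fun i _ => ?_
    rw [map_mul, Polynomial.hom_eval₂, rdA_t, Polynomial.eval₂_at_zero, RingHom.comp_apply, e]
  induction N with
  | zero =>
    intro p hp h0 i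
    rw [Polynomial.eq_C_of_natDegree_le_zero (hp i), k p h0 i, map_zero]
  | succ N ih =>
    intro p hp h0 i
    have e1 : ∀ i, p i = Polynomial.X * (p i).divX := fun i => by
      have := Polynomial.X_mul_divX_add (p i)
      rw [k p h0 i, map_zero, add_zero] at this
      exact this.symm
    rw [e1 i, ih (fun i => (p i).divX) (fun i => ?_) ?_ i, mul_zero]
    · have t0 : (⟨P.t, t_mem P⟩ : P.ring) ≠ 0 := fun e => P.t_ne (congrArg Subtype.val e)
      refine (mul_eq_zero.1 ?_).resolve_left t0
      rw [← h0, Finset.mul_sum]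
      refine Finset.sum_congr rfl fun i _ => ?_
      conv_rhs => rw [e1 i, Polynomial.eval₂_mul, Polynomial.eval₂_X, mul_assoc]
    · rw [Polynomial.natDegree_divX_eq_natDegree_tsub_one]
      have := hp i
      omega

theorem lift_rel' {ι : Type} [Fintype ι] (u : Fin n → P.ring) (x : ι → P.ring)
    (h : ∀ c : ι → MvPolynomial (Fin n) ℂ,
      ∑ i, MvPolynomial.aeval (fun j => rdA P (u j)) (c i) * rdA P (x i) = 0 → ∀ i, c i = 0)
    (p : ι → MvPolynomial (Fin (n + 1)) ℂ)
    (hp : ∑ i, MvPolynomial.aeval (Fin.cons P.t fun j => (u j : K) : Fin (n + 1) → K) (p i) *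
      (x i : K) = 0) (i : ι) : p i = 0 := by
  have e : ∀ c : MvPolynomial (Fin (n + 1)) ℂ,
      (((MvPolynomial.finSuccEquiv ℂ n c).eval₂ (MvPolynomial.eval₂Hom (cR P) u)
        ⟨P.t, t_mem P⟩ : P.ring) : K) =
      MvPolynomial.aeval (Fin.cons P.t fun j => (u j : K) : Fin (n + 1) → K) c := fun c => by
    induction c using MvPolynomial.induction_on with
    | C a =>
      rw [MvPolynomial.finSuccEquiv_apply, MvPolynomial.eval₂Hom_C, MvPolynomial.aeval_C]
      simp [cR]
    | add a b ha hb => simp only [map_add, Polynomial.eval₂_add, ← ha, ← hb]; rfl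
    | mul_X a j ha =>
      simp only [map_mul, Polynomial.eval₂_mul, ← ha, MvPolynomial.aeval_X]
      refine Fin.cases ?_ (fun j => ?_) j
      · simp [MvPolynomial.finSuccEquiv_X_zero]
      · simp [MvPolynomial.finSuccEquiv_X_succ]
  refine (MvPolynomial.finSuccEquiv ℂ n).injective ?_
  rw [map_zero]
  refine lift_rel P u x h (Finset.univ.sup fun i => (MvPolynomial.finSuccEquiv ℂ n (p i)).natDegree)
    (fun i => MvPolynomial.finSuccEquiv ℂ n (p i))
    (fun i => Finset.le_sup (f := fun i => (MvPolynomial.finSuccEquiv ℂ n (p i)).natDegree)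
      (Finset.mem_univ i)) (Subtype.ext ?_) i
  rw [ZeroMemClass.coe_zero, ← hp, AddSubmonoidClass.coe_finsetSum]
  exact Finset.sum_congr rfl fun i _ => by rw [MulMemClass.coe_mul, e]

/-- a uniformizer and lifts of independent residues are independent -/
theorem ind_cons (u : Fin n → P.ring) (hu : AlgebraicIndependent ℂ fun j => rdA P (u j)) :
    AlgebraicIndependent ℂ (Fin.cons P.t fun j => (u j : K) : Fin (n + 1) → K) := by
  refine algebraicIndependent_iff.2 fun p hp => ?_
  refine lift_rel' P u (fun _ : Unit => 1) (fun c hc i => algebraicIndependent_iff.1 hu _ ?_)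
    (fun _ => p) ?_ ()
  · simpa using hc
  · simpa using hp

theorem trdeg_κ (h : FF K (n + 1)) : Algebra.trdeg ℂ P.κ = n := by
  have e : Algebra.trdeg ℂ P.κ + 1 = (n : Cardinal) + 1 := by
    have := P.dvl
    rw [h.trdeg, Nat.cast_succ] at this
    exact this
  exact (Cardinal.add_one_inj).1 e

open scoped IntermediateField.algebraAdjoinAdjoin in
theorem ff_κ (h : FF K (n + 1)) : FF P.κ n := by
  obtain ⟨y, hy⟩ := exists_basis ℂ P.κ (trdeg_κ P h)
  choose u hu using fun j => rdA_surj P (y j)
  obtain rfl : y = fun j => rdA P (u j) := (funext hu).symm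
  refine ⟨_, hy.1, ?_⟩
  have := h.fin (ind_cons P u hy.1)
  change Module.Finite _ _
  rw [← Module.rank_lt_aleph0_iff]
  refine (rank_le (n := Module.finrank (IntermediateField.adjoin ℂ
    (range (Fin.cons P.t fun j => (u j : K) : Fin (n + 1) → K))) K)
    fun s hs => ?_).trans_lt (Cardinal.natCast_lt_aleph0)
  rw [← Fintype.card_coe]
  choose x hx using fun i : s => rdA_surj P i
  refine LinearIndependent.fintype_card_le_finrank (b := fun i : s => (x i : K))
    ((LinearIndependent.iff_fractionRing (Algebra.adjoin ℂ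
      (range (Fin.cons P.t fun j => (u j : K) : Fin (n + 1) → K))) _).1 ?_)
  refine Fintype.linearIndependent_iff.2 fun p hp i => ?_
  have h5 : ∀ i, ∃ Q : MvPolynomial (Fin (n + 1)) ℂ, MvPolynomial.aeval
      (Fin.cons P.t fun j => (u j : K) : Fin (n + 1) → K) Q = (p i : K) := fun i =>
    (Algebra.adjoin_range_eq_range_aeval ℂ _).le (p i).2
  choose Q hQ using h5
  have h7 : Q i = 0 := by
    refine lift_rel' P u x (fun c hc i => ?_) Q ?_ i
    · have m : ∀ i, MvPolynomial.aeval (fun j => rdA P (u j)) (c i) ∈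
          IntermediateField.adjoin ℂ (range fun j => rdA P (u j)) := fun i =>
        IntermediateField.algebra_adjoin_le_adjoin _ _
          ((Algebra.adjoin_range_eq_range_aeval ℂ _).ge ⟨c i, rfl⟩)
      have := Fintype.linearIndependent_iff.1 hs (fun i => ⟨_, m i⟩) (by
        rw [← hc]
        exact Finset.sum_congr rfl fun i _ => by rw [hx]; rfl) i
      exact algebraicIndependent_iff.1 hy.1 _ (congrArg Subtype.val this)
    · rw [← hp]
      exact Finset.sum_congr rfl fun i _ => by rw [hQ]; rfl
  exact Subtype.ext (by rw [← hQ, h7, map_zero]; rfl)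

end rsd

/-- **FFS** -/
theorem ffs : FFS where
  rsd _ _ _ _ h P := ff_κ P h
  sub _ _ _ _ h L := ff_sub h L
  uniq _ _ _ _ h _ h' := ff_uniq h h'
  trdeg _ _ _ _ h := h.trdeg
  cld _ _ _ _ _ L := exists_cld L

end Vale.Agent.P287D.Gm
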