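import Vale.Agent.P287D.Cb.Hur
import Vale.Agent.P287D.Pb.Res
import Vale.Agent.P287D.Gm.Ffs

/-!
# P287D, block GM: algebraic closures of sets; the order of a form and spanning residues
-/

open Set Cardinal
open Vale.Agent.P285N.Brep (jac Fr)
open Vale.Agent.P297Z Vale.Agent.P287D.Cb

noncomputable section

namespace Vale.Agent.P287D.Gm

section cl

variable {A B : Type} [Field A] [Algebra ℂ A] [Field B] [Algebra ℂ B] {S T : Set A} {x : A}

/-- the elements which are algebraic over `ℂ[S]` -/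
def Cl (S : Set A) : IntermediateField ℂ A :=
  (algebraicClosure (IntermediateField.adjoin ℂ S) A).restrictScalars ℂ

theorem mem_Cl : x ∈ Cl S ↔ IsAlgebraic (Algebra.adjoin ℂ S) x :=
  mem_algebraicClosure_iff.trans IntermediateField.isAlgebraic_adjoin_iff

theorem cl_eq (S : Set A) : (Cl S : Set A) = (AlgebraicIndependent.matroid ℂ A).closure S := by
  rw [AlgebraicIndependent.matroid_closure_eq]
  exact Set.ext fun _ => mem_Cl

theorem sub_Cl (h : x ∈ S) : x ∈ Cl S :=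
  mem_Cl.2 (isAlgebraic_algebraMap (⟨x, Algebra.subset_adjoin h⟩ : Algebra.adjoin ℂ S))

theorem cl_le (h : ∀ x ∈ S, x ∈ Cl T) (hx : x ∈ Cl S) : x ∈ Cl T := by
  have : S ⊆ (Cl T : Set A) := h
  rw [cl_eq] at this
  have k := Matroid.closure_subset_closure_of_subset_closure this
  rw [← cl_eq, ← cl_eq] at k
  exact k hx

theorem cl_map {ρ : A →+* B} (hc : Cst ρ) {T : Set B} (h : ∀ x ∈ S, ρ x ∈ Cl T) (hx : x ∈ Cl S) :
    ρ x ∈ Cl T := by
  refine cl_le (S := ρ '' S) (by rintro _ ⟨x, hx, rfl⟩; exact h x hx) (mem_Cl.2 ?_)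
  refine Pb.alg_map ρ (fun c => ?_) (fun s hs => Algebra.subset_adjoin (mem_image_of_mem ρ hs))
    (mem_Cl.1 hx)
  obtain ⟨d, hd⟩ := hc c
  exact hd ▸ Subalgebra.algebraMap_mem _ d

theorem cl_cst (h : x ∈ range (algebraMap ℂ A)) (S : Set A) : x ∈ Cl S := by
  obtain ⟨c, rfl⟩ := h
  exact IntermediateField.algebraMap_mem _ c

theorem cl_basis {n : ℕ} (h : FF A n) {ι : Type} [Fintype ι] {y : ι → A}
    (hy : AlgebraicIndependent ℂ y) (e : n ≤ Fintype.card ι) (x : A) : x ∈ Cl (range y) :=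
  mem_Cl.2 ((hy.isTranscendenceBasis_of_trdeg_le_of_finite (by
    rw [h.trdeg, mk_fintype]; exact_mod_cast e)).isAlgebraic.isAlgebraic x)

theorem ind_of_cl {n : ℕ} (h : FF A n) {ι : Type} [Fintype ι] {y : ι → A}
    (hy : ∀ x, x ∈ Cl (range y)) (e : Fintype.card ι ≤ n) : AlgebraicIndependent ℂ y := by
  have : Algebra.IsAlgebraic (Algebra.adjoin ℂ (range y)) A := ⟨fun x => mem_Cl.1 (hy x)⟩
  exact (Algebra.IsAlgebraic.isTranscendenceBasis_of_le_trdeg_of_finite ℂ y (by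
    rw [h.trdeg, mk_fintype]; exact_mod_cast e)).1

/-- counting transcendence degrees along a homomorphism -/
theorem cnt {r m l : ℕ} {ρ : A →+* B} (hc : Cst ρ) (hA : FF A (r + m)) (hB : FF B (r + l))
    {ι τ : Type} [Fintype ι] [Fintype τ] (e1 : Fintype.card ι = m) (e2 : Fintype.card τ = l)
    {y : ι → A} (hy : AlgebraicIndependent ℂ y) (h1 : ∀ j, ρ (y j) ∈ range (algebraMap ℂ B))
    (h2 : ∀ j, y j ∈ Cl S) {w : τ → B} (h3 : ∀ x, x ∈ Cl (ρ '' S ∪ range w)) (x : A) :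
    x ∈ Cl S := by
  obtain ⟨I, hI, hy'⟩ := Matroid.Indep.subset_isBasis_of_subset
    (M := AlgebraicIndependent.matroid ℂ A) hy.to_subtype_range (X := (Cl S : Set A))
    (by rintro _ ⟨j, rfl⟩; exact h2 j)
  have k1 : ∀ x ∈ S, x ∈ Cl I := fun x hx => by
    have := hI.subset_closure (sub_Cl hx)
    rwa [← cl_eq] at this
  have : Algebra.IsAlgebraic (Algebra.adjoin ℂ (ρ '' (I \ range y) ∪ range w)) B :=
    ⟨fun b => mem_Cl.1 (cl_le (by
      rintro _ (⟨x, hx, rfl⟩ | hx)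
      · refine cl_map hc (fun z hz => ?_) (k1 x hx)
        by_cases q : z ∈ range y
        · obtain ⟨j, rfl⟩ := q
          exact cl_cst (h1 j) _
        · exact sub_Cl (.inl ⟨z, ⟨hz, q⟩, rfl⟩)
      · exact sub_Cl (.inr hx)) (h3 b))⟩
  have k2 := (Algebra.IsAlgebraic.trdeg_le_cardinalMk ℂ (ρ '' (I \ range y) ∪ range w)).trans
    ((mk_union_le _ _).trans (add_le_add mk_image_le mk_range_le))
  rw [hB.trdeg, mk_fintype τ, e2, Nat.cast_add, Cardinal.add_nat_le_add_nat_iff] at k2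
  have k3 := mk_sdiff_add_mk hy'
  rw [mk_range_eq _ hy.injective, mk_fintype ι, e1] at k3
  have hi : AlgebraicIndependent ℂ ((↑) : I → A) := hI.indep
  have b := hi.isTranscendenceBasis_of_trdeg_le (hA.trdeg ▸ natCast_lt_aleph0)
    (by rw [hA.trdeg, ← k3, Nat.cast_add]; gcongr)
  have k4 := b.isAlgebraic.isAlgebraic x
  rw [Subtype.range_coe] at k4
  exact cl_le hI.subset (mem_Cl.2 k4)

theorem drop {r : ℕ} (h : FF A r) {w : Fin (r + 1) → A} (hw : ∀ x, x ∈ Cl (range w)) :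
    ∃ j : Fin (r + 1), AlgebraicIndependent ℂ fun i => w (j.succAbove i) := by
  have : Algebra.IsAlgebraic (Algebra.adjoin ℂ (range w)) A := ⟨fun x => mem_Cl.1 (hw x)⟩
  obtain ⟨t, ht, b⟩ := exists_isTranscendenceBasis_subset (R := ℂ) (range w)
  choose σ hσ using fun x : t => ht x.2
  obtain ⟨j, hj⟩ : ∃ j, j ∉ range σ := by
    by_contra! k
    have := mk_le_of_surjective k
    rw [b.cardinalMk_eq_trdeg, h.trdeg, mk_fin, Nat.cast_le] at this
    omega
  refine ⟨j, ind_of_cl h (fun x => cl_le (S := t) (fun z hz => sub_Cl ?_) ?_) (by simp)⟩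
  · obtain ⟨i, hi⟩ := Fin.exists_succAbove_eq (x := σ ⟨z, hz⟩) (y := j) fun e => hj ⟨_, e⟩
    exact ⟨i, (congrArg w hi).trans (hσ _)⟩
  · have k4 := b.isAlgebraic.isAlgebraic x
    rw [Subtype.range_coe] at k4
    exact mem_Cl.2 k4

end cl

variable {K : Type} [Field K] [Algebra ℂ K] {n : ℕ} {P : Pl K}

theorem sp_iff {S : Set K} : Sp P S ↔ S ⊆ P.ring ∧ ∀ a, a ∈ Cl (P.rd '' S) :=
  and_congr_right' (forall_congr' fun _ => mem_Cl.symm)

/-- a derivation over the constants -/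
def toDer {e : K → K} (h : De e) (hc : ∀ c, e (algebraMap ℂ K c) = 0) : Derivation ℂ K K :=
  Derivation.mk'
    { toFun := e
      map_add' := h.add
      map_smul' := fun c x => by
        rw [Algebra.smul_def, h.mul, hc, RingHom.id_apply, RingHom.id_apply, Algebra.smul_def]
        simp }
    fun x y => h.mul x y

theorem rd_zero : P.rd 0 = 0 := by simpa using rd_const (P := P) 0

theorem ind_of_unit {d : Fin n → Derivation ℂ K K} (hl : ∀ i, Lg P (d i)) {z : Fin n → K}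
    (hz : ∀ i, z i ∈ P.ring) (h : ¬ Mx P (jac d z)) :
    AlgebraicIndependent ℂ fun i => P.rd (z i) := by
  choose e he k using fun i => (hl i).bar (dr_of (d i))
  have c : ∀ i c, e i (algebraMap ℂ P.κ c) = 0 := fun i c => by
    rw [← rd_const, k i _ (P.con c), Derivation.map_algebraMap, rd_zero]
  refine P285N.Brep.TbAux.ind (fun i => toDer (he i) (c i)) _ fun h0 => h ?_
  have m : ∀ i j, d i (z j) ∈ P.ring := fun i j => (hl i).rg (dr_of _) _ (hz j)
  let a : Matrix (Fin n) (Fin n) P.ring := Matrix.of fun i j => ⟨_, m i j⟩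
  have e1 : jac d z = (a.det : K) := (RingHom.map_det P.ring.subtype a).symm
  rw [e1, ← rd_eq_zero a.det.2, rd_of a.det.2, ← h0]
  refine (RingHom.map_det (IsLocalRing.residue P.ring) a).trans (congrArg Matrix.det ?_)
  ext i j
  exact ((k i _ (hz j)).trans (rd_of (m i j))).symm

theorem mx_sum {ι : Type} (s : Finset ι) {f : ι → K} (h : ∀ i ∈ s, Mx P (f i)) :
    Mx P (∑ i ∈ s, f i) := Finset.sum_induction f _ (fun _ _ => Mx.add) mx_zero h

theorem kap_nonneg (hK : FF K n) {w : Fin n → K} (hw : ∀ i, w i ∈ P.ring) : 0 ≤ kap w P := by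
  obtain ⟨t, D, a⟩ := exists_ad hK P
  rw [kap_eq a]
  exact_mod_cast Pl.ord_nonneg_of_mem _ (det_mem _ fun i j => a.pre i _ (hw j))

theorem sign_mem (k : ℕ) : (-1 : K) ^ k ∈ P.ring := pow_mem (neg_mem (one_mem _)) k

theorem mx_minor (hK : FF K (n + 1)) {w : Fin (n + 1) → K} (hw : ∀ i, w i ∈ P.ring)
    (h : ¬ Sp P (range w)) {d : Fin n → Derivation ℂ K K} (hl : ∀ i, Lg P (d i))
    (j : Fin (n + 1)) : Mx P (jac d fun i => w (j.succAbove i)) := by
  by_contra k
  have a : Ada P P.t fun i => w (j.succAbove i) :=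
    ⟨P.ord_t, fun _ => hw _, ind_of_unit hl (fun _ => hw _) k⟩
  refine h (sp_iff.2 ⟨by rintro _ ⟨i, rfl⟩; exact hw i, fun x => cl_le ?_
    ((sp_iff.1 (a.sp hK)).2 x)⟩)
  rintro _ ⟨_, ⟨i, rfl⟩, rfl⟩
  exact sub_Cl ⟨_, ⟨_, rfl⟩, rfl⟩

theorem one_le_kap (hK : FF K (n + 1)) {w : Fin (n + 1) → K} (hi : AlgebraicIndependent ℂ w)
    (hw : ∀ i, w i ∈ P.ring) (h : ¬ Sp P (range w)) : 1 ≤ kap w P := by
  obtain ⟨u, a⟩ := exists_ada hK P
  obtain ⟨E, b⟩ := a.ad hK
  have k : Mx P (jac E w) := by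
    rw [jac, Matrix.det_succ_row_zero]
    exact mx_sum _ fun j _ => (mx_minor hK hw h (fun i => (a.lf b).lg i.succ) j).mul
      (mul_mem (sign_mem _) (b.pre 0 _ (hw j)))
  rw [kap_eq b]
  exact_mod_cast (mx_iff.1 k).resolve_left ((jac_ne_iff b.fr w).2 hi)

theorem ord_le_kap (hK : FF K (n + 1)) {w : Fin (n + 1) → K} (hi : AlgebraicIndependent ℂ w)
    (hw : ∀ i, w i ∈ P.ring) (h : ¬ Sp P (range w)) (j : Fin (n + 1)) :
    P.ord (w j) ≤ kap w P := by
  obtain ⟨u, a⟩ := exists_ada hK P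
  obtain ⟨E, b⟩ := a.ad hK
  have l := a.lf b
  generalize hL : (Fin.cons (P.t • E 0) fun i => E i.succ : Fin (n + 1) → Derivation ℂ K K) = L
    at l
  have w0 := hi.ne_zero j
  have k : Mx P (jac L w / w j) := by
    rw [jac, Matrix.det_succ_column _ j, Finset.sum_div]
    refine mx_sum _ fun i _ => ?_
    rw [mul_div_right_comm, mul_div_assoc]
    exact (mx_minor hK hw h (fun i' => l.lg (i.succAbove i')) j).mul
      (mul_mem (sign_mem _) (l.lg i _))
  have k1 := (mx_iff.1 k).resolve_left (div_ne_zero (l.ne w hi) w0)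
  rw [Pl.ord_div _ (l.ne w hi) w0] at k1
  have k2 := l.eq w hi
  have k3 : P.ord (w j) + 1 ≤ P.ord (jac L w) := by omega
  have k4 := Int.cast_le (R := ℝ).2 k3
  push_cast at k4
  linarith

theorem kap_zero (hK : FF K (n + 1)) {w : Fin (n + 1) → K} {D : Fin (n + 1) → Derivation ℂ K K}
    (hF : Fr w D) (hs : Sp P (range w)) {S : Set K} (h1 : S ⊆ P.ring)
    (h2 : ∀ j, ∀ x ∈ S, D j x ∈ Algebra.adjoin ℂ S)
    (h3 : ∀ x, x ∈ IntermediateField.adjoin ℂ S) : kap w P = 0 := by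
  have : CharZero K := charZero_of_injective_algebraMap (algebraMap ℂ K).injective
  have hw : ∀ i, w i ∈ P.ring := fun i => hs.1 ⟨i, rfl⟩
  obtain ⟨j, hj⟩ := drop (ff_κ P hK) (w := fun i => P.rd (w i)) fun x => by
    have := (sp_iff.1 hs).2 x
    rwa [← range_comp] at this
  have a : Ada P P.t fun i => w (j.succAbove i) := ⟨P.ord_t, fun _ => hw _, hj⟩
  obtain ⟨E, b⟩ := a.ad hK
  have e0 : ∀ i, E 0 (w (j.succAbove i)) = 0 := fun i => by
    simpa [(Fin.succ_ne_zero i).symm] using b.fr.dual 0 i.succ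
  have e1 : ∀ i k, E i.succ (w (j.succAbove k)) = if i = k then 1 else 0 := fun i k => by
    simpa using b.fr.dual i.succ k.succ
  have e2 : E 0 P.t = 1 := by simpa using b.fr.dual 0 0
  have ej : jac E w = (-1) ^ (j : ℕ) * E 0 (w j) := by
    rw [jac, Matrix.det_succ_row_zero, Fin.sum_univ_succAbove _ j]
    have : (Matrix.of fun i k => E i (w k)).submatrix Fin.succ j.succAbove = 1 := by
      ext i k
      simp [e1, Matrix.one_apply]
    simp [this, e0]
  have ed : ∀ x, D j x = D j P.t * E 0 x := fun x => by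
    rw [expand (dr_of (D j)) (D j).map_algebraMap b.fr x, Fin.sum_univ_succ]
    simp [hF.dual, (Fin.succAbove_ne j _).symm]
  have e3 : D j P.t * E 0 (w j) = 1 := by rw [← ed, hF.dual, if_pos rfl]
  obtain ⟨δ, hδ⟩ := Int.eq_ofNat_of_zero_le (Pl.ord_nonneg_of_mem _ (b.pre 0 _ (hw j)))
  have c0 := left_ne_zero_of_mul_eq_one e3
  have oc : P.ord (D j P.t) = -δ := by
    have := Pl.ord_mul P.toPlace c0 (right_ne_zero_of_mul_eq_one e3)
    rw [e3, Pl.ord_one] at this
    omega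
  have st : ∀ x, 0 < P.ord x → D j x ≠ 0 ∧ P.ord (D j x) = P.ord x - (δ + 1) := fun x hx => by
    have x0 : x ≠ 0 := fun e => by simp [e] at hx
    obtain ⟨u, u1, u2, u3⟩ := ld_eq (dr_of (E 0)) P x0
    have k0 : (P.ord x : K) ≠ 0 := Int.cast_ne_zero.2 hx.ne'
    have k1 : P.ord (P.ord x : K) = 0 := Pl.ord_unit _ (int_mem P _) (int_inv_mem P _)
    have k2 : E 0 x = x / P.t * (P.ord x + P.t * (u⁻¹ * E 0 u)) := by
      have := P.t_ne
      rw [e2, div_eq_iff x0] at u3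
      rw [u3]
      field_simp
      ring
    have m := mul_mem u2 (b.pre 0 u u1)
    have k3 : ¬ Mx P (P.ord x + P.t * (u⁻¹ * E 0 u)) := fun q => by
      have := q.sub (mx_t m)
      rw [add_sub_cancel_right, mx_iff, k1] at this
      simp [k0] at this
    rw [mx_iff, not_or] at k3
    have k4 := Pl.ord_nonneg_of_mem _ (add_mem (int_mem P (P.ord x)) (mul_mem (t_mem P) m))
    have k5 := div_ne_zero x0 P.t_ne
    rw [ed, k2]
    refine ⟨mul_ne_zero c0 (mul_ne_zero k5 k3.1), ?_⟩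
    rw [Pl.ord_mul _ c0 (mul_ne_zero k5 k3.1), Pl.ord_mul _ k5 k3.1, Pl.ord_div _ x0 P.t_ne,
      P.ord_t, oc]
    omega
  have pr : ∀ x ∈ Algebra.adjoin ℂ S, D j x ∈ Algebra.adjoin ℂ S := fun x hx => by
    induction hx using Algebra.adjoin_induction with
    | mem a ha => exact h2 j a ha
    | algebraMap a => rw [Derivation.map_algebraMap]; exact zero_mem _
    | add a b _ _ ha hb => exact map_add (D j) a b ▸ add_mem ha hb
    | mul a b ka kb ha hb => exact (D j).leibniz a b ▸ add_mem (mul_mem ka hb) (mul_mem kb ha)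
  have dv : ∀ k : ℕ, ∀ x ∈ Algebra.adjoin ℂ S, P.ord x = k → (δ + 1 : ℤ) ∣ P.ord x := fun k => by
    induction k using Nat.strong_induction_on with
    | _ k ih =>
      intro x hx e
      rcases Nat.eq_zero_or_pos k with rfl | k0
      · simp [e]
      · obtain ⟨-, s2⟩ := st x (by omega)
        obtain ⟨k', hk'⟩ := Int.eq_ofNat_of_zero_le
          (Pl.ord_nonneg_of_mem _ (adj_mem h1 (pr x hx)))
        have := ih k' (by omega) _ (pr x hx) hk'
        rw [s2] at this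
        simpa using dvd_add this (dvd_refl (δ + 1 : ℤ))
  have dv' : ∀ x ∈ Algebra.adjoin ℂ S, (δ + 1 : ℤ) ∣ P.ord x := fun x hx =>
    dv _ x hx (Int.toNat_of_nonneg (Pl.ord_nonneg_of_mem _ (adj_mem h1 hx))).symm
  obtain ⟨p, hp, q, hq, e⟩ := IntermediateField.mem_adjoin_iff_div.1 (h3 P.t)
  have pq := div_ne_zero_iff.1 (e ▸ P.t_ne)
  have d1 := dvd_sub (dv' p hp) (dv' q hq)
  rw [← Pl.ord_div _ pq.1 pq.2, ← e, P.ord_t] at d1
  have d2 := Int.le_of_dvd one_pos d1
  rw [kap_eq b, ej, Pl.ord_mul _ (pow_ne_zero _ (neg_ne_zero.2 one_ne_zero))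
    (right_ne_zero_of_mul_eq_one e3), Pl.ord_pow, Pl.ord_neg, Pl.ord_one, hδ]
  have : δ = 0 := by omega
  simp [this]

end Vale.Agent.P287D.Gm
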