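import Vale.Agent.P287D.Gf.St

/-!
# P287D, block GM: the universal member of a linear system (definitions and statements)
-/

open Set

noncomputable section

namespace Vale.Agent.P287D.Gm

/-- `K₁` is the function field of the universal member `∑ a i * s i = 0` -/
structure UH {K K₁ : Type} [Field K] [Algebra ℂ K] [Field K₁] [Algebra ℂ K₁] {σ : Type}
    [Fintype σ] (ι : K →ₐ[ℂ] K₁) (s : σ → K) (a : σ → K₁) : Prop where
  nz : ∃ j, s j ≠ 0
  rel : ∑ i, a i * ι (s i) = 0
  gen : Subfield.closure (range ι ∪ range a) = ⊤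
  ind : ∀ j, s j ≠ 0 → AlgebraicIndependent ι.fieldRange fun i : {i // i ≠ j} => a i

open Classical in
/-- **UNIT**: the degree over a purely transcendental field -/
def UNIT : Prop := ∀ (N : ℕ) (K : Type) [Field K] [Algebra ℂ K], FF K N → ∀ b : Fin N → K,
  AlgebraicIndependent ℂ b →
    I N K (fun i => mx {1, b i}) = Module.finrank (IntermediateField.adjoin ℂ (range b)) K

open Classical in
/-- **UHN**: intersection numbers on the universal member -/
def UHN : Prop := ∀ (n N : ℕ) (K K₁ : Type) [Field K] [Algebra ℂ K] [Field K₁] [Algebra ℂ K₁]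
  (ι : K →ₐ[ℂ] K₁) (s : Fin N → K) (a : Fin N → K₁), FF K (n + 1) → UH ι s a →
  ∀ β : Fin n → BD K, (∀ j : Fin n, j.1 ≠ 0 → β j ∈ Car K) →
    I (N + n) K₁ (ap n (fun j => pb (ι : K →+* K₁) (β j)) fun i => mx {1, a i}) =
      I (n + 1) K (Fin.snoc β (mx (Finset.univ.image s)))

/-- **IRR**: existence, and the theorem of Bertini on irreducibility -/
def IRR : Prop := ∀ (n : ℕ) (K : Type) [Field K] [Algebra ℂ K], FF K n →
  ∀ (σ : Type) [Fintype σ] (s : σ → K), (∃ j, s j ≠ 0) →
    ∃ (K₁ : Type) (_ : Field K₁) (_ : Algebra ℂ K₁) (ι : K →ₐ[ℂ] K₁) (a : σ → K₁), UH ι s a ∧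
      ∀ i j k, AlgebraicIndependent ℂ ![s i / s k, s j / s k] →
        Cld (IntermediateField.adjoin ℂ (range a))

end Vale.Agent.P287D.Gm
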