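import Vale.Agent.P287D.Gm.IrrA
import Vale.Agent.P287D.Gm.St
import Vale.Agent.P287D.Iso.Bas

/-!
# P287D, block GM: the universal member exists and is irreducible
-/

set_option linter.all false

open Set IntermediateField

noncomputable section

namespace Vale.Agent.P287D.Gm

namespace Ir

variable {K K₁ σ : Type} [Field K] [Algebra ℂ K] [Field K₁] [Algebra ℂ K₁] [Fintype σ]
  {ι : K →ₐ[ℂ] K₁} {s : σ → K} {a : σ → K₁}

theorem solve (rel : ∑ i, a i * ι (s i) = 0) {k : σ} (hk : s k ≠ 0) [DecidableEq σ] :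
    a k = -∑ l : {l // l ≠ k}, a l * ι (s l / s k) := by
  have k0 : ι (s k) ≠ 0 := (map_ne_zero ι).2 hk
  rw [Fintype.sum_eq_add_sum_subtype_ne _ k, add_eq_zero_iff_eq_neg] at rel
  simp only [map_div₀, ← mul_div_assoc, ← Finset.sum_div]
  rw [← neg_div, ← rel, mul_div_cancel_right₀ _ k0]

theorem top_of (rel : ∑ i, a i * ι (s i) = 0)
    (gen : Subfield.closure (range ι ∪ range a) = ⊤) {k : σ} (hk : s k ≠ 0) :
    adjoin ι.fieldRange (range fun l : {l // l ≠ k} => a l) = ⊤ := by
  classical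
  set F := adjoin ι.fieldRange (range fun l : {l // l ≠ k} => a l)
  have h1 : ∀ f, ι f ∈ F := fun f => IntermediateField.algebraMap_mem F ⟨ι f, f, rfl⟩
  have h2 : ∀ l : {l // l ≠ k}, a l ∈ F := fun l => subset_adjoin _ _ ⟨l, rfl⟩
  refine top_le_iff.1 fun x _ => (show Subfield.closure _ ≤ F.toSubfield from
    Subfield.closure_le.2 (union_subset (range_subset_iff.2 h1) (range_subset_iff.2 fun l => ?_)))
      (gen.ge (Subfield.mem_top x))
  by_cases e : l = k
  · rw [e, solve rel hk]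
    exact neg_mem (sum_mem fun l _ => mul_mem (h2 l) (h1 _))
  · exact h2 ⟨l, e⟩

theorem exists_uh (s : σ → K) (hs : ∃ j, s j ≠ 0) : ∃ (K₁ : Type) (_ : Field K₁) (_ : Algebra ℂ K₁)
    (ι : K →ₐ[ℂ] K₁) (a : σ → K₁), UH ι s a := by
  classical
  obtain ⟨k, hk⟩ := id hs
  let K₁ := FractionRing (MvPolynomial {l // l ≠ k} K)
  let ι : K →ₐ[ℂ] K₁ := IsScalarTower.toAlgHom ℂ K K₁
  let b : {l // l ≠ k} → K₁ := fun l => algebraMap _ K₁ (MvPolynomial.X l : MvPolynomial _ K)
  let a : σ → K₁ := fun l => if e : l = k then -∑ l : {l // l ≠ k}, b l * ι (s l / s k) else b ⟨l, e⟩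
  have ab : ∀ l : {l // l ≠ k}, a l = b l := fun l => dif_neg l.2
  have k0 : ι (s k) ≠ 0 := (map_ne_zero ι).2 hk
  have rel : ∑ i, a i * ι (s i) = 0 := by
    rw [Fintype.sum_eq_add_sum_subtype_ne _ k, show a k = _ from dif_pos rfl, neg_mul,
      Finset.sum_mul, neg_add_eq_zero]
    refine Finset.sum_congr rfl fun l _ => ?_
    rw [ab, map_div₀, mul_assoc, div_mul_cancel₀ _ k0]
  have gen : Subfield.closure (range ι ∪ range a) = ⊤ := by
    set F := Subfield.closure (range ι ∪ range a)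
    have p : ∀ p : MvPolynomial {l // l ≠ k} K, algebraMap _ K₁ p ∈ F := fun p => by
      induction p using MvPolynomial.induction_on with
      | C c => exact Subfield.subset_closure (Or.inl ⟨c, rfl⟩)
      | add p q h1 h2 => rw [map_add]; exact add_mem h1 h2
      | mul_X p l h => rw [map_mul]; exact mul_mem h (Subfield.subset_closure (Or.inr ⟨l, ab l⟩))
    refine top_le_iff.1 fun x _ => ?_
    obtain ⟨u, v, -, rfl⟩ := IsFractionRing.div_surjective (A := MvPolynomial {l // l ≠ k} K) x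
    exact div_mem (p u) (p v)
  have ib : AlgebraicIndependent K b :=
    (MvPolynomial.algebraicIndependent_X _ K).map' (f := IsScalarTower.toAlgHom K _ K₁)
      (IsFractionRing.injective _ _)
  have ib' : AlgebraicIndependent ι.fieldRange b :=
    ib.ringHom_of_comp_eq (AlgEquiv.ofInjectiveField ι) (RingHom.id K₁)
      (AlgEquiv.ofInjectiveField ι).surjective Function.injective_id (RingHom.ext fun _ => rfl)
  refine ⟨K₁, inferInstance, inferInstance, ι, a, hs, rel, gen, fun j hj => ?_⟩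
  refine ind_of_mem (by simp) ib' fun l => ?_
  rw [top_of rel gen hj]
  exact mem_top

theorem tr (h : UH ι s a) {k : σ} (hk : s k ≠ 0) (l : {l // l ≠ k}) (m : ℕ) :
    ∃ τ : K₁ ≃ₐ[ℂ] K₁, (∀ f, τ (ι f) = ι f) ∧ τ (a k) = a k - m * ι (s l / s k) ∧ ∀ S : Set K₁,
      (Semi.of_alg τ).sub (adjoin ℂ (range (fun l : {l // l ≠ k} => a l) ∪ S)) =
        adjoin ℂ (range (fun l : {l // l ≠ k} => a l) ∪ τ '' S) := by
  classical
  let b : {l // l ≠ k} → K₁ := fun l => a l
  have hb : AlgebraicIndependent ι.fieldRange b := h.ind k hk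
  have ht : adjoin ι.fieldRange (range b) = ⊤ := top_of h.rel h.gen hk
  obtain ⟨τ, hτ⟩ := exists_transl hb ht (Pi.single l m)
  have f : ∀ f, τ (ι f) = ι f := fun f => τ.commutes (⟨ι f, f, rfl⟩ : ι.fieldRange)
  have g : ∀ l', ∃ c : ℕ, τ (b l') = b l' + c := fun l' => by
    rw [hτ]
    by_cases e : l' = l
    · exact ⟨m, by simp [e]⟩
    · exact ⟨0, by simp [e]⟩
  refine ⟨τ.restrictScalars ℂ, f, ?_, fun S => ?_⟩
  · change τ _ = _
    rw [solve h.rel hk, map_neg, map_sum]
    simp only [map_mul, f, show ∀ l : {l // l ≠ k}, τ (a l) = _ from hτ, add_mul,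
      Finset.sum_add_distrib, neg_add, sub_eq_add_neg]
    rw [Finset.sum_eq_single (f := fun x : {l // l ≠ k} => algebraMap ι.fieldRange K₁ _ * _) l
      (fun l' _ e => by simp [e]) (by simp)]
    simp [b]
  · rw [Semi.sub_adjoin, image_union]
    refine le_antisymm (adjoin_le_iff.2 (union_subset ?_ ?_)) (adjoin_le_iff.2 (union_subset ?_ ?_))
    · rintro _ ⟨_, ⟨l', rfl⟩, rfl⟩
      obtain ⟨c, hc⟩ := g l'
      change τ (b l') ∈ _
      rw [hc]
      exact add_mem (subset_adjoin _ _ (Or.inl ⟨l', rfl⟩)) (_root_.natCast_mem _ c)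
    · exact subset_union_right.trans (subset_adjoin _ _)
    · rintro _ ⟨l', rfl⟩
      obtain ⟨c, hc⟩ := g l'
      change b l' ∈ _
      rw [eq_sub_of_add_eq hc.symm]
      exact sub_mem (subset_adjoin _ _ (Or.inl ⟨_, ⟨l', rfl⟩, rfl⟩)) (_root_.natCast_mem _ c)
    · exact subset_union_right.trans (subset_adjoin _ _)

theorem ind (h : UH ι s a) {i k : σ} (hs : Transcendental ℂ (s i / s k)) :
    AlgebraicIndependent ℂ a := by
  classical
  have hk : s k ≠ 0 := fun e => hs (by rw [e, div_zero]; exact isAlgebraic_zero)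
  have ik : i ≠ k := fun e => hs (by rw [e, div_self hk]; exact isAlgebraic_one)
  let b : {l // l ≠ k} → K₁ := fun l => a l
  have hb : AlgebraicIndependent ι.fieldRange b := h.ind k hk
  have u : AlgebraicIndependent ℂ b := hb.restrictScalars (algebraMap ℂ _).injective
  have t : Transcendental (adjoin ℂ (range b)) (a k) := fun t => by
    obtain ⟨τ, -, h2, h3⟩ := tr h hk ⟨i, ik⟩ 1
    have t2 := (Semi.of_alg τ).isAlg.2 (show IsAlgebraic (adjoin ℂ (range b ∪ ∅)) (a k) by
      rwa [union_empty])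
    rw [h3, image_empty, union_empty] at t2
    have t3 : IsAlgebraic (adjoin ℂ (range b)) (a k - τ (a k)) := t.sub t2
    rw [h2, sub_sub_cancel, Nat.cast_one, one_mul] at t3
    have a1 : AlgebraicIndependent ℂ fun _ : Unit => ι (s i / s k) :=
      (algebraicIndependent_unique_type_iff.2 hs).map' (f := ι) ι.injective
    have a2 := a1.sumElim_of_tower (S := ι.fieldRange) (by
      rintro _ ⟨l, rfl⟩
      exact ⟨⟨_, _, rfl⟩, rfl⟩) hb
    have := a2.transcendental_adjoin (s := range Sum.inl) (i := Sum.inr ()) (by simp)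
    rw [← range_comp] at this
    exact this (isAlgebraic_adjoin_iff.1 t3)
  have v := (u.option_iff_transcendental (a k)).2 (transcendental_adjoin_iff.1 t)
  refine ind_of_mem (Nat.card_congr (Equiv.optionSubtypeNe k)).ge v fun l => subset_adjoin _ _ ?_
  cases l
  exacts [⟨_, rfl⟩, ⟨_, rfl⟩]

theorem cld (hK : Algebra.EssFiniteType ℂ K) (h : UH ι s a) {i j k : σ}
    (hs : AlgebraicIndependent ℂ ![s i / s k, s j / s k]) : Cld (adjoin ℂ (range a)) := by
  classical
  have hk : s k ≠ 0 := fun e => hs.ne_zero 0 (by simp [e])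
  have one : ∀ l, Transcendental ℂ (s l / s k) → l ≠ k := fun l t e =>
    t (by rw [e, div_self hk]; exact isAlgebraic_one)
  have ik := one i (hs.transcendental 0)
  have jk := one j (hs.transcendental 1)
  let b : {l // l ≠ k} → K₁ := fun l => a l
  have hb : AlgebraicIndependent ι.fieldRange b := h.ind k hk
  have ht : adjoin ι.fieldRange (range b) = ⊤ := top_of h.rel h.gen hk
  let k₀ := adjoin ℂ (range b)
  have bk : ∀ l, b l ∈ k₀ := fun l => subset_adjoin _ _ ⟨l, rfl⟩
  have c₀ : ∀ f : K₁, IsAlgebraic k₀ f → f ∈ range (algebraMap k₀ K₁) := fun f hf =>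
    ⟨⟨f, cld_tr (fun c hc => minpoly.mem_range_of_degree_eq_one ℂ _
      (IsAlgClosed.degree_eq_one_of_irreducible ℂ (minpoly.irreducible hc))) hb
        (ht.ge mem_top) hf⟩, rfl⟩
  have tr := tr h hk
  have rs : ∀ S : Set K₁, (adjoin k₀ S).restrictScalars ℂ = adjoin ℂ (range b ∪ S) := fun S =>
    adjoin_adjoin_left ℂ _ S
  have xy : AlgebraicIndependent k₀ ![ι (s i / s k), ι (s j / s k)] := by
    have a1 : AlgebraicIndependent ℂ ![ι (s i / s k), ι (s j / s k)] := by
      have := hs.map' (f := ι) ι.injective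
      rwa [show ι ∘ _ = ![ι (s i / s k), ι (s j / s k)] from
        funext fun l => by fin_cases l <;> rfl] at this
    have a2 := a1.sumElim_of_tower (S := ι.fieldRange) (by
      rintro _ ⟨l, rfl⟩
      fin_cases l
      exacts [⟨⟨_, _, rfl⟩, rfl⟩, ⟨⟨_, _, rfl⟩, rfl⟩]) hb
    have a3 := a2.comp _ (Equiv.sumComm _ _).injective
    rw [show Sum.elim b ![ι (s i / s k), ι (s j / s k)] ∘ Equiv.sumComm _ _ =
      Sum.elim ![ι (s i / s k), ι (s j / s k)] b from funext fun l => by cases l <;> rfl] at a3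
    exact algebraicIndependent_adjoin_iff.2 (AlgebraicIndependent.sumElim_iff.1 a3).2
  have zx : AlgebraicIndependent k₀ ![a k, ι (s i / s k)] := by
    have t : Transcendental (adjoin k₀ {ι (s i / s k)}) (a k) := fun t => by
      obtain ⟨τ, h1, h2, h3⟩ := tr ⟨j, jk⟩ 1
      have t1 : IsAlgebraic (adjoin ℂ (range b ∪ {ι (s i / s k)})) (a k) := rs _ ▸ t
      have t2 := (Semi.of_alg τ).isAlg.2 t1
      rw [h3, image_singleton, h1, ← rs] at t2
      have t3 : IsAlgebraic (adjoin k₀ {ι (s i / s k)}) (a k - τ (a k)) := t.sub t2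
      rw [h2, sub_sub_cancel, Nat.cast_one, one_mul] at t3
      have := xy.transcendental_adjoin (s := {0}) (i := 1) (by simp)
      rw [image_singleton] at this
      exact this (isAlgebraic_adjoin_iff.1 t3)
    have u : AlgebraicIndependent k₀ fun _ : Unit => ι (s i / s k) :=
      algebraicIndependent_unique_type_iff.2 (xy.transcendental 0)
    have v := (u.option_iff_transcendental (a k)).2 (by
      rw [range_const]
      exact transcendental_adjoin_iff.1 t)
    refine ind_of_mem (by simp) v fun l => subset_adjoin _ _ ?_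
    cases l
    exacts [⟨0, rfl⟩, ⟨1, rfl⟩]
  have ra : range a = range b ∪ {a k} := by
    ext x
    refine ⟨fun ⟨l, e⟩ => ?_, fun e => e.elim (fun ⟨l, e⟩ => ⟨l, e⟩) fun e => ⟨k, e.symm⟩⟩
    by_cases q : l = k
    · exact Or.inr (by rw [← e, q]; rfl)
    · exact Or.inl ⟨⟨l, q⟩, e⟩
  have e1 : Algebra.EssFiniteType ℂ ι.fieldRange :=
    .of_surjective (AlgEquiv.ofInjectiveField ι).toAlgHom (AlgEquiv.ofInjectiveField ι).surjective
  have e2 : Algebra.EssFiniteType ι.fieldRange K₁ := by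
    have : Algebra.EssFiniteType ι.fieldRange (⊤ : IntermediateField ι.fieldRange K₁) :=
      ht ▸ essFiniteType_iff.2 (fg_adjoin_of_finite (finite_range b))
    exact .of_surjective topEquiv.toAlgHom topEquiv.surjective
  have e3 : Algebra.EssFiniteType ℂ K₁ := .comp ℂ ι.fieldRange K₁
  have e4 : Algebra.EssFiniteType k₀ K₁ := .of_comp ℂ _ _
  have : CharZero k₀ := charZero_of_injective_algebraMap (algebraMap ℂ k₀).injective
  intro θ hθ
  rw [ra] at hθ ⊢
  choose τ _ h2 h3 using tr ⟨i, ik⟩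
  obtain ⟨m, hm⟩ := bertini c₀ zx (fun m => τ m θ) fun m => by
    have := (Semi.of_alg (τ m)).isAlg.2 hθ
    rwa [h3, image_singleton, h2, ← rs] at this
  rw [← (Semi.of_alg (τ m)).map_mem_sub, h3, image_singleton, h2, ← rs]
  exact hm

end Ir

/-- **IRR** -/
theorem irr : IRR := fun _ _ _ _ hK _ _ s hs =>
  let ⟨K₁, f, g, ι, a, h⟩ := Ir.exists_uh s hs
  ⟨K₁, f, g, ι, a, h, fun _ _ _ k => Ir.cld hK.ess h k⟩

end Vale.Agent.P287D.Gm
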