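import Vale.Agent.P287D.Gm.Uh1

/-!
# P287D, block GM: intersection numbers on the universal member (UHN)
-/

set_option linter.all false

open Set Algebra IsLocalRing
open Vale.Agent.P297Z

noncomputable section

namespace Vale.Agent.P287D.Gm.Uh

open Gx

/-- omit a coordinate -/
abbrev om {X : Type} {M : ℕ} (a : Fin (M + 1) → X) (k : Fin (M + 1)) : Fin M → X :=
  fun i => a (k.succAbove i)

theorem ap_ex {X : Type} {r : ℕ} (H : Fin r → X) (k : Fin r) :
    ∀ (m : ℕ) (β : Fin m → X), ∃ j, ap m β H j = H k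
  | 0, _ => ⟨k, rfl⟩
  | m + 1, β => let ⟨j, h⟩ := ap_ex H k m (Fin.tail β); ⟨j.succ, h⟩

section alg

variable {F E : Type} [Field F] [Field E] {M : ℕ} {φ : F →+* E} {s : Fin (M + 1) → F}
  {a : Fin (M + 1) → E} {k : Fin (M + 1)}

theorem solve (rel : ∑ i, a i * φ (s i) = 0) (hk : s k ≠ 0) :
    a k = -∑ i, om a k i * φ (om s k i / s k) := by
  have := (map_ne_zero φ).2 hk
  rw [Fin.sum_univ_succAbove _ k] at rel
  simp only [map_div₀, ← mul_div_assoc, ← Finset.sum_div]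
  rw [← neg_div, eq_div_iff this]
  exact eq_neg_of_add_eq_zero_left rel

theorem mem_om (rel : ∑ i, a i * φ (s i) = 0) (hk : s k ≠ 0) (i : Fin (M + 1)) :
    a i ∈ gn φ (om a k) := by
  obtain rfl | ⟨i, rfl⟩ := Fin.eq_self_or_eq_succAbove k i
  · rw [solve rel hk]
    exact neg_mem (sum_mem fun j _ => mul_mem (mem_r _ _ j) (mem_l _ _ _))
  · exact mem_r φ (om a k) i

theorem gen_om (rel : ∑ i, a i * φ (s i) = 0) (g : gn φ a = ⊤) (hk : s k ≠ 0) :
    gn φ (om a k) = ⊤ :=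
  eq_top_iff.2 (g.ge.trans (Subfield.closure_le.2 (by
    rintro _ (⟨f, rfl⟩ | ⟨i, rfl⟩)
    exacts [mem_l _ _ f, mem_om rel hk i])))

theorem gen_of (g : gn φ (om a k) = ⊤) : gn φ a = ⊤ :=
  eq_top_iff.2 (g.ge.trans (Subfield.closure_le.2 (by
    rintro _ (⟨f, rfl⟩ | ⟨i, rfl⟩)
    exacts [mem_l _ _ f, mem_r _ _ _])))

theorem rel_mul (rel : ∑ i, a i * φ (s i) = 0) (t : F) : ∑ i, a i * φ (s i * t) = 0 := by
  simp only [map_mul, ← mul_assoc, ← Finset.sum_mul, rel, zero_mul]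

end alg

variable {K K₁ : Type} [Field K] [Algebra ℂ K] [Field K₁] [Algebra ℂ K₁] {p M : ℕ}
  {ι : K →ₐ[ℂ] K₁} {s : Fin (M + 1) → K} {a : Fin (M + 1) → K₁} {k : Fin (M + 1)} {R : Pl K₁}
  {Q : Pl K}

theorem uh_gen (h : UH ι s a) (hk : s k ≠ 0) : gn (ι : K →+* K₁) (om a k) = ⊤ :=
  gen_om (φ := (ι : K →+* K₁)) h.rel h.gen hk

theorem ind_iff' (ι : K →ₐ[ℂ] K₁) (a : Fin (M + 1) → K₁) (k : Fin (M + 1)) :
    (AlgebraicIndependent ι.fieldRange fun i : {i // i ≠ k} => a i) ↔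
      Ind (ι : K →+* K₁) (om a k) := by
  let _ := (ι : K →+* K₁).toAlgebra
  exact (algebraicIndependent_equiv (finSuccAboveEquiv k)).symm.trans
    (algebraicIndependent_ringHom_iff_of_comp_eq (x := om a k)
      (AlgEquiv.ofInjectiveField ι).toRingEquiv (RingHom.id K₁) Function.injective_id rfl)

theorem uh_ind (h : UH ι s a) (hk : s k ≠ 0) : Ind (ι : K →+* K₁) (om a k) :=
  (ind_iff' ι a k).1 (h.ind k hk)

theorem uh_ff (h : UH ι s a) (hK : FF K p) : FF K₁ (p + M) :=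
  let ⟨_, hk⟩ := h.nz
  ff_of ι hK (uh_gen h hk) (uh_ind h hk)

theorem uh_mk (hK : FF K p) (rel : ∑ i, a i * (ι : K →+* K₁) (s i) = 0) (hk : s k ≠ 0)
    (g : gn (ι : K →+* K₁) (om a k) = ⊤) (hi : Ind (ι : K →+* K₁) (om a k)) : UH ι s a :=
  ⟨⟨k, hk⟩, rel, gen_of g, fun j hj => (ind_iff' ι a j).2
    (ind_of ι hK (ff_of ι hK g hi) le_rfl (gen_om rel (gen_of g) hj))⟩

theorem mem_all {φ : K →+* K₁} (rel : ∑ i, a i * φ (s i) = 0) (h : Lies φ R Q)
    (hs : ∀ i, s i ∈ Q.ring) (hk : s k ≠ 0) (o : Q.ord (s k) = 0) (hm : ∀ i, om a k i ∈ R.ring)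
    (i : Fin (M + 1)) : a i ∈ R.ring := by
  obtain rfl | ⟨i, rfl⟩ := Fin.eq_self_or_eq_succAbove k i
  · rw [solve rel hk]
    refine neg_mem (sum_mem fun j _ => mul_mem (hm j) ((h _).1 ?_))
    rw [div_eq_mul_inv]
    exact mul_mem (hs _) ((Pl.ord_eq_zero_iff _ hk).1 o).2
  · exact hm i

theorem rd_lc {τ : Type} [Fintype τ] {φ : K →+* K₁} (h : Lies φ R Q) {s : τ → K} {a : τ → K₁}
    (hs : ∀ i, s i ∈ Q.ring) (hm : ∀ i, a i ∈ R.ring) :
    R.rd (∑ i, a i * φ (s i)) = ∑ i, R.rd (a i) * h.κ (Q.rd (s i)) := by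
  rw [rd_sum R _ fun i => mul_mem (hm i) ((h _).1 (hs i))]
  exact Finset.sum_congr rfl fun i _ => by
    rw [rd_mul R (hm i) ((h _).1 (hs i)), h.isRd _ (hs i)]

open Classical in
theorem ex_min (h : ∃ j, s j ≠ 0) (Q : Pl K) :
    (∀ i, s i * Q.t ^ Q.mz (Finset.univ.image s) ∈ Q.ring) ∧
      ∃ k, s k * Q.t ^ Q.mz (Finset.univ.image s) ≠ 0 ∧
        Q.ord (s k * Q.t ^ Q.mz (Finset.univ.image s)) = 0 := by
  refine ⟨fun i => Q.mem_ring_mz (Submodule.subset_span (by simp)), ?_⟩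
  obtain ⟨j, hj⟩ := h
  obtain ⟨f, a, b, c⟩ := Q.exists_mz (s := Finset.univ.image s) ⟨s j, by simp, hj⟩
  obtain ⟨k, -, rfl⟩ := Finset.mem_image.1 a
  exact ⟨k, mul_ne_zero b (zpow_ne_zero _ Q.t_ne), by rw [Q.ord_mul_t b, c, add_neg_cancel]⟩

theorem sz (β : BD K) : β - β ∈ Prn K := by simp

theorem fsum {A B : Type} {g : B → A} (hg : Function.Injective g) {u : A → ℝ} {v : B → ℝ}
    (h0 : ∀ x, x ∉ range g → u x = 0) (h : ∀ y, u (g y) = v y) : ∑ᶠ x, u x = ∑ᶠ y, v y := by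
  rw [← finsum_mem_univ u, finsum_mem_inter_support_eq' u univ (range g) fun x hx =>
    ⟨fun _ => by_contra fun z => hx (h0 x z), fun _ => trivial⟩, finsum_mem_range hg]
  exact finsum_congr h

open Classical in
/-- the pole order of the omitted coordinate at the Gauss place -/
theorem coef (u : UH ι s a) (hk : s k ≠ 0) (h : G (ι : K →+* K₁) (om a k) R Q)
    (e : R.ord (ι Q.t) = 1) : mx {1, a k} R = (mx (Finset.univ.image s) + dv (s k)) Q := by
  obtain ⟨hs, l, l0, l1⟩ := ex_min u.nz Q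
  have rel := rel_mul (φ := (ι : K →+* K₁)) u.rel (Q.t ^ Q.mz (Finset.univ.image s))
  have k0 := mul_ne_zero hk (zpow_ne_zero (Q.mz (Finset.univ.image s)) Q.t_ne)
  have o := Q.ord_mul_t hk (Q.mz (Finset.univ.image s))
  have o0 := Pl.ord_nonneg_of_mem _ (hs k)
  suffices z : max 0 (-R.ord (a k)) = Q.mz (Finset.univ.image s) + Q.ord (s k) by
    refine (mz_pair R _).trans ?_
    change _ = (Q.mz _ : ℝ) + (Q.ord _ : ℝ)
    exact_mod_cast z
  rcases o0.eq_or_lt with z | z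
  · have := Pl.ord_nonneg_of_mem _ (mem_all rel h.lies hs k0 z.symm h.mem k)
    omega
  · obtain rfl | ⟨l, rfl⟩ := Fin.eq_self_or_eq_succAbove k l
    · omega
    rw [Fin.sum_univ_succAbove _ k] at rel
    have w := ord_of_rd R (sum_mem fun i _ => mul_mem (h.mem i) ((h.lies _).1 (hs _))) fun y =>
      (rd_ne Q l0 l1).2 (h.ind.lin ((rd_lc h.lies (fun i => hs (k.succAbove i)) h.mem).symm.trans
        y) l)
    rw [eq_neg_of_add_eq_zero_right rel, neg_ne_zero, Pl.ord_neg] at w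
    have w2 := w.2
    rw [Pl.ord_mul _ (left_ne_zero_of_mul w.1) (right_ne_zero_of_mul w.1), h.lies.ord] at w2
    have e' : R.ord ((ι : K →+* K₁) Q.t) = 1 := e
    rw [e'] at w2
    omega

open Classical in
theorem base (hM : MOD) (hR : RES) (hI : INT) (hP : PB) (hU : UNIT) (hK : FF K 1)
    (u : UH ι s a) : I (M + 1) K₁ (fun i => mx {1, a i}) =
      ∑ᶠ Q : Pl K, mx (Finset.univ.image s) Q * 1 := by
  obtain ⟨k, hk⟩ := u.nz
  have f1 : FF K₁ (M + 1) := add_comm 1 M ▸ uh_ff u hK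
  choose g h e1 e2 using ex_G ι (uh_gen u hk) (uh_ind u hk)
  rw [← hI.perm _ _ f1 _ k.cycleRange.symm fun _ => mx_mem_Car _]
  refine Eq.trans ?_ (I_congr hI hM hK (β := fun _ => mx (Finset.univ.image s))
    (γ := fun _ => mx (Finset.univ.image s) + dv (s k)) (fun _ => mx_mem_Car _)
    fun _ => by rw [add_sub_cancel_left]; exact dv_mem_Prn _)
  change ∑ᶠ R : Pl K₁, mx {1, a (k.cycleRange.symm 0)} R *
    I M R.κ (fun i => res R (mx {1, a (k.cycleRange.symm i.succ)})) =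
      ∑ᶠ Q : Pl K, (mx (Finset.univ.image s) + dv (s k)) Q * 1
  simp only [Fin.cycleRange_symm_zero, Fin.cycleRange_symm_succ]
  refine fsum (g := g) (fun Q Q' z => (h Q).lies.uniq (z ▸ (h Q').lies)) (fun R z => ?_) fun Q => ?_
  · obtain w | ⟨Q, w⟩ := f1.ok ι R
    · by_cases y : ∀ i, om a k i ∈ R.ring
      · rw [(res_mem hR f1 R (f := a k) ?_).1, zero_mul]
        rw [solve (φ := (ι : K →+* K₁)) u.rel hk]
        exact neg_mem (sum_mem fun j _ => mul_mem (y j) (w _))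
      · obtain ⟨i, hi⟩ := not_forall.1 y
        exact mul_eq_zero_of_right _ (hI.prn M _ (ff_κ R f1) _ i
          (fun j _ => res_car hR f1 R (mx_mem_Car _)) (res_not hR f1 R hi))
    · rw [van hM hR hI hP hK f1 (zero_add M).symm w (b := om a k) (fun _ => mx_mem_Car _)
        (fun i => ⟨i, rfl⟩) (fun y j => .inr ⟨_, y j, mem_r _ _ j, rfl⟩)
        (fun y => z ⟨Q, (h Q).uq (uh_gen u hk) y⟩), mul_zero]
  · have i1 : AlgebraicIndependent ℂ fun i => (g Q).rd (om a k i) := by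
      have := (h Q).ind.down (algebraMap ℂ Q.κ)
      rwa [show (h Q).lies.κ.comp (algebraMap ℂ Q.κ) = algebraMap ℂ _ from
        RingHom.ext (κa (h Q).lies).commutes] at this
    have i2 : IntermediateField.adjoin ℂ (range fun i => (g Q).rd (om a k i)) = ⊤ := by
      have := trdeg_eq_zero_iff.1 ((ff_κ Q hK).trdeg.trans Nat.cast_zero)
      refine adj_top (eq_top_iff.2 ((e2 Q).ge.trans (Subfield.closure_le.2 ?_)))
      rintro _ (⟨f, rfl⟩ | ⟨i, rfl⟩)
      · obtain ⟨c, rfl⟩ := (IsAlgClosed.algebraMap_bijective_of_isIntegral (k := ℂ)).2 f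
        exact (κa (h Q).lies).commutes c ▸ mem_l _ _ c
      · exact mem_r _ _ i
    rw [coef u hk (h Q) (e1 Q), funext fun i => (res_mem hR f1 (g Q) ((h Q).mem i)).2,
      hU M _ (ff_κ _ f1) _ i1, i2, IntermediateField.finrank_top, Nat.cast_one]

end Uh

open Uh Gx

open Classical in
theorem uhn (hM : MOD) (hR : RES) (hI : INT) (hP : PB) (hU : UNIT) : UHN := by
  intro n N
  obtain _ | M := N
  · intro K K₁ _ _ _ _ ι s a _ u
    exact u.nz.elim fun j => j.elim0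
  induction n with
  | zero => exact fun K K₁ _ _ _ _ ι s a hK u β _ => base hM hR hI hP hU hK u
  | succ n ih =>
    intro K K₁ _ _ _ _ ι s a hK u β hβ
    have f1 : FF K₁ (M + 1 + n + 1) := (by omega : n + 1 + 1 + M = M + 1 + n + 1) ▸ uh_ff u hK
    have ok := f1.ok ι
    have cβ : ∀ i : Fin n, β i.succ ∈ Car K := fun i => hβ _ (by simp)
    choose hs k k0 k1 using ex_min u.nz
    have hk := fun Q => left_ne_zero_of_mul (k0 Q)
    have rel := fun Q : Pl K =>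
      rel_mul (φ := (ι : K →+* K₁)) u.rel (Q.t ^ Q.mz (Finset.univ.image s))
    choose g h e1 e2 using fun Q => ex_G ι (uh_gen u (hk Q)) (uh_ind u (hk Q)) Q
    have rr : ∀ R Q (w : Lies (ι : K →+* K₁) R Q), (∀ i, a i ∈ R.ring) → ∑ i, R.rd (a i) *
        w.κ (Q.rd (s i * Q.t ^ Q.mz (Finset.univ.image s))) = 0 := fun R Q w y => by
      rw [← rd_lc w (hs Q) y, rel, rd_zero]
    have es : ∀ i : Fin (n + 1), (Fin.snoc β (mx (Finset.univ.image s)) : Fin (n + 2) → _) i.succ =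
        (Fin.snoc (fun i => β i.succ) (mx (Finset.univ.image s)) : Fin (n + 1) → _) i := fun i => by
      refine Fin.lastCases ?_ (fun i => ?_) i
      · rw [Fin.succ_last, Fin.snoc_last, Fin.snoc_last]
      · rw [Fin.succ_castSucc, Fin.snoc_castSucc, Fin.snoc_castSucc]
    change ∑ᶠ R : Pl K₁, pb (ι : K →+* K₁) (β 0) R * I (M + 1 + n) R.κ
      (fun i => res R (ap n (fun i => pb (ι : K →+* K₁) (β i.succ)) (fun i => mx {1, a i}) i)) =
      ∑ᶠ Q : Pl K, β 0 Q * I (n + 1) Q.κ fun i => res Q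
        ((Fin.snoc β (mx (Finset.univ.image s)) : Fin (n + 2) → _) i.succ)
    have cc := ap_all (p := (· ∈ Car K₁)) (H := fun i => mx {1, a i}) (fun _ => mx_mem_Car _)
      fun i => ok.car (cβ i)
    refine fsum (g := g) (fun Q Q' z => (h Q).lies.uniq (z ▸ (h Q').lies)) (fun R z => ?_)
      fun Q => ?_
    · obtain w | ⟨Q, w⟩ := ok R
      · rw [w.pb, zero_mul]
      · rw [van hM hR hI hP hK f1 (by omega) w (b := om a (k Q)) cc (fun i => ?_)
          (fun y => ap_all (p := fun γ => (∃ β ∈ Car K, γ = pb (ι : K →+* K₁) β) ∨ ∃ x ∈ R.ring,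
            R.rd x ∈ gn w.κ (fun i => R.rd (om a (k Q) i)) ∧ γ = mx {1, x}) (fun i => ?_)
            fun i => .inl ⟨_, cβ i, rfl⟩)
          (fun y => z ⟨Q, (h Q).uq (uh_gen u (hk Q)) y⟩), mul_zero]
        · exact ap_ex (fun i => mx {1, a i}) ((k Q).succAbove i) _ _
        · have y' := mem_all (rel Q) w (hs Q) (k0 Q) (k1 Q) y
          exact .inr ⟨_, y' i, mem_om (rr R Q w y') (rd_ne Q (k0 Q) (k1 Q)).2 i, rfl⟩
    · have y := mem_all (rel Q) (h Q).lies (hs Q) (k0 Q) (k1 Q) (h Q).mem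
      have f2 := ff_κ (g Q) f1
      have f0 := ff_κ Q hK
      have u' : UH (κa (h Q).lies) _ _ :=
        uh_mk f0 (rr _ Q (h Q).lies y) (rd_ne Q (k0 Q) (k1 Q)).2 (e2 Q) (h Q).ind
      have o := f2.ok (κa (h Q).lies)
      have cr := fun i => res_car hR hK Q (cβ i)
      have e' : (g Q).ord ((ι : K →+* K₁) Q.t) = 1 := e1 Q
      rw [(h Q).lies.pb, e', Int.cast_one, one_mul, ap_map,
        funext fun i => (res_mem hR f1 (g Q) (y i)).2,
        I_congr hI hM f2 (ap_all (p := (· ∈ Car _)) (fun _ => mx_mem_Car _) fun i => o.car (cr i))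
          (ap_rel (fun a b => a - b ∈ Prn (g Q).κ) (fun j => sz _) n _ _
            fun i =>
            rst hR hK f1 ok (h Q).lies (h Q).lies.isRd o (cβ i)),
        ih _ _ _ _ _ f0 u' _ fun i _ => cr i]
      congr 2
      funext i
      rw [es]
      refine Fin.lastCases ?_ (fun i => ?_) i
      · rw [Fin.snoc_last, Fin.snoc_last, hR.sys _ K hK, Pl.rs, Finset.image_image]
        rfl
      · rw [Fin.snoc_castSucc, Fin.snoc_castSucc]

end Vale.Agent.P287D.Gm
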