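import Vale.Agent.P287D.Gm.Gau
import Vale.Agent.P287D.Gm.St
import Vale.Agent.P287D.Pb.Deg
import Vale.Agent.P287D.Ba.Hy
import Vale.Agent.P287D.Cv.Deg

/-!
# P287D, block GM: the degree over a purely transcendental field
-/

set_option linter.unusedSectionVars false

open Set Algebra Cardinal
open Vale.Agent.P297Z

noncomputable section

namespace Vale.Agent.P287D.Gm

open Pb Gx Classical

namespace Un

variable {K K' : Type} [Field K] [Algebra ℂ K] [Field K'] [Algebra ℂ K'] {n : ℕ}

/-- the divisor of poles -/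
def pr (a : K) : BD K := mx {1, a}

theorem pr_car (a : K) : pr a ∈ Car K := mx_mem_Car _

/-- the generators inside the field they generate -/
def gn {ι : Type} (y : ι → K) (i : ι) : IntermediateField.adjoin ℂ (range y) :=
  ⟨y i, IntermediateField.subset_adjoin _ _ ⟨i, rfl⟩⟩

theorem gn_top {ι : Type} (y : ι → K) : IntermediateField.adjoin ℂ (range (gn y)) = ⊤ :=
  IntermediateField.lift_injective _ (by
    rw [IntermediateField.lift_adjoin, IntermediateField.lift_top, ← range_comp]
    rfl)

theorem fin_top {L : IntermediateField ℂ K} (h : L = ⊤) : Module.finrank L K = 1 :=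
  IntermediateField.finrank_eq_one_iff_eq_top.2 h

theorem ff_adjoin {y : Fin n → K} (hy : AlgebraicIndependent ℂ y) :
    FF (IntermediateField.adjoin ℂ (range y)) n :=
  ⟨gn y, .of_comp (IntermediateField.val _) hy,
    Module.finite_of_finrank_eq_succ (fin_top (gn_top y))⟩

theorem ind_of_fin (h : FF K n) {y : Fin n → K}
    (k : FiniteDimensional (IntermediateField.adjoin ℂ (range y)) K) : AlgebraicIndependent ℂ y :=
  have := IntermediateField.isAlgebraic_adjoin_iff_top.1
    (Algebra.IsAlgebraic.of_finite (IntermediateField.adjoin ℂ (range y)) K)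
  (Algebra.IsAlgebraic.isTranscendenceBasis_of_le_trdeg_of_finite ℂ y (by simp [h.trdeg])).1

theorem pb_pair {φ : K →+* K'} (ok : Ok φ) (a : K) : pb φ (pr a) = pr (φ a) := by
  rw [pr, ok.pb_mx]
  exact congrArg mx (by ext; simp [mem_im, eq_comm])

theorem res_pair (h : FF K n) (P : Pl K) {a : K} (ha : a ∈ P.ring) :
    res P (pr a) = pr (P.rd a) := by
  have e : P.mz {1, a} = 0 := by
    rw [P.mz_eq (f := 1) (by simp) one_ne_zero, Pl.ord_one, neg_zero]
    simpa using fun _ => Pl.ord_nonneg_of_mem _ ha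
  have o : P.rd 1 = 1 := by simpa using rd_cst P 1
  rw [pr, res_mx h P, Pl.rs, e]
  simp [o, pr]

theorem res_pole (h : FF K n) (P : Pl K) {a : K} (ha : a ∉ P.ring) :
    res P (pr a) ∈ Prn P.κ := by
  have m := (P.ring.mem_or_inv_mem a).resolve_left ha
  have z : P.rd a⁻¹ = 0 := (rd_of P m).trans ((IsLocalRing.residue_eq_zero_iff _).2
    ((Pl.mem_maximalIdeal_iff _ _).2 (Or.inr (Pl.ord_pos_of_inv_notMem _ (by simpa using ha)))))
  rw [← sub_sub_cancel (pr a⁻¹) (pr a), show pr a⁻¹ - pr a = _ from (dv_eq_sub a).symm,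
    res_sub h P (pr_car _) (Prn_le_Car (dv_mem_Prn _)), res_pair h P m, z, pr, mx_one_pair]
  simpa using res_prn h P (dv_mem_Prn a)

theorem zero_of_dep (h : FF K n) {y : Fin n → K} (hy : ¬ AlgebraicIndependent ℂ y) :
    I n K (fun i => pr (y i)) = 0 := by
  obtain ⟨m, hm, f⟩ := ff_sub h (IntermediateField.adjoin ℂ (range y))
  refine low In.hy res' n m _ K (inc _) f h (.of_lin fun _ => rfl) _ Finset.univ ?_
    (fun _ _ => pr_car _) fun i _ => ⟨_, pr_car _, (pb_pair (h.ok_sub _) (gn y i)).symm⟩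
  rw [Finset.card_fin]
  refine lt_of_le_of_ne hm fun e => hy (ind_of_fin h ?_)
  exact fin_of_ff (e ▸ f) h

theorem unit1 (n : ℕ) : ∀ (K : Type) [Field K] [Algebra ℂ K], FF K n → ∀ b : Fin n → K,
    IntermediateField.adjoin ℂ (range b) = ⊤ → I n K (fun i => pr (b i)) = 1 := by
  induction n with
  | zero => exact fun _ _ _ _ _ _ => rfl
  | succ n ih =>
    intro K _ _ hK b hb
    have i0 := (ind_of_fin hK (Module.finite_of_finrank_eq_succ (fin_top hb))).comp
      (fun _ : Fin 1 => 0) fun _ _ _ => Subsingleton.elim _ _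
    have fL := ff_adjoin i0
    let x := gn (b ∘ fun _ : Fin 1 => 0) 0
    have hg : Subfield.closure (range (inc (IntermediateField.adjoin ℂ
        (range (b ∘ fun _ : Fin 1 => 0)))) ∪ range fun i : Fin n => b i.succ) = ⊤ := by
      refine top_le_iff.1 ((congrArg IntermediateField.toSubfield hb).ge.trans
        (Subfield.closure_mono (union_subset ?_ ?_)))
      · rintro _ ⟨c, rfl⟩
        exact Or.inl ⟨algebraMap ℂ _ c, rfl⟩
      · rintro _ ⟨i, rfl⟩
        exact Fin.cases (Or.inl ⟨x, rfl⟩) (fun i => Or.inr ⟨i, rfl⟩) i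
    choose G hG using gau_ex (φ := inc _) (fun _ => rfl)
      (ind_of_trdeg (φ := inc _) (fun _ => rfl) fL hg (by simp [hK.trdeg, add_comm])) hg
    have e0 : pr (b 0) = pb (inc _) (pr x) := (pb_pair (hK.ok_sub _) x).symm
    have e1 : I1 (pr x) = 1 := by
      refine (@Cv.I1_pair _ _ _ fL (fun _ _ => propDecidable _) x fun a e => i0.transcendental 0
        (show IsAlgebraic ℂ (x : K) by rw [e]; exact isAlgebraic_algebraMap a)).trans ?_
      exact Nat.cast_eq_one.2
        (fin_top ((congrArg _ range_unique).symm.trans (gn_top (b ∘ fun _ : Fin 1 => 0))))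
    have c : ∀ P : Pl K, (∀ i : Fin n, b i.succ ∈ P.ring) →
        In.cf P (fun i : Fin n => pr (b i.succ)) = I n P.κ fun i => pr (P.rd (b i.succ)) :=
      fun P m => congrArg _ (funext fun i => res_pair hK P (m i))
    rw [In.I_succ, ← e1, Cv.I1_eq, ← finsum_mem_univ,
      finsum_mem_inter_support_eq' _ _ (range G) fun P hP => ?_,
      finsum_mem_range (g := G) fun Q Q' e => (hG Q).lies.uniq (e ▸ (hG Q').lies)]
    · refine finsum_congr fun Q => ?_
      rw [e0, (hG Q).lies.pb, (hG Q).e hg, c _ (hG Q).mem, ih _ (ff_κ _ hK) _ (Ga.adjoin_top ?_)]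
      · simp
      · refine top_le_iff.1 (((hG Q).gen hg).ge.trans
          (Subfield.closure_mono (union_subset_union_left _ ?_)))
        rintro _ ⟨a, rfl⟩
        obtain ⟨a, rfl⟩ := Cv.κ_surj fL Q a
        exact ⟨a, (rd_lin (hG Q).lies.isRd (fun _ => rfl) a).symm⟩
    · refine iff_of_true trivial ?_
      obtain ⟨Q, l⟩ := (hK.ok_sub _ P).resolve_left fun t =>
        left_ne_zero_of_mul hP (by rw [e0, t.pb])
      have k := right_ne_zero_of_mul hP
      have m : ∀ i : Fin n, b i.succ ∈ P.ring := fun i => by_contra fun z =>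
        k ((In.hy.rows hK P).prn _ i (fun _ => In.res_car _ _) (res_pole hK P z))
      refine ⟨Q, (hG Q).uniq ⟨l, m, fun q e => ?_⟩ hg⟩
      obtain ⟨q, rfl⟩ := MvPolynomial.map_surjective _ (Cv.κ_surj fL Q) q
      rw [MvPolynomial.eval₂_map, show l.κ.comp _ = algebraMap ℂ P.κ from
        RingHom.ext (rd_lin l.isRd fun _ => rfl)] at e
      rw [Ga.ind_alg.1 (by_contra fun z => k ((c P m).trans (zero_of_dep (ff_κ P hK) z))) q e,
        map_zero]

end Un

open Un in
/-- **UNIT** -/
theorem unit : UNIT := fun N K _ _ hK b hb => by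
  have := deg In.hy res' N _ K (inc _) (fun _ => rfl) (ff_adjoin hb) hK
    (fun i => pr (gn b i)) fun _ _ => pr_car _
  rw [unit1 N _ (ff_adjoin hb) _ (gn_top b), mul_one] at this
  exact (congrArg _ (funext fun i => (pb_pair (hK.ok_sub _) (gn b i)).symm)).trans this

end Vale.Agent.P287D.Gm
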