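import Vale.Agent.P287D.Gm.Trm
import Vale.Agent.P287D.Gm.Irr
import Vale.Agent.P287D.Gm.Unit
import Vale.Agent.P287D.Gm.Uhn
import Vale.Agent.P287D.Gf.Five

/-!
# P287D, block GM: the generic member of a linear system
-/

set_option linter.unusedSectionVars false
set_option linter.unusedVariables false

open Set
open Vale.Agent.P285N.Brep (jac Fr)
open Vale.Agent.P297Z Vale.Agent.P287D.Cb

noncomputable section

namespace Vale.Agent.P287D.Gm

variable {K K₁ : Type} [Field K] [Algebra ℂ K] [Field K₁] [Algebra ℂ K₁] {n d : ℕ} {σ σ' : Type}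
  [Fintype σ] [Fintype σ'] {ι : K →ₐ[ℂ] K₁} {s : σ → K} {a : σ → K₁}

theorem exists_ind {S : Set K}
    (h : (d : Cardinal) ≤ Algebra.trdeg ℂ (IntermediateField.adjoin ℂ S)) :
    ∃ v : Fin d → K, (∀ i, v i ∈ S) ∧ AlgebraicIndependent ℂ v := by
  set F := IntermediateField.adjoin ℂ S
  have : Algebra.IsAlgebraic (Algebra.adjoin ℂ (F.val ⁻¹' S)) F := ⟨fun x =>
    mem_Cl.1 (cl_of_map F.val ((IntermediateField.adjoin_le_iff
      (T := Cl (F.val '' (F.val ⁻¹' S)))).2 (fun z hz =>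
      sub_Cl ⟨⟨z, IntermediateField.subset_adjoin _ _ hz⟩, hz, rfl⟩) x.2))⟩
  obtain ⟨t, ht, b⟩ := exists_isTranscendenceBasis_subset (R := ℂ) (F.val ⁻¹' S)
  rw [← b.cardinalMk_eq_trdeg, ← Cardinal.mk_fin] at h
  obtain ⟨f⟩ := (Cardinal.le_def _ _).1 h
  exact ⟨_, fun i => ht (f i).2, (b.1.comp f f.injective).map' (f := F.val) F.val.injective⟩

theorem exists_rat (hK : FF K n) {s : Finset K} (h0 : 0 < dim (mx s)) : ∃ k : s, (k : K) ≠ 0 ∧
    ∀ d ≤ dim (mx s), ∃ v : Fin d → s, AlgebraicIndependent ℂ fun i => (v i : K) / k := by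
  obtain ⟨v, h1, h2⟩ := exists_ind (d := 1)
    (le_of_le_of_eq (by exact_mod_cast h0) (dim_mx hK s).symm)
  obtain ⟨_, -, g, hg, e⟩ := h1 0
  have g0 : g ≠ 0 := fun q => h2.ne_zero 0 (by simp [e, q])
  refine ⟨⟨g, hg⟩, g0, fun d hd => ?_⟩
  obtain ⟨w, k1, k2⟩ := exists_ind (d := d) (S := range fun i : s => (i : K) / g)
    ((le_of_le_of_eq (by exact_mod_cast hd) (dim_mx hK s).symm).trans (trdeg_mono
      (IntermediateField.adjoin_le_iff.2 (by
        rintro _ ⟨x, hx, y, hy, rfl⟩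
        rw [← div_div_div_cancel_right₀ g0]
        exact div_mem (IntermediateField.subset_adjoin _ _ ⟨⟨x, hx⟩, rfl⟩)
          (IntermediateField.subset_adjoin _ _ ⟨⟨y, hy⟩, rfl⟩)))))
  choose u hu using k1
  exact ⟨u, funext hu ▸ k2⟩

theorem UH.comp (h : UH ι s a) (e : σ' ≃ σ) : UH ι (s ∘ e) (a ∘ e) :=
  ⟨h.nz.elim fun j hj => ⟨e.symm j, by simpa using hj⟩,
    (e.sum_comp fun i => a i * ι (s i)).trans h.rel, by rw [e.surjective.range_comp, h.gen],
    fun j hj => (h.ind (e j) hj).comp (fun i : {i // i ≠ j} => ⟨e i, e.injective.ne i.2⟩)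
      fun _ _ q => Subtype.ext (e.injective (congrArg Subtype.val q))⟩

theorem UH.ff (h : UH ι s a) (hK : FF K (n + 1)) : FF K₁ (Fintype.card σ + n) := by
  classical
  obtain ⟨j, hj⟩ := h.nz
  have g := om_gen (ι := (ι : K →+* K₁)) (j := j) h.rel hj h.gen
  rw [show om a j j = fun i : {i // i ≠ j} => a i from funext fun i => by simp [om]] at g
  have := ff_gen ι.commutes hK (ind_iff'.1 (h.ind j hj)) g
  have p := Fintype.card_pos_iff.2 ⟨j⟩
  rwa [show n + 1 + Fintype.card {i // i ≠ j} = Fintype.card σ + n by simp; omega] at this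

theorem UH.indep (h : UH ι s a) (hK : FF K (n + 1)) {i k : σ}
    (hi : AlgebraicIndependent ℂ fun _ : Fin 1 => s i / s k) : AlgebraicIndependent ℂ a := by
  classical
  have hk : s k ≠ 0 := fun q => hi.ne_zero 0 (by simp [q])
  have p0 := Fintype.card_pos_iff.2 ⟨k⟩
  have e : Fin (Fintype.card σ + n) ≃ Fin (n + 1) ⊕ {l // l ≠ k} :=
    Fintype.equivOfCardEq (by simp; omega)
  obtain ⟨z, hz⟩ := ext_ind hi n (by rw [hK.trdeg, Fintype.card_fin])
  rw [← ind_append] at hz
  obtain ⟨D, hD⟩ := fr_of hK hz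
  have d1 : D (Fin.natAdd n 0) (s i / s k) = 1 := by
    simpa using hD.dual (Fin.natAdd n 0) (Fin.natAdd n 0)
  obtain ⟨E, hE⟩ := fr_of (h.ff hK) (Wd_ind (e := e) ι.commutes hK (h.ff hK)
    (om_gen (ι := (ι : K →+* K₁)) (j := k) h.rel hk h.gen) hz)
  generalize hp : e.symm (.inl (Fin.natAdd n 0)) = p
  have e2 : ∀ x, E p (ι x) = ι (D (Fin.natAdd n 0) x) := fun x => by
    simpa [← hp] using Wd_der ι.commutes hD hE p x
  have e3 : ∀ l : {l // l ≠ k}, E p (a l) = 0 := fun l => by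
    simpa [Wd_r, om, ← hp] using hE.dual p (e.symm (.inr l))
  have e0 : E p (a k) ≠ 0 := fun q => by
    have r : ∑ l, a l * ι (s l / s k) = 0 := by
      simp only [map_div₀, ← mul_div_assoc, ← Finset.sum_div, h.rel, zero_div]
    have r' := congrArg (E p) r
    rw [map_sum, map_zero, Fintype.sum_eq_add_sum_subtype_ne _ k] at r'
    have ik : i ≠ k := fun w => by simp [w, hk] at d1
    have := Fintype.linearIndependent_iff.1 (h.ind k hk).linearIndependent
      (fun l => ⟨ι (D (Fin.natAdd n 0) (s l / s k)), _, rfl⟩) (by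
        rw [← r', div_self hk, map_one, mul_one, q, zero_add]
        refine Finset.sum_congr rfl fun l _ => ?_
        rw [Derivation.leibniz, e2, e3, smul_zero, add_zero, smul_eq_mul, mul_comm]
        rfl) ⟨i, ik⟩
    simpa [d1] using congrArg Subtype.val this
  have := ((jac_ne_iff hE _).1 (jac_upd hE p (a k) ▸ e0)).comp
    (fun l => if q : l = k then p else e.symm (.inr ⟨l, q⟩)) fun l l' q => by
      by_cases u : l = k <;> by_cases v : l' = k <;> simp [u, v, ← hp] at q ⊢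
      exact q
  refine (congrArg (fun w => AlgebraicIndependent ℂ w) (funext fun l => ?_)).mp this
  by_cases u : l = k
  · simp [u]
  · simp [u, ← hp, Wd_r, om]

/-- **GEN.gm** -/
theorem gm_of (hU : UNIT) (hN : UHN) (hI : IRR) (h5 : G5) :
    ForS fun n K _ _ => ∀ s : Finset K, 0 < dim (mx s) →
    ∃ (K' : Type) (_ : Field K') (_ : Algebra ℂ K') (φ : K →+* K') (c : ℕ), GM s φ ∧ FF K' n ∧
      0 < c ∧ (2 ≤ dim (mx s) → c = 1) ∧ ∀ β : Fin n → BD K, (∀ j, IsB n (β j)) →
        (∀ j : Fin n, j.1 ≠ 0 → β j ∈ Car K) →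
        I (n + 1) K (Fin.snoc β (mx s)) = c * I n K' fun j => pb φ (β j) := by
  intro n K _ _ hK s h0
  classical
  obtain ⟨k, hk, hv⟩ := exists_rat hK h0
  obtain ⟨K₁, _, _, ι, a, u, cl⟩ := hI _ K hK s Subtype.val ⟨k, hk⟩
  obtain ⟨v, v1⟩ := hv 1 h0
  have ai := u.indep hK (i := v 0) (k := k) (v1.comp (fun _ => 0) fun _ _ _ => Subsingleton.elim _ _)
  have f₁ := u.ff hK
  obtain ⟨L, l1, l2, l3⟩ := exists_cld (IntermediateField.adjoin ℂ (range a))
  have am : ∀ i, a i ∈ L := fun i => l1 (IntermediateField.subset_adjoin _ _ ⟨i, rfl⟩)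
  let e := (Fintype.equivFin s).symm
  let b : Fin (Fintype.card s) → L := fun i => ⟨a (e i), am _⟩
  have rb : L.val '' range b = range a := by
    rw [← range_comp, ← e.surjective.range_comp a]
    rfl
  have bi : AlgebraicIndependent ℂ b := .of_comp L.val (ai.comp e e.injective)
  have hL : FF L (Fintype.card s) := by
    obtain ⟨m, -, hm⟩ := ff_sub f₁ L
    have := (bi.isTranscendenceBasis_iff_isAlgebraic.2 ⟨fun x => mem_Cl.1 (cl_of_map L.val
      (rb ▸ mem_algebraicClosure_iff.2 (l3 x x.2)))⟩).cardinalMk_eq_trdeg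
    rw [hm.trdeg, Cardinal.mk_fin, Nat.cast_inj] at this
    exact this ▸ hm
  obtain ⟨K', _, _, ψ, g⟩ := gen_ex _ K₁ f₁ L l2
  have gd : GFd _ n L ψ := ⟨g, f₁, hL⟩
  have := hL.fin bi
  refine ⟨K', _, _, ψ.comp ι, Module.finrank (IntermediateField.adjoin ℂ (range b)) L,
    ⟨(Ext.cst' g.toExt).comp (.of_lin ι.commutes), eq_top_iff.2 (g.gen ▸ Subfield.closure_le.2 ?_),
      K₁, _, _, ι, a, L, ψ, k, hk, u.rel, u.ind k hk, u.gen, am, l3, l2, g, rfl⟩, gd.ff,
    Module.finrank_pos, fun h2 => ?_, fun β _ hβ => ?_⟩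
  · rintro _ (⟨x, rfl⟩ | hx)
    · refine Subfield.mem_comap.1 ((Subfield.closure_le (t := Subfield.comap ψ _)).2 ?_
        (u.gen ▸ Subfield.mem_top x))
      rintro _ (⟨y, rfl⟩ | ⟨i, rfl⟩)
      · exact Subfield.subset_closure (Or.inl ⟨y, rfl⟩)
      · exact Subfield.subset_closure (Or.inr (g.cst _ (am i)))
    · exact Subfield.subset_closure (Or.inr hx)
  · obtain ⟨w, w1⟩ := hv 2 h2
    have c := cl (w 0) (w 1) k ((congrArg (fun z => AlgebraicIndependent ℂ z)
      (funext fun i => by fin_cases i <;> rfl)).mp w1)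
    have t : IntermediateField.adjoin ℂ (range b) = ⊤ := eq_top_iff.2 fun x _ => by
      have := c x (l3 x x.2)
      rw [← rb, ← IntermediateField.adjoin_map] at this
      exact (IntermediateField.map_mem_map _ L.val).1 this
    rw [t, IntermediateField.finrank_top]
  · have k1 := hN n _ K K₁ ι _ _ hK (u.comp e) β hβ
    have k2 := (h5 _ n K₁ K' L ψ gd (fun j => pb (ι : K →+* K₁) (β j)) _
      (fun j hj => (f₁.ok ι).car (hβ j hj)) fun _ => by exact mx_mem_Car _).trans
      (congrArg (· * _) (hU _ L hL b bi))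
    have e1 : Finset.univ.image (Subtype.val ∘ e) = s := by
      rw [← Finset.image_image, Finset.image_univ_equiv]
      simp
    rw [e1] at k1
    refine k1.symm.trans ((congrArg _ (congrArg _ (funext fun i => ?_))).trans (k2.trans
      (congrArg _ (congrArg _ (funext fun j => ((g.toExt.ok gd.ff).pb_comp _ _).symm)))))
    rw [(f₁.ok_sub L).pb_mx]
    exact congrArg mx (by ext; simp [Pb.mem_im, eq_comm, b])

end Vale.Agent.P287D.Gm
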