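import Vale.Agent.P287D.Gm.PtA
import Vale.Agent.P287D.Gf.One
import Vale.Agent.P287D.Cb.Row
import Vale.Agent.P287D.Va.Fld
import Vale.Agent.P287D.In.Vol
import Vale.Agent.P287D.Ba.Hy
import Vale.Agent.P287D.Pr.Neg
import Vale.Agent.P025.R2.H720.Dom

/-!
# P287D: the generic point
-/

open Set Cardinal TensorProduct
open Vale.Agent.P297Z
open Vale.Agent.P285N.Brep (jac Fr)
open Vale.Agent.P287D.Cb
open Vale.Agent.P287D.I (Mon)

noncomputable section

namespace Vale.Agent.P287D.Gm

variable {n : ℕ} {K K' : Type} [Field K] [Algebra ℂ K] [Field K'] [Algebra ℂ K'] {φ : K →+* K'}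

/-- the free compositum -/
theorem exists_amal (k K Ω : Type) [Field k] [IsAlgClosed k] [Field K] [Field Ω] [Algebra k K]
    [Algebra k Ω] : ∃ (K' : Type) (_ : Field K') (φ : K →+* K') (ι : Ω →+* K'),
      (∀ a, φ (algebraMap k K a) = ι (algebraMap k Ω a)) ∧
      Subfield.closure (range φ ∪ range ι) = ⊤ ∧ ∀ (m : ℕ) (v : Fin m → K),
        LinearIndependent k v → ∀ c : Fin m → Ω, ∑ i, ι (c i) * φ (v i) = 0 → ∀ i, c i = 0 := by
  have := P025H720.isDomain_tensor k Ω K
  let a := algebraMap (Ω ⊗[k] K) (FractionRing (Ω ⊗[k] K))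
  refine ⟨FractionRing (Ω ⊗[k] K), inferInstance,
    a.comp (Algebra.TensorProduct.includeRight (R := k) (A := Ω) (B := K)).toRingHom,
    a.comp Algebra.TensorProduct.includeLeftRingHom, fun c => congrArg a ?_,
    eq_top_iff.2 fun x _ => ?_, fun m v hv c hc => ?_⟩
  · exact (RingHom.congr_fun (Algebra.TensorProduct.includeLeftRingHom_comp_algebraMap
      (R := k) (A := Ω) (B := K)) c).symm
  · obtain ⟨p, q, -, rfl⟩ := IsFractionRing.div_surjective (A := Ω ⊗[k] K) x
    refine (fun h : ∀ p, a p ∈ _ => div_mem (h p) (h q)) fun p => ?_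
    induction p with
    | zero => rw [map_zero]; exact zero_mem _
    | add p q hp hq => rw [map_add]; exact add_mem hp hq
    | tmul p q =>
      rw [show p ⊗ₜ[k] q = (p ⊗ₜ[k] 1) * (1 ⊗ₜ[k] q) by simp, map_mul]
      exact mul_mem (Subfield.subset_closure (Or.inr ⟨p, rfl⟩))
        (Subfield.subset_closure (Or.inl ⟨q, rfl⟩))
  · refine Fintype.linearIndependent_iff.1
      (Module.Flat.linearIndependent_one_tmul (S := Ω) hv) c
      (IsFractionRing.injective _ (FractionRing (Ω ⊗[k] K)) ?_)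
    rw [map_zero, ← hc, map_sum]
    exact Finset.sum_congr rfl fun i _ => by rw [Algebra.smul_def, map_mul]; rfl

theorem ff_bot : FF (⊥ : IntermediateField ℂ K) 0 := ff_of_ess (by simp [trdeg_eq_zero])

theorem dis_bot (h : Ext ⊥ φ) {m : ℕ} {v : Fin m → K} (hv : LinearIndependent ℂ v) :
    LinearIndependent ℂ fun i => φ (v i) := h.dis m v (Fintype.linearIndependent_iff.2
  fun g hg i => by
    choose c hc using fun i => IntermediateField.mem_bot.1 (g i).2
    refine Subtype.ext (hc i ▸ ?_ : (g i : K) = 0)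
    rw [Fintype.linearIndependent_iff.1 hv c (hg ▸ Finset.sum_congr rfl fun i _ => by
      rw [Algebra.smul_def, hc]; rfl) i, map_zero])

/-- an extension of the constants which contains a copy of `K` -/
theorem exists_ext (hK : FF K n) : ∃ (K' : Type) (_ : Field K') (_ : Algebra ℂ K')
    (φ : K →+* K') (j : K →+* ℂ), Ext ⊥ φ ∧
      ∀ c, φ (algebraMap ℂ K c) = algebraMap ℂ K' (j (algebraMap ℂ K c)) := by
  have := charZero_of K
  have h1 : 𝔠 ≤ #(AlgebraicClosure K) := mk_complex ▸ mk_le_of_injective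
    ((algebraMap K (AlgebraicClosure K)).comp (algebraMap ℂ K)).injective
  have h2 : #(AlgebraicClosure K) ≤ 𝔠 :=
    (Algebra.IsAlgebraic.cardinalMk_le_max K _).trans (max_le hK.card aleph0_le_continuum)
  obtain ⟨e⟩ := IsAlgClosed.ringEquiv_of_equiv_of_charZero (K := AlgebraicClosure K) (L := ℂ)
    (aleph0_lt_continuum.trans_le h1) (Cardinal.eq.1 ((le_antisymm h2 h1).trans mk_complex.symm))
  obtain ⟨K', _, φ, ι, sq, gen, dis⟩ := exists_amal ℂ K (AlgebraicClosure K)
  let _ : Algebra ℂ K' := (ι.comp e.symm.toRingHom).toAlgebra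
  have a : ∀ c, algebraMap ℂ K' (e c) = ι c := fun c => congrArg ι (e.symm_apply_apply c)
  refine ⟨K', inferInstance, inferInstance, φ, e.toRingHom.comp (algebraMap K _),
    ⟨fun b hb => ?_, ?_, fun m v hv => Fintype.linearIndependent_iff.2 fun c hc i => ?_⟩,
    fun c => (sq c).trans (a _).symm⟩
  · obtain ⟨c, rfl⟩ := IntermediateField.mem_bot.1 hb
    exact ⟨_, (a _).trans (sq c).symm⟩
  · exact eq_top_iff.2 (gen ▸ Subfield.closure_mono
      (union_subset_union_right _ (range_subset_iff.2 fun c => ⟨_, a c⟩)))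
  · exact e.symm.map_eq_zero_iff.1 (dis m v (hv.restrict_scalars' ℂ) (fun i => e.symm (c i))
      (hc ▸ Finset.sum_congr rfl fun i _ => (Algebra.smul_def (c i) _).symm) i)

/-- a place whose centre is the generic point -/
theorem gen_res (P : Pl K') (j : K →+* ℂ) {s : Set K}
    (hc : ∀ c, φ (algebraMap ℂ K c) = algebraMap ℂ K' (j (algebraMap ℂ K c)))
    (hs : ∀ a ∈ s, Mx P (φ a - algebraMap ℂ K' (j a)))
    [Algebra.IsAlgebraic (IntermediateField.adjoin ℂ s) K] (f : K) :
    ∃ c, Mx P (φ f - algebraMap ℂ K' c) := by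
  have m : ∀ {x c}, Mx P (x - algebraMap ℂ K' c) → x ∈ P.ring := fun {_ c} h => by
    simpa using add_mem h.mem (P.con c)
  have h1 : ∀ a ∈ IntermediateField.adjoin ℂ s, Mx P (φ a - algebraMap ℂ K' (j a)) :=
    fun a ha => by
    induction ha using IntermediateField.adjoin_induction with
    | mem a ha => exact hs a ha
    | algebraMap c => rw [hc, sub_self]; exact mx_zero
    | add a b _ _ ha hb => simpa only [map_add, add_sub_add_comm] using ha.add hb
    | mul a b _ _ ha hb =>
      have := (ha.mul (m hb)).add (hb.mul (P.con (j a)))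
      rwa [show _ + _ = φ (a * b) - algebraMap ℂ K' (j (a * b)) by simp only [map_mul]; ring]
        at this
    | inv a _ ha =>
      by_cases a0 : a = 0
      · simp [a0, mx_zero]
      have j0 := (map_ne_zero (algebraMap ℂ K')).2 ((map_ne_zero j).2 a0)
      have f0 := (map_ne_zero φ).2 a0
      have u := P.con (j a)⁻¹
      rw [map_inv₀] at u
      have := mx_zero.sub ((ha.mul u).mul (inv_mem_of (x := φ a) fun k => not_mx_one (P := P) (by
        simpa [j0] using (k.sub ha).mul u)))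
      rwa [show _ - _ = φ a⁻¹ - algebraMap ℂ K' (j a⁻¹) by simp only [map_inv₀]; field_simp; ring]
        at this
  have h2 : ∀ f, φ f ∈ P.ring := fun f => by
    obtain ⟨y, hy⟩ := IsIntegrallyClosed.isIntegral_iff.1
      ((Algebra.IsIntegral.isIntegral (R := IntermediateField.adjoin ℂ s) f).map_of_comp_eq
        ((φ.comp (algebraMap (IntermediateField.adjoin ℂ s) K)).codRestrict P.ring
          fun a => m (h1 a a.2)) φ rfl)
    exact hy ▸ y.2
  let ρ : K →+* P.κ := (IsLocalRing.residue P.ring).comp (φ.codRestrict P.ring h2)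
  have r : ∀ f, ρ f = P.rd (φ f) := fun f => (rd_of (h2 f)).symm
  have k : ∀ f c, Mx P (φ f - algebraMap ℂ K' c) ↔ algebraMap ℂ P.κ c = ρ f := fun f c => by
    rw [← rd_eq_zero (sub_mem (h2 f) (P.con c)), rd_sub (h2 f) (P.con c), rd_const, r, sub_eq_zero,
      eq_comm]
  obtain ⟨c, hc⟩ := Gf.mem_range ((Algebra.IsAlgebraic.isAlgebraic
    (R := IntermediateField.adjoin ℂ s) f).ringHom_of_comp_eq (j.comp (algebraMap _ K)) ρ
      (RingHom.injective _) (RingHom.ext fun a => (k _ _).1 (h1 a a.2)))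
  exact ⟨c, (k f c).2 hc⟩

theorem big_pb (h : Ok φ) (g : Subfield.closure (range φ ∪ range (algebraMap ℂ K')) = ⊤)
    {β : BD K} (hβ : Big β) : Big (pb φ β) := by
  classical
  refine (big_iff_fld (h.eff hβ.eff)).2 (eq_top_iff.2 fun x _ =>
    (Subfield.closure_le (t := (fld (pb φ β)).toSubfield)).2 (union_subset ?_
      (range_subset_iff.2 (fld _).algebraMap_mem)) (g ▸ Subfield.mem_top x))
  rintro _ ⟨f, rfl⟩
  obtain ⟨ε, e, k⟩ := hβ {1, f}
  have := h.eff k
  rw [pb_sub, pb_smul, h.pb_mx, Pb.im_eq, Finset.image_insert, Finset.image_singleton, map_one,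
    mx_pld] at this
  exact InF.mem ⟨ε, e, this⟩

/-- the normalisation of the canonical b-divisor in `Tr` -/
theorem tr_eq (h : Ext ⊥ φ) (hK : FF K (n + 1)) (hK' : FF K' (n + 1)) {y : Fin (n + 1) → K}
    (e : cn K (n + 1) = kap y) (hy : AlgebraicIndependent ℂ fun i => φ (y i)) {f : K'}
    (hf : Tr n n φ 0 (fun _ => True) f) : cn K' (n + 1) + dv f = kap fun i => φ (y i) := by
  obtain ⟨g, g0, hg⟩ := kap_cn hK' hy
  obtain ⟨s, -, hs⟩ := Ba.exists_big hK
  have o := h.ok hK'
  have := Ba.prn_zero hK' (dv_mem_Prn (g / f)) (Pr.hart res' hK' (o.smp (smp_mx s))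
    (big_pb o h.gen hs) (.dv (o.smp (smp_mx s)) _) fun P hP => by
      have a := congrFun hg P
      rw [dv_div g0 hf.ne, Pi.sub_apply]
      rcases hf.on _ (smp_mx s) hs trivial P hP with ⟨b, c⟩ | ⟨Q, l, -, b, c⟩
      · have := kap_nonneg hK' fun i => b (y i)
        rw [Pi.add_apply] at a c
        linarith
      · obtain ⟨L, hL⟩ := exists_lf hK' P
        have := log_le₀ hK l (fun i => dr_of (L i)) (fun i c => by
          obtain ⟨d, hd⟩ := h.cst _ (IntermediateField.algebraMap_mem _ c)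
          rw [← hd, Derivation.map_algebraMap]) hL.lg (hL.ne _ hy)
        have k := hL.eq _ hy
        rw [pb_zero, sub_zero, e] at c
        rw [Pi.add_apply] at a c
        rw [b, Int.cast_one, one_mul] at this
        unfold jac at k
        linarith)
  rw [dv_div g0 hf.ne, sub_eq_zero] at this
  rw [hg, this]

/-- integral approximation of nef classes -/
theorem nef_approx (hK : FF K n) {β : BD K} (h : Nef β) {v : ℝ} (v0 : 0 ≤ v) (hv : v < vol n β) :
    ∃ (k : ℕ) (A : BD K), 0 < k ∧ A ∈ CarZ K ∧ Smp A ∧ Eff ((k : ℝ) • β - A) ∧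
      k ^ n * v < vol n A := by
  obtain ⟨M, D, hM, a, rfl, -, b⟩ := Ba.Vl.com_one hK h.car
  rw [Ba.vol_bar hM] at hv
  obtain ⟨k, A, k0, -, a2, a3, a4, a5⟩ := I.amp_approx (Ba.pc hM) a (b h)
    ((I.big_iff_vol (Ba.pc hM) a (b h)).2 (v0.trans_lt hv)) hv
  exact ⟨k, _, k0, Ba.bar_carZ hM a2, Ba.smp_amp hM a3, by
    simpa only [map_sub, map_smul] using Ba.eff_of hM a4, Ba.vol_bar hM A ▸ a5⟩

/-- tigers at a place with Taylor expansions -/
theorem mult_of (h : Ext ⊥ φ) (hK : FF K n) (hK' : FF K' n) {x : Pl K'} (tv : Trv φ x)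
    {t : Fin n → K'} (ht : ∀ s : ℕ, ∀ f ∈ Submodule.span ℂ (range φ),
      ∃ w ∈ Mon t s, f - w ∈ x.sub (-s)) {β : BD K} (hβ : Nef β) {c : ℝ} (c0 : 0 ≤ c)
    (hc : c ^ n < vol n β) : ∃ G, Rep (pb φ β) G ∧ c ≤ G x := by
  obtain ⟨k, A, hk, a1, a2, ⟨E, hE⟩, a3⟩ := nef_approx hK hβ (pow_nonneg c0 n) hc
  have k0 : (0 : ℝ) < k := Nat.cast_pos.2 hk
  have o := h.ok hK'
  obtain ⟨m, hm, m0⟩ := ((I.count_ev n (fun _ : Unit => k * c) (fun _ => mul_nonneg k0.le c0)
    (Ba.Vl.rr hK a1 a2.nef) (by simpa [mul_pow] using a3)).and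
    (Filter.eventually_gt_atTop 0)).exists
  have m1 : (0 : ℝ) < m := Nat.cast_pos.2 m0
  have := Ba.fin_car hK (a2.smul m1.le).car
  let b := Module.finBasis ℂ (H0 ((m : ℝ) • A))
  have i := dis_bot h (b.linearIndependent.map' _ (Submodule.ker_subtype _))
  have u : ∀ (S : Submodule ℂ K') g, (∀ i, φ (b i : K) ∈ S) →
      Fintype.linearCombination ℂ (fun i => φ (b i : K)) g ∈ S := fun S g k => by
    rw [Fintype.linearCombination_apply]
    exact sum_mem fun i _ => S.smul_mem _ (k i)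
  obtain ⟨g, g0, hg⟩ := I.exists_ker (fun _ : Unit => Fintype.linearCombination ℂ
    fun i => φ (b i : K)) (fun _ => x.sub (-(⌈m * (k * c)⌉₊ : ℕ))) (fun _ => Mon t ⌈m * (k * c)⌉₊)
    (fun _ g => ht _ _ (u _ g fun _ => Submodule.subset_span ⟨_, rfl⟩))
    ((Finset.sum_le_sum fun _ _ => I.mon_rank _ _).trans_lt (hm.trans_eq (by simp [h0])))
  have f0 : Fintype.linearCombination ℂ (fun i => φ (b i : K)) g ≠ 0 := fun e =>
    g0 (funext (Fintype.linearIndependent_iff.1 i g (by
      rwa [Fintype.linearCombination_apply] at e)))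
  have f1 := u _ g fun i => mem_H0.2 (o.sec (mem_H0.1 (b i).2))
  have r := ((((mem_H0.1 f1).rep f0).smul (inv_pos.2 m1).le).add (o.rep hE)).smul
    (inv_pos.2 k0).le
  refine ⟨_, by
    rwa [pb_smul φ m, inv_smul_smul₀ m1.ne', ← pb_add, add_sub_cancel, pb_smul φ k,
      inv_smul_smul₀ k0.ne'] at r, ?_⟩
  have e := (hg ()).resolve_left f0
  have e' := Nat.le_ceil (m * (k * c))
  simp only [Pi.smul_apply, Pi.add_apply, tv.pb, smul_eq_mul, add_zero, dv_apply, mul_zero]
  rw [le_inv_mul_iff₀ k0, le_inv_mul_iff₀ m1]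
  linarith

/-- **GEN.pt** -/
theorem gen_pt : ForS fun n K _ _ => ∃ (K' : Type) (_ : Field K') (_ : Algebra ℂ K')
    (φ : K →+* K') (x : Pl K'), Ext ⊥ φ ∧ FF K' (n + 1) ∧ GenPt n φ x := by
  intro n K _ _ hK
  obtain ⟨K', _, _, φ, j, h, hc⟩ := exists_ext hK
  have hK' : FF K' (n + 1) := h.ff ff_bot hK
  obtain ⟨y, D, hD, e⟩ := exists_cn hK
  have hy := Pb.dis_alg h (((jac_ne_iff hD y).1 (jac_ne hD hD)).extendScalars _)
  have jc : ∀ E : Fin (n + 1) → Derivation ℂ K' K',
      jac E (fun i => φ (y i) - algebraMap ℂ K' (j (y i))) = jac E fun i => φ (y i) := fun E => by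
    simp [jac]
  obtain ⟨E₀, h₀⟩ := fr_of hK' hy
  obtain ⟨x, E, o⟩ := exists_org hK' ((jac_ne_iff h₀ _).1 (jc E₀ ▸ jac_ne h₀ h₀))
  have := hD.fin
  have r := gen_res x j hc (s := range y) (range_subset_iff.2 o.mx)
  have tv : Trv φ x := fun f => let ⟨c, k⟩ := r f; by simpa using add_mem k.mem (x.con c)
  have a1 : ∀ a ∈ Submodule.span ℂ (range φ), ∀ i, E i a ∈ Submodule.span ℂ (range φ) :=
    fun a ha i => Submodule.span_le (p := (Submodule.span ℂ (range φ)).comap (E i).toLinearMap).2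
      (range_subset_iff.2 fun f => by
        have := expand ((dr_of (E i)).comp φ) (fun c => by
          rw [hc, Derivation.map_algebraMap]) hD f
        have d := o.fr.dual i
        simp only [map_sub, Derivation.map_algebraMap, sub_zero] at d
        simp only [d, ite_mul, one_mul, zero_mul, Finset.sum_ite_eq, Finset.mem_univ,
          if_true] at this
        exact Submodule.subset_span ⟨_, this.symm⟩) ha
  have a2 : ∀ a ∈ Submodule.span ℂ (range φ), ∃ c : ℂ, Mx x (a - algebraMap ℂ K' c) :=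
    fun a ha => by
    induction ha using Submodule.span_induction with
    | mem a ha => exact ha.elim fun f e => e ▸ r f
    | zero => exact ⟨0, by simp [mx_zero]⟩
    | add a b _ _ ha hb =>
      exact ha.elim fun c k => hb.elim fun d l => ⟨c + d, by
        simpa only [map_add, add_sub_add_comm] using k.add l⟩
    | smul d a _ ha =>
      exact ha.elim fun c k => ⟨d * c, by
        simpa only [map_mul, mul_sub, Algebra.smul_def] using k.mul (x.con d)⟩
  have a3 := o.kap_eq (o.ord_one a1 (fun a ha => (a2 a ha).elim fun c k => by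
    simpa using add_mem k.mem (x.con c)) (eq_top_iff.2 (h.gen ▸ Subfield.closure_mono
      (union_subset_union_left _ Submodule.subset_span))))
  refine ⟨K', inferInstance, inferInstance, φ, x, h, hK', tv, fun f => ?_, fun f hf => ?_,
    fun β hβ c => mult_of h hK hK' tv (o.taylor a1 a2) hβ⟩
  · obtain ⟨c, k⟩ := r f
    rw [← rd_eq_zero k.mem, rd_sub (tv f) (x.con c), rd_const, sub_eq_zero] at k
    exact ⟨c, k.symm⟩
  · have k := (jc E).symm.trans (jac_self o.fr)
    rw [tr_eq h hK hK' e hy hf, kap_chg o.fr (k ▸ one_ne_zero), k, Pi.add_apply, a3]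
    simp [dv_apply]

end Vale.Agent.P287D.Gm
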