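import Vale.Agent.P287D.Api.Adj
import Vale.Agent.P287D.Gm.Gm
import Vale.Agent.P287D.Gm.Pt

/-!
# P287D: the row GEN
-/

namespace Vale.Agent.P287D.Api

theorem gen : GEN where
  ex := gen_ex
  ff := gen_ff
  num := gen_num ffs mod res' int pb gtr In.hy
  big := gen_big g3b
  can := gen_can
  orb := gen_orb
  on := gen_on mod res' vol pb g2 g2b g3 g3b
  tr := Gm.gen_tr res' ba
  trm := Gm.gen_trm res'
  pt := Gm.gen_pt
  gm := Gm.gm_of Gm.unit (Gm.uhn mod res' int pb Gm.unit) Gm.irr g5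

end Vale.Agent.P287D.Api
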