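import Vale.Agent.P287D.Gm.St
import Vale.Agent.P287D.Gm.Ffs
import Vale.Agent.P287D.Gf.Five
import Vale.Agent.P287D.Pb.Res

/-!
# P287D, block GM: purely transcendental extensions, vanishing of intersection numbers
-/

set_option linter.all false

open Set Algebra

noncomputable section

namespace Vale.Agent.P287D.Gm.Uh

section alg

variable {F E E' F' τ : Type} [Field F] [Field E] [Field E'] [Field F'] {c : τ → E}

/-- algebraic independence over the image of `φ` -/
def Ind (φ : F →+* E) (c : τ → E) : Prop := Function.Injective (MvPolynomial.eval₂Hom φ c)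

/-- the field generated by `c` over the image of `φ` -/
def gn (φ : F →+* E) (c : τ → E) : Subfield E := Subfield.closure (range φ ∪ range c)

theorem ind_alg [Algebra F E] : Ind (algebraMap F E) c ↔ AlgebraicIndependent F c := Iff.rfl

theorem ind_iff (φ : F →+* E) : AlgebraicIndependent φ.fieldRange c ↔ Ind φ c := by
  let _ := φ.toAlgebra
  exact algebraicIndependent_ringHom_iff_of_comp_eq (x := c)
    (RingEquiv.ofBijective φ.rangeRestrictField φ.rangeRestrictField_bijective) (RingHom.id E)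
    Function.injective_id rfl

theorem Ind.map {φ : F →+* E} (h : Ind φ c) (ψ : E →+* E') : Ind (ψ.comp φ) fun i => ψ (c i) := by
  unfold Ind
  rw [← MvPolynomial.comp_eval₂Hom]
  exact ψ.injective.comp h

theorem Ind.down {φ : F →+* E} (h : Ind φ c) (ψ : F' →+* F) : Ind (φ.comp ψ) c := by
  have e : MvPolynomial.eval₂Hom (φ.comp ψ) c =
      (MvPolynomial.eval₂Hom φ c).comp (MvPolynomial.map ψ) := by
    ext <;> simp
  unfold Ind
  rw [e]
  exact h.comp (MvPolynomial.map_injective ψ ψ.injective)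

theorem Ind.lin [Fintype τ] {φ : F →+* E} (h : Ind φ c) {g : τ → F} (e : ∑ i, c i * φ (g i) = 0)
    (i : τ) : g i = 0 := by
  let _ := φ.toAlgebra
  have h1 : AlgebraicIndependent F c := h
  refine Fintype.linearIndependent_iff.1 h1.linearIndependent g ?_ i
  rw [← e]
  exact Finset.sum_congr rfl fun i _ => mul_comm _ _

theorem mem_l (φ : F →+* E) (c : τ → E) (f : F) : φ f ∈ gn φ c :=
  Subfield.subset_closure (Or.inl ⟨f, rfl⟩)

theorem mem_r (φ : F →+* E) (c : τ → E) (i : τ) : c i ∈ gn φ c :=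
  Subfield.subset_closure (Or.inr ⟨i, rfl⟩)

theorem adj_top [Algebra F E] (g : gn (algebraMap F E) c = ⊤) :
    IntermediateField.adjoin F (range c) = ⊤ :=
  eq_top_iff.2 fun x _ => show x ∈ gn (algebraMap F E) c from g ▸ Subfield.mem_top x

theorem alg_top [Algebra F E] (g : gn (algebraMap F E) c = ⊤) :
    Algebra.IsAlgebraic (Algebra.adjoin F (range c)) E := by
  refine IntermediateField.isAlgebraic_adjoin_iff_top.1 ⟨fun x => ?_⟩
  exact isAlgebraic_algebraMap
    (⟨x, adj_top g ▸ IntermediateField.mem_top⟩ : IntermediateField.adjoin F (range c))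

end alg

variable {F E : Type} [Field F] [Algebra ℂ F] [Field E] [Algebra ℂ E] {p m M : ℕ}
  {c : Fin M → E}

theorem ind_of (ρ : F →ₐ[ℂ] E) (hF : FF F p) (hE : FF E m) (le : p + M ≤ m)
    (g : gn (ρ : F →+* E) c = ⊤) : Ind (ρ : F →+* E) c := by
  let _ := (ρ : F →+* E).toAlgebra
  have : IsScalarTower ℂ F E := .of_algebraMap_eq fun a => (ρ.commutes a).symm
  have := alg_top (F := F) g
  have e := trdeg_add_eq ℂ F (A := E)
  rw [hF.trdeg, hE.trdeg] at e
  obtain ⟨d, hd⟩ := Cardinal.lt_aleph0.1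
    ((le_add_self.trans e.le).trans_lt Cardinal.natCast_lt_aleph0)
  rw [hd] at e
  have e' : p + d = m := by exact_mod_cast e
  refine (Algebra.IsAlgebraic.isTranscendenceBasis_of_le_trdeg_of_finite F c ?_).1
  rw [hd, Cardinal.mk_fin, Nat.cast_le]
  omega

theorem ff_of (ρ : F →ₐ[ℂ] E) (hF : FF F p) (g : gn (ρ : F →+* E) c = ⊤)
    (h : Ind (ρ : F →+* E) c) : FF E (p + M) := by
  let _ := (ρ : F →+* E).toAlgebra
  have : IsScalarTower ℂ F E := .of_algebraMap_eq fun a => (ρ.commutes a).symm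
  have := alg_top (F := F) g
  have h1 : AlgebraicIndependent F c := h
  have b : IsTranscendenceBasis F c := h1.isTranscendenceBasis_iff_isAlgebraic.2 this
  have := hF.ess
  have : EssFiniteType F E := IntermediateField.fg_top_iff.1
    (adj_top (F := F) g ▸ IntermediateField.fg_adjoin_of_finite (finite_range c))
  have := EssFiniteType.comp ℂ F E
  refine ff_of_ess ?_
  rw [← trdeg_add_eq ℂ F (A := E), hF.trdeg, ← b.cardinalMk_eq_trdeg, Cardinal.mk_fin,
    Nat.cast_add]

open Classical in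
/-- entries which come from a subfield of smaller dimension -/
theorem low (hP : PB) (ρ : F →ₐ[ℂ] E) (hF : FF F p) (hE : FF E m) (e : m = p + M)
    (h : ¬ Ind (ρ : F →+* E) c) {γ : Fin m → BD E}
    (hγ : ∀ j, (∃ β ∈ Car F, γ j = pb (ρ : F →+* E) β) ∨
      ∃ x ∈ gn (ρ : F →+* E) c, γ j = mx {1, x}) : I m E γ = 0 := by
  let L : IntermediateField ℂ E := (gn (ρ : F →+* E) c).toIntermediateField fun a =>
    ρ.commutes a ▸ mem_l _ c _
  let ρ' : F →ₐ[ℂ] L := ρ.codRestrict L.toSubalgebra (mem_l (ρ : F →+* E) c)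
  let c' : Fin M → L := fun i => ⟨c i, mem_r _ c i⟩
  obtain ⟨q, -, hL⟩ := ff_sub hE L
  have g : gn (ρ' : F →+* L) c' = ⊤ := by
    refine eq_top_iff.2 fun x _ => ?_
    have : gn (ρ : F →+* E) c ≤ (gn (ρ' : F →+* L) c').map (inc L) :=
      Subfield.closure_le.2 (by
        rintro _ (⟨f, rfl⟩ | ⟨i, rfl⟩)
        exacts [⟨_, mem_l _ c' f, rfl⟩, ⟨_, mem_r _ c' i, rfl⟩])
    obtain ⟨y, a, b⟩ := this x.2
    exact (Subtype.ext b : y = x) ▸ a
  have lt : q < m := by
    by_contra z
    exact h ((ind_of ρ' hF hL (by omega) g).map (inc L))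
  have o : Ok (inc L) := hE.ok_sub L
  have k : ∀ j, ∃ δ ∈ Car L, γ j = pb (inc L) δ := fun j => by
    obtain ⟨β, a, b⟩ | ⟨x, a, b⟩ := hγ j
    · exact ⟨_, (hL.ok ρ').car a, b.trans (o.pb_comp (ρ' : F →+* L) β)⟩
    · refine ⟨mx {1, ⟨x, a⟩}, mx_mem_Car _, ?_⟩
      rw [b, o.pb_mx, Pb.im_eq, Finset.image_insert, Finset.image_singleton, map_one]
      rfl
  refine hP.low q m L E (inc L) hL hE (fun _ => rfl) γ Finset.univ (by simpa using lt)
    (fun j _ => ?_) fun j _ => k j
  obtain ⟨δ, a, b⟩ := k j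
  exact b ▸ o.car a

end Vale.Agent.P287D.Gm.Uh
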