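import Vale.Agent.P287D.Gm.Loc
import Vale.Agent.P287D.Gf.One

/-!
# P287D, block GM: discrepancies along a generic fibre with an extension of the constants
-/

set_option linter.unusedSectionVars false
set_option linter.unusedVariables false

open Set
open Vale.Agent.P285N.Brep (jac Fr)
open Vale.Agent.P297Z Vale.Agent.P287D.Cb

noncomputable section

namespace Vale.Agent.P287D.Gm

variable {K K' : Type} [Field K] [Algebra ℂ K] [Field K'] [Algebra ℂ K'] {n r m : ℕ}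

/-- adapted coordinates which contain given elements -/
theorem adapt (hK : FF K (r + 1 + m)) {Q : Pl K} {y : Fin m → K} (ym : ∀ j, y j ∈ Q.ring)
    (yi : AlgebraicIndependent ℂ fun j => Q.rd (y j)) :
    ∃ (v : Fin r → K) (D : Fin (r + 1 + m) → Derivation ℂ K K),
      Ad Q (Fin.append (Fin.cons Q.t v : Fin (r + 1) → K) y) D ∧
      ∀ x, x ∈ Cl (range fun i => Q.rd (Sum.elim v y i)) := by
  have hK' : FF K (r + m + 1) := by rwa [Nat.add_right_comm] at hK
  obtain ⟨vb, hv⟩ := ext_ind yi r (by rw [trdeg_κ Q hK', Fintype.card_fin])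
  choose v v1 v2 using fun i => rd_surj (vb i)
  have um : ∀ i, Sum.elim v y i ∈ Q.ring := by rintro (i | i); exacts [v1 i, ym i]
  have ui : AlgebraicIndependent ℂ fun i => Q.rd (Sum.elim v y i) :=
    (congrArg (fun w => AlgebraicIndependent ℂ w) (funext (by
      rintro (i | i)
      exacts [(v2 i).symm, rfl]))).mp hv
  have ti : AlgebraicIndependent ℂ (Fin.append (Fin.cons Q.t v : Fin (r + 1) → K) y) := by
    let f : Fin (r + 1) ⊕ Fin m → Option (Fin r ⊕ Fin m) :=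
      Sum.elim (Fin.cons none fun i => some (.inl i)) fun j => some (.inr j)
    have := (AlgebraicIndependent.option_iff.2 ⟨ind_of_rd um ui, trans_of_mx um ui Q.t_ne
      (mx_iff.2 (.inr (by rw [Q.ord_t]; omega)))⟩).comp f (by
      rintro (i | i) (j | j)
      · refine Fin.cases ?_ (fun i => ?_) i <;> refine Fin.cases ?_ (fun j => ?_) j <;>
          simp [f]
      · refine Fin.cases ?_ (fun i => ?_) i <;> simp [f]
      · refine Fin.cases ?_ (fun j => ?_) j <;> simp [f]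
      · simp [f])
    refine ind_append.2 ((congrArg (fun w => AlgebraicIndependent ℂ w) (funext ?_)).mp this)
    rintro (i | i)
    · refine Fin.cases ?_ (fun i => ?_) i <;> rfl
    · rfl
  obtain ⟨D, hD⟩ := fr_of hK ti
  have tm : ∀ j, Fin.append (Fin.cons Q.t v : Fin (r + 1) → K) y j ∈ Q.ring := fun j => by
    refine Fin.addCases (fun j => ?_) (fun j => ?_) j
    · rw [Fin.append_left]
      exact Fin.cases (Cb.t_mem Q) v1 j
    · rw [Fin.append_right]
      exact ym j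
  have dm : ∀ i j, D i (Fin.append (Fin.cons Q.t v : Fin (r + 1) → K) y j) ∈ Q.ring :=
    fun i j => by
      rw [hD.dual]
      split_ifs
      exacts [one_mem _, zero_mem _]
  exact ⟨v, D, ⟨hD, tm, fun i => rg_idx hK (by simp; omega) Q.ord_t um ui (dr_of (D i))
    (by simpa using dm i (Fin.castAdd m 0)) (by
      rintro (j | j)
      · simpa using dm i (Fin.castAdd m j.succ)
      · simpa using dm i (Fin.natAdd _ j))
    fun c => by rw [Derivation.map_algebraMap]; exact zero_mem _⟩,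
    cl_basis (ff_κ Q hK') ui (by simp)⟩

variable {φ : K →+* K'} {P : Pl K'} {Q : Pl K}

theorem rd_cst {x : K'} (h : x ∈ range (algebraMap ℂ K')) :
    x ∈ P.ring ∧ P.rd x ∈ range (algebraMap ℂ P.κ) := by
  obtain ⟨c, rfl⟩ := h
  exact ⟨P.con c, c, (rd_const c).symm⟩

theorem ind_rd (hc : Cst φ) (l : Lies φ P Q) {ι : Type} {y : ι → K}
    (hy : ∀ j, φ (y j) ∈ range (algebraMap ℂ K')) (hi : AlgebraicIndependent ℂ y) :
    AlgebraicIndependent ℂ fun j => Q.rd (y j) := by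
  have ym : ∀ j, y j ∈ Q.ring := fun j => (l _).2 (rd_cst (hy j)).1
  refine algebraicIndependent_iff.2 fun p hp => algebraicIndependent_iff.1 hi p ?_
  have k : φ (MvPolynomial.aeval y p) ∈ range (algebraMap ℂ K') := by
    clear hp
    induction p using MvPolynomial.induction_on with
    | C a => simpa using hc a
    | add p q h1 h2 => simpa using add_mem (S := Subring K') (s := RingHom.range _) h1 h2
    | mul_X p i h1 => simpa using mul_mem (S := Subring K') (s := RingHom.range _) h1 (hy i)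
  rw [← rd_aeval ym, rd_eq_zero ((l _).2 (rd_cst k).1), mx_iff, ← l.ord_pos_iff] at hp
  obtain ⟨c, e⟩ := k
  rw [← e, P.ord_const] at hp
  exact hp.resolve_right (lt_irrefl _)

theorem alc_of (hg : Subfield.closure (range φ ∪ range (algebraMap ℂ K')) = ⊤) : Alc φ := fun x =>
  mem_Cl.1 (cl_le (S := range φ) (fun _ => sub_Cl) (mem_algebraicClosure_iff.2
    (isAlgebraic_algebraMap (⟨x, adj_top hg ⊤
      (fun f _ => IntermediateField.subset_adjoin _ _ (mem_range_self f)) x⟩ :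
        IntermediateField.adjoin ℂ (range φ)))))

theorem spn_of_sp {ι : Type} {w : ι → K} (h : Sp P (range fun i => φ (w i))) : Spn φ P :=
  fun x => cl_le (by
    rintro _ ⟨_, ⟨i, rfl⟩, rfl⟩
    exact sub_Cl ⟨_, ⟨⟨_, rfl⟩, h.1 ⟨i, rfl⟩⟩, rfl⟩) ((sp_iff.1 h).2 x)

theorem loc_rel (hK : FF K (r + 1 + m)) (hK' : FF K' (r + 1)) (e : r + 1 + m = n + 1)
    (hc : Cst φ) (hg : Subfield.closure (range φ ∪ range (algebraMap ℂ K')) = ⊤)
    {y : Fin m → K} (hy : ∀ j, φ (y j) ∈ range (algebraMap ℂ K')) {z : Fin (r + 1) → K}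
    (hz : AlgebraicIndependent ℂ (Fin.append z y)) {g : K} (g0 : g ≠ 0)
    (eg : cn K (n + 1) = kap (Fin.append z y) + dv g) {f : K'} (f0 : f ≠ 0)
    (ef : cn K' (r + 1) + dv f = kap (fun i => φ (z i)) + dv (φ g)) : Loc n r φ 0 f := by
  have ha := alc_of hg
  refine ⟨f0, fun P l => ?_, fun P Q l => ?_⟩
  · obtain ⟨D, hD⟩ := fr_of hK hz
    have i' := ind_map hc hy hD hK' ha
    obtain ⟨E, hE⟩ := fr_of hK' i'
    rw [ef, Pi.add_apply, dv_apply, l.ord, Int.cast_zero, add_zero]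
    refine ⟨kap_nonneg hK' fun i => l _, fun s => kap_zero hK' hE (S := range φ) (sp_iff.2
      ⟨by rintro _ ⟨i, rfl⟩; exact l _, s.trv hc l (cl_basis hK hz (by simp)) ?_⟩)
      (by rintro _ ⟨x, rfl⟩; exact l x) ?_
      (adj_top hg ⊤ fun f _ => IntermediateField.subset_adjoin _ _ ⟨f, rfl⟩),
      fun s => one_le_kap hK' i' (fun i => l _) fun k => s (spn_of_sp k)⟩
    · rintro _ ⟨j, rfl⟩
      refine Fin.addCases (fun j => ?_) (fun j => ?_) j
      · rw [Fin.append_left]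
        exact sub_Cl ⟨_, ⟨j, rfl⟩, rfl⟩
      · rw [Fin.append_right]
        exact cl_cst (rd_cst (hy j)).2 _
    · rintro j _ ⟨x, rfl⟩
      exact ext_rel hc hy hD hE j x ▸ Algebra.subset_adjoin ⟨_, rfl⟩
  · obtain ⟨v, D, a, sv⟩ := adapt hK (fun j => (l _).2 (rd_cst (hy j)).1)
      (ind_rd hc l hy (y := y) ((ind_append.1 hz).comp Sum.inr Sum.inr_injective))
    have i' := ind_map hc hy a.fr hK' ha
    obtain ⟨E, hE⟩ := fr_of hK' i'
    have m' : ∀ i, φ ((Fin.cons Q.t v : Fin (r + 1) → K) i) ∈ P.ring := fun i =>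
      (l _).1 (by simpa using a.mem (Fin.castAdd m i))
    have z0 := (jac_ne_iff a.fr _).2 hz
    have jr := jac_rel hc hy a.fr hE z
    refine ⟨kap (fun i => φ ((Fin.cons Q.t v : Fin (r + 1) → K) i)) P, ?_,
      ord_le_succ hK' i' m' 0, fun s => kap_zero hK' hE (S := φ '' Q.ring) (sp_iff.2
        ⟨by rintro _ ⟨i, rfl⟩; exact m' i, s.lies hc l sv ?_⟩)
        (by rintro _ ⟨x, hx, rfl⟩; exact (l x).1 hx) ?_
        (adj_top hg Q.ring fun f hf => IntermediateField.subset_adjoin _ _ ⟨f, hf, rfl⟩),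
      fun s => ord_le_kap hK' i' m' (fun k => s (spn_of_sp k)) 0⟩
    · rw [pb_zero, sub_zero, ef, eg, kap_chg hE (jr ▸ (map_ne_zero φ).2 z0), jr]
      simp only [Pi.add_apply, dv_apply, l.ord (jac _ _), l.ord g, kap_eq a]
      push_cast
      ring
    · rintro _ ⟨j | j, rfl⟩
      · have k : v j ∈ Q.ring := by simpa using a.mem (Fin.castAdd m j.succ)
        exact l.isRd _ k ▸ sub_Cl ⟨_, ⟨j.succ, rfl⟩, rfl⟩
      · exact l.isRd _ ((l _).2 (rd_cst (hy j)).1) ▸ cl_cst (rd_cst (hy j)).2 _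
    · rintro j _ ⟨x, hx, rfl⟩
      exact ext_rel hc hy a.fr hE j x ▸ Algebra.subset_adjoin ⟨_, a.pre _ x hx, rfl⟩

theorem exists_loc (hK : FF K (r + 1 + m)) (hK' : FF K' (r + 1)) (e : r + 1 + m = n + 1)
    (hc : Cst φ) (hg : Subfield.closure (range φ ∪ range (algebraMap ℂ K')) = ⊤)
    {y : Fin m → K} (hy : ∀ j, φ (y j) ∈ range (algebraMap ℂ K'))
    (hi : AlgebraicIndependent ℂ y) : ∃ f, Loc n r φ 0 f := by
  obtain ⟨z, hz⟩ := ext_ind hi (r + 1) (by rw [hK.trdeg, Fintype.card_fin])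
  rw [← ind_append] at hz
  obtain ⟨D, hD⟩ := fr_of hK hz
  obtain ⟨g, g0, eg⟩ := cn_kap hK hz
  obtain ⟨g', g1, eg'⟩ := kap_cn hK' (ind_map hc hy hD hK' (alc_of hg))
  have g2 := (map_ne_zero φ).2 g0
  exact ⟨g' * φ g, loc_rel hK hK' e hc hg hy hz g0 (e ▸ eg) (mul_ne_zero g1 g2)
    (by rw [eg', dv_mul g1 g2, add_assoc])⟩

theorem Ext.cst' {L : IntermediateField ℂ K} (h : Ext L φ) : Cst φ :=
  fun c => h.cst _ (L.algebraMap_mem c)

theorem on_down (hR : RES) (hB : BA) {L : IntermediateField ℂ K} (h : Ext L φ) (hL : FF L m)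
    (hK : FF K (n + 1)) (hK' : FF K' (r + 1)) (e : r + m = n) {Λ : BD K} (a : Smp Λ) {Λ₀ : BD L}
    (b : Smp Λ₀) (c : Big Λ₀) (d : Dsc Λ (pb (inc L) Λ₀)) (l : Lies φ P Q)
    (o : On r (pb φ Λ) P) : On n Λ Q := by
  subst e
  have hc := Ext.cst' h
  have hL' : ∀ x : L, inc L x ∈ Q.ring := fun x => (l _).2 (rd_cst (h.cst _ x.2)).1
  obtain ⟨u, u1, u2, -⟩ := exists_sys₀ b ⊤
  have oL := hK.ok_sub L
  obtain ⟨s, s1, s2, s3, s4⟩ := exists_sys a Q.ring (u := im (inc L) u)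
    (Pb.mem_im.2 ⟨1, u2, map_one _⟩) (fun f hf => by
      obtain ⟨g, -, rfl⟩ := Pb.mem_im.1 hf
      exact hL' g) (oL.pb_mx u ▸ d.trans (oL.dsc u1.1))
  obtain ⟨y, hy, -⟩ := id hL
  have k := (on_pb hR hB hK' (hc.ok hK hK') s1 s2 fun f hf => (l f).1 (s4 f hf)).1 o
  refine (on_iff hR hB hK s1 s2 s4).2 (cnt (l := 0) (l.isRd.cst hc) (ff_κ Q hK) (ff_κ P hK')
    (Fintype.card_fin m) (Fintype.card_fin 0) (ind_rd hc l (y := fun j => (y j : K))
      (fun j => h.cst _ (y j).2) (hy.map' (f := L.val) L.val.injective))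
    (fun j => l.isRd _ (hL' (y j)) ▸ (rd_cst (h.cst _ (y j).2)).2) (fun j => ?_)
    (w := Fin.elim0) fun x => cl_le ?_ (k x))
  · refine Gx.hr_apply hL' (y j) ▸ cl_map (Pb.hor_cst (Gx.hr_apply hL') (.of_lin fun _ => rfl))
      (fun x hx => sub_Cl ⟨_, s3 (Pb.mem_im.2 ⟨x, hx, rfl⟩), (Gx.hr_apply hL' x).symm⟩)
      ((big_cl hB hL u2).1 (u1.big_iff.1 c) (y j))
  · rintro _ ⟨_, ⟨f, hf, rfl⟩, rfl⟩
    exact sub_Cl (.inl ⟨_, ⟨f, hf, rfl⟩, l.isRd f (s4 f hf)⟩)

theorem dim_ext {L : IntermediateField ℂ K} (h : Ext L φ) (hK : FF K (n + 1))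
    (hK' : FF K' (r + 1)) : ∃ m, FF L m ∧ r + m = n := by
  obtain ⟨m, h1, h2⟩ := ff_sub hK L
  obtain ⟨k, hk⟩ := Nat.exists_eq_add_of_le' h1
  have := ff_uniq hK' (h.ff h2 (hk ▸ hK))
  exact ⟨m, h2, by omega⟩

/-- **GEN.tr** -/
theorem gen_tr (hR : RES) (hB : BA) (n r : ℕ) : ForH fun K K' _ _ _ _ φ => ∀ L, Ext L φ →
    FF K (n + 1) → FF K' (r + 1) →
    ∃ f, Tr n r φ 0 (fun Λ => ∃ Λ₀ : BD L, Smp Λ₀ ∧ Big Λ₀ ∧ Dsc Λ (pb (inc L) Λ₀)) f := by
  intro K K' _ _ _ _ φ L h hK hK'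
  obtain ⟨m, hL, e⟩ := dim_ext h hK hK'
  obtain ⟨y, hy, -⟩ := id hL
  have e' : r + 1 + m = n + 1 := by omega
  obtain ⟨f, hf⟩ := exists_loc (e' ▸ hK) hK' e' (Ext.cst' h) h.gen (y := fun j => (y j : K))
    (fun j => h.cst _ (y j).2) (hy.map' (f := L.val) L.val.injective)
  exact ⟨f, hf.tr hR hB (Ext.cst' h) hK hK' fun Λ a ⟨_, b, c, d⟩ P Q l o =>
    on_down hR hB h hL hK hK' e a b c d l o⟩

/-- the form for an extension of the constants -/
theorem tr_bot (hR : RES) (hB : BA) (h : Ext ⊥ φ) (hK : FF K (n + 1)) (hK' : FF K' (n + 1)) :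
    ∃ (f : K') (y : Fin (n + 1) → K), AlgebraicIndependent ℂ y ∧
      cn K' (n + 1) + dv f = kap (fun i => φ (y i)) ∧ Tr n n φ 0 (fun _ => True) f := by
  obtain ⟨y, D, hD, e⟩ := exists_cn hK
  have hy := (jac_ne_iff hD y).1 (jac_ne hD hD)
  have ea : Fin.append y (Fin.elim0 : Fin 0 → K) = y := Fin.append_elim0 y
  obtain ⟨f, f0, ef⟩ := kap_cn hK' (ind_map (m := 0) (Ext.cst' h) (y := Fin.elim0)
    (fun j => j.elim0) (ea.symm ▸ hD) hK' (alc_of h.gen))
  obtain ⟨m, hL, e'⟩ := dim_ext h hK hK'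
  obtain ⟨s, -, s1⟩ := exists_big hL
  refine ⟨f, y, hy, ef.symm, (loc_rel (m := 0) hK hK' rfl (Ext.cst' h) h.gen (y := Fin.elim0)
    (fun j => j.elim0) (ea.symm ▸ hy) one_ne_zero (by rw [ea, e, dv_one, add_zero]) f0
    (by rw [ef, map_one, dv_one, add_zero])).tr hR hB (Ext.cst' h) hK hK'
    fun Λ a _ P Q l o => on_down hR hB h hL hK hK' e' a (smp_mx s) s1 ?_ l o⟩
  have : pb (inc (⊥ : IntermediateField ℂ K)) (mx s) = 0 := funext fun R =>
    Trv.pb (fun x => by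
      obtain ⟨c, hc⟩ := IntermediateField.mem_bot.1 x.2
      exact (hc ▸ R.con c : (x : K) ∈ R.ring)) _
  exact this ▸ .zero a

end Vale.Agent.P287D.Gm
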