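import Vale.Agent.P287D.Pb.Res
import Vale.Agent.P287D.Gm.Ffs

/-!
# P287D, block GM: the Gauss extension of a place
-/

set_option linter.unusedSectionVars false

open Set MvPolynomial IsLocalRing Algebra Cardinal
open Vale.Agent.P297 (Place)
open Vale.Agent.P297Z

noncomputable section

namespace Vale.Agent.P287D.Gm

open Pb Gx

section gen

variable {F E : Type} [Field F] [Field E] {σ : Type} {ψ : F →+* E} {b : σ → E}

/-- independence along a map -/
def Ind (ψ : F →+* E) (b : σ → E) : Prop := ∀ q : MvPolynomial σ F, eval₂ ψ b q = 0 → q = 0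

theorem ind_iff : AlgebraicIndependent ψ.fieldRange b ↔ Ind ψ b := by
  let _ := ψ.toAlgebra
  have e : AlgebraicIndependent F b ↔ Ind ψ b := algebraicIndependent_iff
  rw [← e]
  exact ⟨fun h => .of_ringHom_of_comp_eq ψ.rangeRestrictField (RingHom.id E) h
    ψ.rangeRestrictField_bijective.1 rfl, fun h => h.ringHom_of_comp_eq ψ.rangeRestrictField
      (RingHom.id E) ψ.rangeRestrictField_bijective.2 Function.injective_id rfl⟩

namespace Ga

theorem ind_alg [Algebra F E] : AlgebraicIndependent F b ↔ Ind (algebraMap F E) b :=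
  algebraicIndependent_iff

theorem exists_quot (hg : Subfield.closure (range ψ ∪ range b) = ⊤) (f : E) :
    ∃ p q : MvPolynomial σ F, f = eval₂ ψ b p / eval₂ ψ b q := by
  have k : Subring.closure (range ψ ∪ range b) ≤ (eval₂Hom ψ b).range := Subring.closure_le.2
    (union_subset (range_subset_iff.2 fun c => ⟨C c, eval₂Hom_C _ _ c⟩)
      (range_subset_iff.2 fun i => ⟨X i, eval₂Hom_X' _ _ i⟩))
  obtain ⟨y, hy, z, hz, e⟩ := Subfield.mem_closure_iff.1 (hg ▸ Subfield.mem_top f)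
  obtain ⟨p, rfl⟩ := k hy
  obtain ⟨q, rfl⟩ := k hz
  exact ⟨p, q, e.symm⟩

theorem adjoin_top [Algebra F E]
    (hg : Subfield.closure (range (algebraMap F E) ∪ range b) = ⊤) :
    IntermediateField.adjoin F (range b) = ⊤ :=
  IntermediateField.toSubfield_injective hg

theorem trdeg_le [Algebra F E] (hg : Subfield.closure (range (algebraMap F E) ∪ range b) = ⊤) :
    trdeg F E ≤ #σ := by
  have h1 : Algebra.IsAlgebraic (IntermediateField.adjoin F (range b)) E := ⟨fun x =>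
    isAlgebraic_algebraMap (⟨x, adjoin_top hg ▸ IntermediateField.mem_top⟩ :
      IntermediateField.adjoin F (range b))⟩
  have := IntermediateField.isAlgebraic_adjoin_iff_top.1 h1
  exact (Algebra.IsAlgebraic.trdeg_le_cardinalMk F (range b)).trans mk_range_le

/-- polynomials are multiples of primitive ones -/
theorem exists_prim (W : ValuationSubring F) {p : MvPolynomial σ F} (hp : p ≠ 0) :
    ∃ c ≠ 0, ∃ q : MvPolynomial σ W, map (residue W) q ≠ 0 ∧ p = C c * map W.subtype q := by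
  classical
  obtain ⟨m, hm, hmax⟩ := p.support.exists_max_image (fun m => W.valuation (p.coeff m))
    (support_nonempty.2 hp)
  have hc : p.coeff m ≠ 0 := mem_support_iff.1 hm
  obtain ⟨q, hq⟩ : C (p.coeff m)⁻¹ * p ∈ range (map W.subtype) := by
    rw [mem_range_map_iff_coeffs_subset]
    intro c hc'
    obtain ⟨n, hn, rfl⟩ := mem_coeffs_iff.1 hc'
    rw [mem_support_iff, coeff_C_mul] at hn
    refine ⟨⟨coeff n (C (p.coeff m)⁻¹ * p), ?_⟩, rfl⟩
    rw [coeff_C_mul, ← W.valuation_le_one_iff, map_mul, map_inv₀, mul_comm,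
      ← div_eq_mul_inv, div_le_one₀ (zero_lt_iff.2 ((map_ne_zero _).2 hc))]
    exact hmax n (mem_support_iff.2 (right_ne_zero_of_mul hn))
  refine ⟨_, hc, q, fun e => ?_, by rw [hq, ← mul_assoc, ← C_mul, mul_inv_cancel₀ hc, C_1, one_mul]⟩
  have h4 := congrArg (coeff m) e
  have h5 := congrArg (coeff m) hq
  rw [coeff_map, coeff_C_mul, inv_mul_cancel₀ hc] at h5
  rw [coeff_map, show q.coeff m = 1 from Subtype.ext h5, map_one, coeff_zero] at h4
  exact one_ne_zero h4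

/-- the evaluation of integral polynomials -/
def ev (ψ : F →+* E) (b : σ → E) (W : ValuationSubring F) : MvPolynomial σ W →+* E :=
  eval₂Hom (ψ.comp W.subtype) b

theorem ev_eq (W : ValuationSubring F) (q : MvPolynomial σ W) :
    ev ψ b W q = eval₂ ψ b (map W.subtype q) := (eval₂_map _ _ _ _).symm

theorem exists_dec (W : ValuationSubring F) (hg : Subfield.closure (range ψ ∪ range b) = ⊤)
    {f : E} (h0 : f ≠ 0) : ∃ c ≠ 0, ∃ p q : MvPolynomial σ W, map (residue W) p ≠ 0 ∧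
      map (residue W) q ≠ 0 ∧ f = ψ c * ev ψ b W p / ev ψ b W q := by
  obtain ⟨p, q, rfl⟩ := exists_quot hg f
  obtain ⟨c, c0, p, p0, rfl⟩ := exists_prim W (p := p) fun e => h0 (by simp [e])
  obtain ⟨d, d0, q, q0, rfl⟩ := exists_prim W (p := q) fun e => h0 (by simp [e])
  refine ⟨c / d, div_ne_zero c0 d0, p, q, p0, q0, ?_⟩
  rw [eval₂_mul, eval₂_mul, eval₂_C, eval₂_C, ev_eq, ev_eq, map_div₀, mul_div_mul_comm,
    mul_div_assoc]

theorem res_ev {W : ValuationSubring F} {V : ValuationSubring E} (h : ∀ f, f ∈ W ↔ ψ f ∈ V)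
    (hb : ∀ i, b i ∈ V) (q : MvPolynomial σ W) : ∃ m : ev ψ b W q ∈ V, residue V ⟨_, m⟩ =
      eval₂ (rm h) (fun i => residue V ⟨b i, hb i⟩) (map (residue W) q) := by
  have e : ((eval₂ (rh h) (fun i => ⟨b i, hb i⟩) q : V) : E) = ev ψ b W q :=
    eval₂_comp_left V.subtype _ _ q
  refine ⟨e ▸ Subtype.prop _, ?_⟩
  rw [eval₂_map]
  exact (congrArg _ (Subtype.ext e.symm)).trans (eval₂_comp_left (residue V) _ _ q)

theorem mk_place {A : Type} [CommRing A] [IsDomain A] [IsNoetherianRing A] [Algebra A E]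
    [IsFractionRing A E] (p : Ideal A) [p.IsPrime] {e : A} (he : e ∈ p) (h0 : e ≠ 0)
    (h : ∀ a ∈ p, ∃ c, a = c * e) : ∃ P : Place E, ∀ f, f ∈ P.ring ↔
      ∃ a, ∃ s ∉ p, f = algebraMap A E a * (algebraMap A E s)⁻¹ := by
  let S := Localization.subalgebra.ofField E p.primeCompl p.primeCompl_le_nonZeroDivisors
  have : IsLocalization.AtPrime S p := Localization.subalgebra.isLocalization_ofField E _ _
  have := IsLocalization.AtPrime.isLocalRing S p
  have := IsLocalization.isNoetherianRing p.primeCompl S inferInstance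
  have k : IsDiscreteValuationRing S := by
    refine ((IsDiscreteValuationRing.TFAE S (IsLocalization.AtPrime.not_isField A (P := p)
      (fun a => h0 (by simpa [a] using he)) S)).out 4 0).1
        (⟨algebraMap A S e, ?_⟩ : (IsLocalRing.maximalIdeal S).IsPrincipal)
    rw [← IsLocalization.AtPrime.map_eq_maximalIdeal p S]
    refine le_antisymm (Ideal.map_le_iff_le_comap.2 fun a ha => ?_)
      ((Ideal.span_singleton_le_iff_mem _).2 (Ideal.mem_map_of_mem _ he))
    obtain ⟨c, rfl⟩ := h a ha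
    rw [Ideal.mem_comap, map_mul]
    exact Ideal.mul_mem_left _ _ (Ideal.mem_span_singleton_self _)
  have k' : ∀ f : E, f ∈ S.toSubring ∨ f⁻¹ ∈ S.toSubring := fun f =>
    (ValuationRing.isInteger_or_isInteger S f).imp (fun ⟨a, b⟩ => b ▸ a.2) fun ⟨a, b⟩ => b ▸ a.2
  exact ⟨⟨.ofSubring _ k', k⟩, fun f => exists₂_congr fun a s => exists_prop⟩

/-- the Gauss extension -/
theorem exists_gauss [Finite σ] (W : Place F) (hb : Ind ψ b)
    (hg : Subfield.closure (range ψ ∪ range b) = ⊤) : ∃ (V : Place E)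
      (h : ∀ f, f ∈ W.ring ↔ ψ f ∈ V.ring) (m : ∀ i, b i ∈ V.ring),
      Ind (rm h) fun i => residue V.ring ⟨b i, m i⟩ := by
  have := W.dvr
  let _ := (ev ψ b W.ring).toAlgebra
  have inj : Function.Injective (ev ψ b W.ring) := (injective_iff_map_eq_zero _).2 fun q e =>
    map_injective _ Subtype.val_injective ((hb _ ((ev_eq _ q).symm.trans e)).trans (map_zero _).symm)
  have : FaithfulSMul (MvPolynomial σ W.ring) E :=
    (faithfulSMul_iff_algebraMap_injective _ _).2 inj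
  have : IsFractionRing (MvPolynomial σ W.ring) E := IsFractionRing.of_field _ _ fun f => by
    by_cases h0 : f = 0
    · exact ⟨0, 1, by simp [h0]⟩
    obtain ⟨c, -, p, q, -, -, rfl⟩ := exists_dec W.ring hg h0
    obtain ⟨u, v, -, rfl⟩ := IsFractionRing.div_surjective (A := W.ring) c
    refine ⟨C u * p, C v * q, ?_⟩
    change _ = ev ψ b W.ring _ / ev ψ b W.ring _
    rw [map_mul, map_mul, map_div₀, mul_div_mul_comm, mul_div_assoc]
    simp [ev]
  let p := RingHom.ker (map (σ := σ) (residue W.ring))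
  have : p.IsPrime := RingHom.ker_isPrime _
  obtain ⟨t, ht⟩ := IsDiscreteValuationRing.exists_irreducible W.ring
  have hm := ht.maximalIdeal_eq
  have cm : ∀ c : W.ring, C c ∈ p ↔ c ∈ maximalIdeal W.ring := fun c => by
    rw [RingHom.mem_ker, map_C, C_eq_zero, residue_eq_zero_iff]
  obtain ⟨V, hV⟩ := mk_place (E := E) p (e := C t) ((cm t).2 (hm ▸ Ideal.mem_span_singleton_self t))
    (C_ne_zero.2 ht.ne_zero) fun a ha => by
      obtain ⟨c, hc⟩ := (C_dvd_iff_dvd_coeff t a).2 fun i => by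
        rw [← Ideal.mem_span_singleton, ← hm, ← residue_eq_zero_iff, ← coeff_map,
          RingHom.mem_ker.1 ha, coeff_zero]
      exact ⟨c, hc.trans (mul_comm _ _)⟩
  have o : (1 : MvPolynomial σ W.ring) ∉ p := (Ideal.ne_top_iff_one p).1 this.ne_top
  have a1 : ∀ a, ev ψ b W.ring a ∈ V.ring := fun a => (hV _).2 ⟨a, 1, o, by simp; rfl⟩
  have a2 : ∀ a ∈ p, a ≠ 0 → (ev ψ b W.ring a)⁻¹ ∉ V.ring := fun a ha a0 k => by
    obtain ⟨u, s, hs, e⟩ := (hV _).1 k
    change _ = ev ψ b W.ring _ * (ev ψ b W.ring _)⁻¹ at e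
    rw [eq_mul_inv_iff_mul_eq₀ ((map_ne_zero_iff _ inj).2 fun z : s = 0 => hs (z ▸ zero_mem _)),
      inv_mul_eq_iff_eq_mul₀ ((map_ne_zero_iff _ inj).2 a0), ← map_mul] at e
    exact hs (inj e ▸ p.mul_mem_right _ ha)
  have h : ∀ f, f ∈ W.ring ↔ ψ f ∈ V.ring := fun f => by
    refine ⟨fun k => by simpa [ev] using a1 (C ⟨f, k⟩), fun k => by_contra fun k' => ?_⟩
    have f0 : f ≠ 0 := fun e => k' (e ▸ zero_mem _)
    refine a2 (C ⟨f⁻¹, (W.ring.mem_or_inv_mem f).resolve_left k'⟩) ((cm _).2 ?_)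
      (C_ne_zero.2 fun e => inv_ne_zero f0 (congrArg Subtype.val e)) (by simpa [ev] using k)
    exact (Pl.mem_maximalIdeal_iff _ _).2 (Or.inr (Pl.ord_pos_of_inv_notMem _ (by simpa using k')))
  have m : ∀ i, b i ∈ V.ring := fun i => by simpa [ev] using a1 (X i)
  refine ⟨V, h, m, fun q e => ?_⟩
  obtain ⟨q, rfl⟩ := map_surjective _ residue_surjective q
  obtain ⟨k, k'⟩ := res_ev h m q
  by_contra c
  have q0 : ev ψ b W.ring q ≠ 0 := (map_ne_zero_iff _ inj).2 fun e => c (by simp [e])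
  refine (residue_ne_zero_iff_isUnit _).2 (IsUnit.of_mul_eq_one ⟨_, (hV _).2 ⟨1, q, c, rfl⟩⟩
    (Subtype.ext ?_)) (k'.trans e)
  change ev ψ b W.ring q * (ev ψ b W.ring 1 * (ev ψ b W.ring q)⁻¹) = 1
  rw [map_one, one_mul, mul_inv_cancel₀ q0]

end Ga

end gen

open Ga

variable {K K₁ : Type} [Field K] [Algebra ℂ K] [Field K₁] [Algebra ℂ K₁] {σ : Type} {n : ℕ}

theorem ind_iff' {ι : K →ₐ[ℂ] K₁} {b : σ → K₁} :
    AlgebraicIndependent ι.fieldRange b ↔ Ind (ι : K →+* K₁) b := ind_iff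

/-- `R` is a Gauss extension of `Q` -/
structure Gau (φ : K →+* K₁) (b : σ → K₁) (R : Pl K₁) (Q : Pl K) : Prop where
  lies : Lies φ R Q
  mem : ∀ i, b i ∈ R.ring
  ind : Ind lies.κ fun i => R.rd (b i)

theorem trdeg_gen {φ : K →+* K₁} (hc : ∀ c, φ (algebraMap ℂ K c) = algebraMap ℂ K₁ c)
    {b : σ → K₁} : (Ind φ b → trdeg ℂ K + #σ ≤ trdeg ℂ K₁) ∧
      (Subfield.closure (range φ ∪ range b) = ⊤ → trdeg ℂ K₁ ≤ trdeg ℂ K + #σ) := by
  let _ := φ.toAlgebra
  have : IsScalarTower ℂ K K₁ := .of_algebraMap_eq fun c => (hc c).symm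
  rw [← trdeg_add_eq ℂ K (A := K₁)]
  exact ⟨fun h => add_le_add_right (ind_alg.2 h).cardinalMk_le_trdeg _,
    fun h => add_le_add_right (trdeg_le h) _⟩

theorem ff_gen [Fintype σ] {φ : K →+* K₁} (hc : ∀ c, φ (algebraMap ℂ K c) = algebraMap ℂ K₁ c)
    (hK : FF K n) {b : σ → K₁} (hb : Ind φ b) (hg : Subfield.closure (range φ ∪ range b) = ⊤) :
    FF K₁ (n + Fintype.card σ) := by
  have e := le_antisymm ((trdeg_gen hc).2 hg) ((trdeg_gen hc).1 hb)
  let _ := φ.toAlgebra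
  have : IsScalarTower ℂ K K₁ := .of_algebraMap_eq fun c => (hc c).symm
  have := hK.ess
  have : EssFiniteType K K₁ := IntermediateField.fg_top_iff.1
    (adjoin_top hg ▸ IntermediateField.fg_adjoin_of_finite (finite_range b))
  have := EssFiniteType.comp ℂ K K₁
  exact ff_of_ess (by rw [e, hK.trdeg, mk_fintype, Nat.cast_add])

/-- generators in the right number are independent -/
theorem ind_of_trdeg [Fintype σ] {φ : K →+* K₁}
    (hc : ∀ c, φ (algebraMap ℂ K c) = algebraMap ℂ K₁ c) (hK : FF K n) {b : σ → K₁}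
    (hg : Subfield.closure (range φ ∪ range b) = ⊤)
    (h : ((n + Fintype.card σ : ℕ) : Cardinal) ≤ trdeg ℂ K₁) : Ind φ b := by
  let _ := φ.toAlgebra
  have : IsScalarTower ℂ K K₁ := .of_algebraMap_eq fun c => (hc c).symm
  have h1 : Algebra.IsAlgebraic (IntermediateField.adjoin K (range b)) K₁ := ⟨fun x =>
    isAlgebraic_algebraMap (⟨x, adjoin_top hg ▸ IntermediateField.mem_top⟩ :
      IntermediateField.adjoin K (range b))⟩
  have := IntermediateField.isAlgebraic_adjoin_iff_top.1 h1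
  rw [← trdeg_add_eq ℂ K (A := K₁), hK.trdeg, Nat.cast_add, ← mk_fintype] at h
  exact ind_alg.1 (Algebra.IsAlgebraic.isTranscendenceBasis_of_le_trdeg_of_finite K b
    ((Cardinal.add_le_add_iff_of_lt_aleph0 (γ := n) natCast_lt_aleph0).1
      (by rwa [add_comm, add_comm _ (n : Cardinal)]))).1

theorem gau_ex [Finite σ] {φ : K →+* K₁} (hc : ∀ c, φ (algebraMap ℂ K c) = algebraMap ℂ K₁ c)
    {b : σ → K₁} (hb : Ind φ b) (hg : Subfield.closure (range φ ∪ range b) = ⊤) (Q : Pl K) :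
    ∃ R, Gau φ b R Q := by
  obtain ⟨V, h, m, k⟩ := exists_gauss Q.toPlace hb hg
  have c : ∀ c, algebraMap ℂ K₁ c ∈ V.ring := fun c => hc c ▸ (h _).1 (Q.con c)
  let _ := (cst V c).toAlgebra
  have d : trdeg ℂ (ResidueField V.ring) + 1 = trdeg ℂ K₁ := by
    refine le_antisymm (res_lt (Pl.ring_ne_top V) c fun _ => rfl) (((trdeg_gen hc).2 hg).trans ?_)
    have e : trdeg ℂ Q.κ + 1 = trdeg ℂ K := Q.dvl
    rw [← e, add_right_comm]
    exact add_le_add_left ((trdeg_gen (K := Q.κ) (φ := rm h) fun a =>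
      congrArg (residue V.ring) (Subtype.ext (hc a))).1 k) 1
  refine ⟨⟨V, c, d⟩, h, m, ?_⟩
  rw [show (fun i => Pl.rd ⟨V, c, d⟩ (b i)) = _ from funext fun i => rd_of ⟨V, c, d⟩ (m i)]
  exact k

namespace Gau

variable {φ : K →+* K₁} {b : σ → K₁} {R R' : Pl K₁} {Q : Pl K}

theorem rd_ev (h : Gau φ b R Q) (q : MvPolynomial σ Q.ring) : ev φ b Q.ring q ∈ R.ring ∧
    R.rd (ev φ b Q.ring q) = eval₂ h.lies.κ (fun i => R.rd (b i)) (map (rdA Q) q) := by
  obtain ⟨m, e⟩ := res_ev h.lies h.mem q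
  rw [show (fun i => R.rd (b i)) = _ from funext fun i => rd_of R (h.mem i)]
  exact ⟨m, (rd_of R m).trans e⟩

theorem ord_ev (h : Gau φ b R Q) {q : MvPolynomial σ Q.ring} (hq : map (residue Q.ring) q ≠ 0) :
    ev φ b Q.ring q ≠ 0 ∧ R.ord (ev φ b Q.ring q) = 0 := by
  obtain ⟨m, e⟩ := h.rd_ev q
  have k : residue R.ring ⟨_, m⟩ ≠ 0 := fun z => hq (h.ind _ (e.symm.trans ((rd_of R m).trans z)))
  rw [Ne, residue_eq_zero_iff, Pl.mem_maximalIdeal_iff, not_or] at k
  exact ⟨k.1, le_antisymm (not_lt.1 k.2) (Pl.ord_nonneg_of_mem _ m)⟩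

theorem ord_dec (h : Gau φ b R Q) {c : K} (c0 : c ≠ 0) {p q : MvPolynomial σ Q.ring}
    (hp : map (residue Q.ring) p ≠ 0) (hq : map (residue Q.ring) q ≠ 0) :
    R.ord (φ c * ev φ b Q.ring p / ev φ b Q.ring q) = R.ord (φ Q.t) * Q.ord c := by
  have k := (map_ne_zero φ).2 c0
  rw [Pl.ord_div _ (mul_ne_zero k (h.ord_ev hp).1) (h.ord_ev hq).1, Pl.ord_mul _ k (h.ord_ev hp).1,
    (h.ord_ev hp).2, (h.ord_ev hq).2, h.lies.ord, add_zero, sub_zero]

theorem e (h : Gau φ b R Q) (hg : Subfield.closure (range φ ∪ range b) = ⊤) :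
    R.ord (φ Q.t) = 1 := by
  obtain ⟨c, c0, p, q, hp, hq, e⟩ := exists_dec Q.ring hg R.t_ne
  exact Int.eq_one_of_mul_eq_one_right h.lies.e_pos.le
    ((h.ord_dec c0 hp hq).symm.trans (e ▸ R.ord_t))

theorem uniq (h : Gau φ b R Q) (h' : Gau φ b R' Q)
    (hg : Subfield.closure (range φ ∪ range b) = ⊤) : R = R' := by
  refine Pl.ext' (ValuationSubring.ext _ _ fun f => ?_)
  by_cases f0 : f = 0
  · simp [f0]
  obtain ⟨c, c0, p, q, hp, hq, e⟩ := exists_dec Q.ring hg f0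
  rw [← Pl.ord_nonneg_iff _ f0, ← Pl.ord_nonneg_iff _ f0, e, h.ord_dec c0 hp hq,
    h'.ord_dec c0 hp hq, h.e hg, h'.e hg]

theorem gen (h : Gau φ b R Q) (hg : Subfield.closure (range φ ∪ range b) = ⊤) :
    Subfield.closure (range h.lies.κ ∪ range fun i => R.rd (b i)) = ⊤ := by
  refine eq_top_iff.2 fun a _ => ?_
  obtain ⟨f, hf, rfl⟩ := rd_sur R a
  by_cases f0 : f = 0
  · rw [f0, ← map_zero (algebraMap ℂ K₁), rd_cst, map_zero]
    exact zero_mem _
  obtain ⟨c, c0, p, q, hp, hq, e⟩ := exists_dec Q.ring hg f0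
  have m : c ∈ Q.ring := by
    have := Pl.ord_nonneg_of_mem _ hf
    rwa [e, h.ord_dec c0 hp hq, h.e hg, one_mul, Pl.ord_nonneg_iff _ c0] at this
  have k : ∀ r : MvPolynomial σ Q.κ, eval₂ h.lies.κ (fun i => R.rd (b i)) r ∈
      Subfield.closure (range h.lies.κ ∪ range fun i => R.rd (b i)) := fun r => by
    apply eval₂_mem
    exacts [fun _ _ => Subfield.subset_closure (Or.inl ⟨_, rfl⟩),
      fun i => Subfield.subset_closure (Or.inr ⟨i, rfl⟩)]
  rw [eq_div_iff (h.ord_ev hq).1] at e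
  have e' := congrArg R.rd e
  rw [rd_mul R hf (h.rd_ev q).1, rd_mul R ((h.lies c).1 m) (h.rd_ev p).1, ← h.lies.isRd c m,
    ← eq_div_iff (rd_ne R (h.ord_ev hq).1 (h.ord_ev hq).2).2, (h.rd_ev p).2, (h.rd_ev q).2] at e'
  exact e' ▸ div_mem (mul_mem (Subfield.subset_closure (Or.inl ⟨_, rfl⟩)) (k _)) (k _)

end Gau

end Vale.Agent.P287D.Gm
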