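import Vale.Agent.P287D.Gm.Tr
import Vale.Agent.P287D.Gm.Gau
import Vale.Agent.P287D.Gf.Res
import Vale.Agent.P287D.Cb.Row
import Vale.Agent.P287D.Va.Alg

/-!
# P287D, block GM: adjunction to the generic member of a linear system
-/

set_option linter.unusedSectionVars false
set_option linter.unusedVariables false

open Set
open Vale.Agent.P285N.Brep (jac Fr)
open Vale.Agent.P297Z Vale.Agent.P287D.Cb

noncomputable section

namespace Vale.Agent.P287D.Gm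

variable {K K₁ K' : Type} [Field K] [Algebra ℂ K] [Field K₁] [Algebra ℂ K₁] [Field K']
  [Algebra ℂ K'] {n m r : ℕ} {τ σ : Type} [Fintype τ] [DecidableEq τ] [Fintype σ] [DecidableEq σ]

section pure

/-- coordinates of a purely transcendental extension -/
def Wd (ι : K →+* K₁) (e : Fin m ≃ Fin n ⊕ τ) (y : Fin n → K) (b : τ → K₁) : Fin m → K₁ :=
  fun i => Sum.elim (fun j => ι (y j)) b (e i)

variable {ι : K →+* K₁} {e : Fin m ≃ Fin n ⊕ τ} {y t : Fin n → K} {b : τ → K₁} {R : Pl K₁}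
  {D : Fin n → Derivation ℂ K K} {E : Fin m → Derivation ℂ K₁ K₁}

theorem Wd_l (j : Fin n) : Wd ι e y b (e.symm (.inl j)) = ι (y j) := by simp [Wd]

theorem Wd_r (j : τ) : Wd ι e y b (e.symm (.inr j)) = b j := by simp [Wd]

theorem Wd_all {p : K₁ → Prop} (h : ∀ j, p (ι (y j))) (h' : ∀ j, p (b j)) (i : Fin m) :
    p (Wd ι e y b i) := by
  unfold Wd
  rcases e i with j | j
  exacts [h j, h' j]

theorem Wd_ind (hc : ∀ c, ι (algebraMap ℂ K c) = algebraMap ℂ K₁ c) (hK : FF K n) (h₁ : FF K₁ m)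
    (hg : Subfield.closure (range ι ∪ range b) = ⊤) (hy : AlgebraicIndependent ℂ y) :
    AlgebraicIndependent ℂ (Wd ι e y b) := by
  refine ind_of_cl h₁ (fun x => (Subfield.closure_le (t := (Cl _).toSubfield)).2 ?_
    (hg ▸ Subfield.mem_top x)) (by simp)
  rintro _ (⟨f, rfl⟩ | ⟨j, rfl⟩)
  · refine cl_map (.of_lin hc) ?_ (cl_basis hK hy (by simp) f)
    rintro _ ⟨j, rfl⟩
    exact sub_Cl ⟨_, Wd_l j⟩
  · exact sub_Cl ⟨_, Wd_r j⟩

theorem Wd_dt (d : Fin m → Derivation ℂ K₁ K₁) :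
    dt ι (fun i => d (e.symm i)) y b = jac d (Wd ι e y b) := by
  rw [dt, jac, ← Matrix.det_submatrix_equiv_self e]
  congr 1
  ext i j
  simp [Wd]

theorem Wd_chg (hc : ∀ c, ι (algebraMap ℂ K c) = algebraMap ℂ K₁ c) (hD : Fr t D)
    (hE : Fr (Wd ι e t b) E) (hy : AlgebraicIndependent ℂ y) :
    kap (Wd ι e y b) = kap (Wd ι e t b) + dv (ι (jac D y)) := by
  have k : jac E (Wd ι e y b) = ι (jac D y) := by
    rw [← Wd_dt, dt_chain (fun i => dr_of _) (fun i c => by rw [hc, Derivation.map_algebraMap]) hD,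
      Wd_dt, jac_self hE, one_mul]
  rw [kap_chg hE (k ▸ (map_ne_zero ι).2 ((jac_ne_iff hD y).2 hy)), k]

theorem Wd_der (hc : ∀ c, ι (algebraMap ℂ K c) = algebraMap ℂ K₁ c) (hD : Fr y D)
    (hE : Fr (Wd ι e y b) E) (i : Fin m) (x : K) :
    E i (ι x) = ∑ j, (if i = e.symm (.inl j) then 1 else 0) * ι (D j x) := by
  have := expand ((dr_of (E i)).comp ι) (fun c => by rw [hc, Derivation.map_algebraMap]) hD x
  refine this.trans (Finset.sum_congr rfl fun j _ => ?_)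
  rw [← hE.dual, Wd_l]
  rfl

theorem Wd_zero {e : Fin (m + 1) ≃ Fin n ⊕ τ} {E : Fin (m + 1) → Derivation ℂ K₁ K₁}
    (hc : ∀ c, ι (algebraMap ℂ K c) = algebraMap ℂ K₁ c) (h₁ : FF K₁ (m + 1))
    (hg : Subfield.closure (range ι ∪ range b) = ⊤) (hD : Fr y D) (hE : Fr (Wd ι e y b) E)
    (V : ValuationSubring K) (hV : ∀ x ∈ V, ι x ∈ R.ring) (pre : ∀ j, ∀ x ∈ V, D j x ∈ V)
    (hs : Sp R (range (Wd ι e y b))) : kap (Wd ι e y b) R = 0 := by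
  refine kap_zero h₁ hE hs (S := ι '' V ∪ range b) ?_ ?_ fun x =>
    (Subfield.closure_le (t := (IntermediateField.adjoin ℂ _).toSubfield)).2 ?_
      (hg ▸ Subfield.mem_top x)
  · rintro _ (⟨x, hx, rfl⟩ | ⟨j, rfl⟩)
    exacts [hV x hx, hs.1 ⟨_, Wd_r j⟩]
  · rintro i _ (⟨x, hx, rfl⟩ | ⟨j, rfl⟩)
    · rw [Wd_der hc hD hE]
      refine sum_mem fun j _ => mul_mem ?_ (Algebra.subset_adjoin (.inl ⟨_, pre j x hx, rfl⟩))
      split_ifs
      exacts [one_mem _, zero_mem _]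
    · rw [← Wd_r (ι := ι) (e := e) (y := y) (b := b), hE.dual]
      split_ifs
      exacts [one_mem _, zero_mem _]
  · rintro _ (⟨x, rfl⟩ | hx)
    · rcases V.mem_or_inv_mem x with k | k
      · exact IntermediateField.subset_adjoin _ _ (.inl ⟨x, k, rfl⟩)
      · have := inv_mem (IntermediateField.subset_adjoin ℂ (ι '' V ∪ range b) (.inl ⟨_, k, rfl⟩))
        rwa [map_inv₀, inv_inv] at this
    · exact IntermediateField.subset_adjoin _ _ (.inr hx)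

theorem jac_upd {w : Fin m → K₁} (hE : Fr w E) (p : Fin m) (x : K₁) :
    jac E (Function.update w p x) = E p x := by
  have : (Matrix.of fun i j => E i (Function.update w p x j)) =
      (1 : Matrix _ _ K₁).updateCol p fun i => E i x := by
    ext i j
    by_cases h : j = p
    · simp [h]
    · simp [h, hE.dual, Matrix.one_apply]
  rw [jac, this, ← Matrix.cramer_apply, Matrix.cramer_one]
  rfl

end pure

section gm

variable {ι : K →+* K₁} {s : σ → K} {a : σ → K₁} {j k : σ} {R : Pl K₁}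

theorem mem_all (A : Subring K₁) (rel : ∑ i, a i * ι (s i) = 0) (hk : s k ≠ 0)
    (h1 : ∀ i ≠ k, a i ∈ A) (h2 : ∀ i, ι (s i * (s k)⁻¹) ∈ A) (i : σ) : a i ∈ A := by
  by_cases e : i = k
  · have := congrArg (· * ι (s k)⁻¹) rel
    simp only [Finset.sum_mul, mul_assoc, ← map_mul, zero_mul] at this
    rw [← Finset.add_sum_erase _ _ (Finset.mem_univ k), mul_inv_cancel₀ hk, map_one, mul_one,
      add_eq_zero_iff_eq_neg] at this
    rw [e, this]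
    exact neg_mem (sum_mem fun i hi => mul_mem (h1 i (Finset.ne_of_mem_erase hi)) (h2 i))
  · exact h1 i e

/-- all members but the `k`-th -/
def om (a : σ → K₁) (j k : σ) (i : {i // i ≠ j}) : K₁ := a (Equiv.swap j k i)

theorem om_mem {i : σ} (h : i ≠ k) : a i ∈ range (om a j k) :=
  ⟨⟨Equiv.swap j k i, fun e => h (by rwa [Equiv.swap_apply_eq_iff, Equiv.swap_apply_left] at e)⟩,
    by simp [om]⟩

theorem om_gen (rel : ∑ i, a i * ι (s i) = 0) (hk : s k ≠ 0)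
    (hg : Subfield.closure (range ι ∪ range a) = ⊤) :
    Subfield.closure (range ι ∪ range (om a j k)) = ⊤ := by
  refine eq_top_iff.2 (hg ▸ Subfield.closure_le.2 ?_)
  rintro _ (hx | ⟨i, rfl⟩)
  · exact Subfield.subset_closure (.inl hx)
  · exact mem_all (Subfield.closure (range ι ∪ range (om a j k))).toSubring rel hk
      (fun i hi => Subfield.subset_closure (Or.inr (om_mem hi)))
      (fun i => Subfield.subset_closure (Or.inl ⟨_, rfl⟩)) i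

theorem rd_all {T : Set R.κ} (rel : ∑ i, a i * ι (s i) = 0) (hk : s k ≠ 0)
    (h0 : ∀ i, a i ∈ R.ring) (h1 : ∀ i ≠ k, R.rd (a i) ∈ Cl T)
    (h2 : ∀ i, ι (s i * (s k)⁻¹) ∈ R.ring ∧ R.rd (ι (s i * (s k)⁻¹)) ∈ Cl T) (i : σ) :
    R.rd (a i) ∈ Cl T := by
  obtain ⟨x, hx, e⟩ := mem_all (((Cl T).toSubfield.toSubring.comap (rdA R)).map R.ring.subtype)
    rel hk (fun i hi => ⟨⟨_, h0 i⟩, (rd_of (h0 i) ▸ h1 i hi :), rfl⟩)
    (fun i => ⟨⟨_, (h2 i).1⟩, (rd_of (h2 i).1 ▸ (h2 i).2 :), rfl⟩) i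
  rw [← e]
  exact (rd_of x.2).symm ▸ hx

theorem kap_om {e : Fin m ≃ Fin n ⊕ {i // i ≠ j}} {y : Fin n → K}
    {D : Fin n → Derivation ℂ K K} {E : Fin m → Derivation ℂ K₁ K₁}
    (hc : ∀ c, ι (algebraMap ℂ K c) = algebraMap ℂ K₁ c) (rel : ∑ i, a i * ι (s i) = 0)
    (hj : s j ≠ 0) (hk : s k ≠ 0) (hD : Fr y D) (hE : Fr (Wd ι e y (om a j j)) E) :
    kap (Wd ι e y (om a j k)) + dv (ι (s j)) = kap (Wd ι e y (om a j j)) + dv (ι (s k)) := by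
  by_cases h : k = j
  · rw [h]
  have e1 : Wd ι e y (om a j k) =
      Function.update (Wd ι e y (om a j j)) (e.symm (.inr ⟨k, h⟩)) (a j) := funext fun i => by
    obtain ⟨i, rfl⟩ := e.symm.surjective i
    rcases i with i | ⟨i, hi⟩
    · simp [Wd_l]
    · by_cases q : i = k
      · simp [q, Wd_r, om]
      · simp [q, Wd_r, om, Equiv.swap_apply_of_ne_of_ne hi q]
  generalize hp : e.symm (.inr ⟨k, h⟩) = p at e1
  have e2 : ∀ x, E p (ι x) = 0 := fun x => by simp [Wd_der hc hD hE, ← hp]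
  have e3 : ∀ i, i ≠ j → E p (a i) = if i = k then 1 else 0 := fun i hi => by
    have := hE.dual p (e.symm (.inr ⟨i, hi⟩))
    simpa [Wd_r, om, ← hp, eq_comm] using this
  have e4 : ι (s j) * E p (a j) = -ι (s k) := by
    have := congrArg (E p) rel
    rw [map_sum, map_zero, ← Finset.add_sum_erase _ _ (Finset.mem_univ j),
      Finset.sum_eq_single k] at this
    · simpa [e2, e3 k h, add_eq_zero_iff_eq_neg] using this
    · intro i hi q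
      simp [e2, e3 i (Finset.ne_of_mem_erase hi), q]
    · simp [h]
  have k0 := (map_ne_zero ι).2 hk
  have e0 : E p (a j) ≠ 0 := fun q => k0 (by simpa [q] using e4)
  rw [e1, kap_chg hE (jac_upd hE p _ ▸ e0), jac_upd hE, add_assoc, ← dv_mul e0
    ((map_ne_zero ι).2 hj), mul_comm, e4, dv_neg]

theorem sp_om {e : Fin m ≃ Fin n ⊕ {i // i ≠ j}} {y : Fin n → K} (rel : ∑ i, a i * ι (s i) = 0)
    (hk : s k ≠ 0) (h0 : ∀ i, a i ∈ R.ring) (h1 : ∀ i, ι (y i) ∈ R.ring)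
    (h2 : ∀ i, ι (s i * (s k)⁻¹) ∈ R.ring)
    (h3 : ∀ x, ι x ∈ R.ring → R.rd (ι x) ∈ Cl (range fun i => R.rd (ι (y i)))) :
    Sp R (range (Wd ι e y (om a j k))) ↔
      ∀ x, x ∈ Cl (R.rd '' (range ι ∩ R.ring) ∪ range fun i => R.rd (a i)) := by
  have h4 : ∀ x, ι x ∈ R.ring → R.rd (ι x) ∈ Cl (R.rd '' range (Wd ι e y (om a j k))) :=
    fun x hx => cl_le (by
      rintro _ ⟨i, rfl⟩
      exact sub_Cl ⟨_, ⟨_, Wd_l i⟩, rfl⟩) (h3 x hx)
  rw [sp_iff]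
  refine ⟨fun h x => cl_le ?_ (h.2 x), fun h => ⟨?_, fun x => cl_le ?_ (h x)⟩⟩
  · rintro _ ⟨_, ⟨i, rfl⟩, rfl⟩
    exact Wd_all (p := fun z => R.rd z ∈ Cl _) (fun i => sub_Cl (.inl ⟨_, ⟨⟨_, rfl⟩, h1 i⟩, rfl⟩))
      (fun i => sub_Cl (.inr ⟨_, rfl⟩)) i
  · rintro _ ⟨i, rfl⟩
    exact Wd_all (p := (· ∈ R.ring)) h1 (fun _ => h0 _) i
  · rintro _ (⟨_, ⟨⟨x, rfl⟩, hx⟩, rfl⟩ | ⟨i, rfl⟩)
    · exact h4 x hx
    · refine rd_all rel hk h0 (fun i hi => ?_) (fun i => ⟨h2 i, h4 _ (h2 i)⟩) i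
      obtain ⟨i', e'⟩ := om_mem (a := a) (j := j) hi
      exact sub_Cl ⟨_, ⟨_, Wd_r i'⟩, congrArg _ e'⟩

variable {L : IntermediateField ℂ K₁} {ψ : K₁ →+* K'} {P : Pl K'} {Q : Pl K}

/-- spanning sets of the residue field of a generic fibre -/
theorem fib_iff (h : GF L ψ) (l : Lies ψ P R) (h₁ : FF K₁ (r + m + 1)) (hK' : FF K' (r + 1))
    (e : Fintype.card σ = m) (ha : ∀ i, a i ∈ L) (hi : AlgebraicIndependent ℂ a) (S : Set R.κ) :
    (∀ x, x ∈ Cl (l.κ '' S)) ↔ ∀ x, x ∈ Cl (S ∪ range fun i => R.rd (a i)) := by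
  have hc := Ext.cst' h.toExt
  have k : ∀ i, l.κ (R.rd (a i)) ∈ range (algebraMap ℂ P.κ) := fun i =>
    l.isRd _ (h.toExt.hor l _ (ha i)) ▸ (rd_cst (h.cst _ (ha i))).2
  refine ⟨fun q => cnt (l := 0) (l.isRd.cst hc) (ff_κ R h₁) (ff_κ P hK') e (Fintype.card_fin 0)
    (ind_rd hc l (fun i => h.cst _ (ha i)) hi) k (fun i => sub_Cl (.inr ⟨i, rfl⟩))
    (w := Fin.elim0) fun x => cl_le (fun z hz => sub_Cl (.inl (image_mono subset_union_left hz)))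
      (q x), fun q => Spn.lies (fun x => cl_le ?_ ((sp_iff.1 ((alg_of_gf h).sp l)).2 x)) hc l q ?_⟩
  · rintro _ ⟨_, ⟨z, hz, rfl⟩, rfl⟩
    exact sub_Cl ⟨_, ⟨⟨z, rfl⟩, (l z).1 hz⟩, rfl⟩
  · rintro _ (hx | ⟨i, rfl⟩)
    exacts [sub_Cl ⟨_, hx, rfl⟩, cl_cst (k i) _]

theorem spn_iff (h : GF L ψ) (l : Lies ψ P R) (h₁ : FF K₁ (r + m + 1)) (hK' : FF K' (r + 1))
    (e : Fintype.card σ = m) (ha : ∀ i, a i ∈ L) (hi : AlgebraicIndependent ℂ a) :
    Spn (ψ.comp ι) P ↔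
      ∀ x, x ∈ Cl (R.rd '' (range ι ∩ R.ring) ∪ range fun i => R.rd (a i)) := by
  rw [← fib_iff h l h₁ hK' e ha hi, Spn]
  have : P.rd '' (range (ψ.comp ι) ∩ P.ring) = l.κ '' (R.rd '' (range ι ∩ R.ring)) := by
    ext x
    constructor
    · rintro ⟨_, ⟨⟨z, rfl⟩, hz⟩, rfl⟩
      exact ⟨_, ⟨_, ⟨⟨z, rfl⟩, (l _).2 hz⟩, rfl⟩, l.isRd _ ((l _).2 hz)⟩
    · rintro ⟨_, ⟨_, ⟨⟨z, rfl⟩, hz⟩, rfl⟩, rfl⟩
      exact ⟨_, ⟨⟨z, rfl⟩, (l _).1 hz⟩, (l.isRd _ hz).symm⟩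
  rw [this]

end gm

/-- the data of a generic member -/
structure Mem (n m : ℕ) (s : Finset K) (ι : K →+* K₁) (a : s → K₁) (L : IntermediateField ℂ K₁)
    (ψ : K₁ →+* K') (j : s) : Prop where
  hc : ∀ c, ι (algebraMap ℂ K c) = algebraMap ℂ K₁ c
  fk : FF K (n + 2)
  f₁ : FF K₁ (n + (m + 1) + 1)
  fk' : FF K' (n + 1)
  fl : FF L (m + 1)
  card : Fintype.card s = m + 1
  ne : (j : K) ≠ 0
  rel : ∑ i, a i * ι i = 0
  gen : Subfield.closure (range ι ∪ range a) = ⊤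
  mem : ∀ i, a i ∈ L
  ind : AlgebraicIndependent ℂ a
  gf : GF L ψ

namespace Mem

variable {s : Finset K} {ι : K →+* K₁} {a : s → K₁} {L : IntermediateField ℂ K₁} {ψ : K₁ →+* K'}
  {j : s} (h : Mem n m s ι a L ψ j) {P : Pl K'} {Q : Pl K} {Λ : BD K}

include h

theorem cst : Cst (ψ.comp ι) := (Ext.cst' h.gf.toExt).comp (.of_lin h.hc)

theorem on (hR : RES) (hB : BA) (hΛ : Smp Λ) (d : Dsc Λ (mx s)) (l : Lies (ψ.comp ι) P Q)
    (o : On n (pb (ψ.comp ι) Λ) P) : On (n + 1) Λ Q := by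
  classical
  obtain ⟨R, l1⟩ := h.gf.below h.fk' P
  have l2 := l1.of_comp l
  have z : Nz s := ⟨j, j.2, h.ne⟩
  obtain ⟨g, g1, g2, g3⟩ := exists_nrm Q.ring z
  obtain ⟨u, u1, u2, u3, u4⟩ := exists_sys hΛ Q.ring (u := s.image (· * g⁻¹))
    (Finset.mem_image.2 ⟨g, g1, mul_inv_cancel₀ g2⟩) (fun f hf => by
      obtain ⟨x, hx, rfl⟩ := Finset.mem_image.1 hf
      exact g3 x hx) (mx_image_mul z (inv_ne_zero g2) ▸ d.sub (.dv hΛ _))
  have k := (on_pb hR hB h.fk' (h.cst.ok h.fk h.fk') u1 u2 fun f hf => (l f).1 (u4 f hf)).1 o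
  have k' := (fib_iff h.gf l1 h.f₁ h.fk' h.card h.mem h.ind (l2.κ '' (Q.rd '' u))).1 fun x =>
    cl_le (by
      rintro _ ⟨_, ⟨f, hf, rfl⟩, rfl⟩
      exact sub_Cl ⟨_, ⟨_, ⟨f, hf, rfl⟩, l2.isRd f (u4 f hf)⟩,
        l1.isRd _ ((l2 f).1 (u4 f hf))⟩) (k x)
  refine (on_iff hR hB h.fk u1 u2 u4).2 (cnt (r := n + 1) (m := 0) (l := m)
    (l2.isRd.cst (.of_lin h.hc)) (ff_κ Q h.fk) (by rw [Nat.add_right_comm]; exact ff_κ R h.f₁)
    (Fintype.card_fin 0) (τ := {i // i ≠ (⟨g, g1⟩ : s)}) (by simp [h.card])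
    (y := Fin.elim0) (algebraicIndependent_empty_type) (fun i => i.elim0) (fun i => i.elim0)
    (w := fun i => R.rd (a i)) fun x => cl_le ?_ (k' x))
  rintro _ (hx | ⟨i, rfl⟩)
  · exact sub_Cl (.inl hx)
  · refine rd_all (k := ⟨g, g1⟩) h.rel g2 (fun i => h.gf.toExt.hor l1 _ (h.mem i))
      (fun i hi => sub_Cl (.inr ⟨⟨i, hi⟩, rfl⟩)) (fun i => ⟨(l2 _).1 (g3 _ i.2), sub_Cl
        (.inl ⟨_, ⟨_, u3 (Finset.mem_image_of_mem _ i.2), rfl⟩, l2.isRd _ (g3 _ i.2)⟩)⟩) i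

theorem loc : ∃ f, Loc (n + 1) n (ψ.comp ι) (mx s) f := by
  classical
  have e : Fin (n + (m + 1) + 1) ≃ Fin (n + 2) ⊕ {i // i ≠ j} :=
    Fintype.equivOfCardEq (by simp [h.card]; omega)
  have en : n + 1 + (m + 1) = n + (m + 1) + 1 := by omega
  obtain ⟨f, f0, ef⟩ := gen_can_of (r := n + 1) h.gf h.fl (en ▸ h.f₁) h.fk' fun P =>
    (h.gf.below h.fk' P).imp fun _ l => ⟨l, h.gf.e_one l⟩
  rw [en] at ef
  obtain ⟨y, D, hD, ey⟩ := exists_cn h.fk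
  have hy := (jac_ne_iff hD y).1 (jac_ne hD hD)
  have wi : ∀ k : s, (k : K) ≠ 0 → ∀ z, AlgebraicIndependent ℂ z →
      AlgebraicIndependent ℂ (Wd ι e z (om a j k)) := fun k hk z hz =>
    Wd_ind h.hc h.fk h.f₁ (om_gen h.rel hk h.gen) hz
  obtain ⟨E, hE⟩ := fr_of h.f₁ (wi j h.ne y hy)
  obtain ⟨g, g0, eg⟩ := cn_kap h.f₁ (wi j h.ne y hy)
  have j0 := (map_ne_zero ι).2 h.ne
  have g1 := (map_ne_zero ψ).2 (mul_ne_zero g0 j0)
  have key : ∀ P R, Lies ψ P R → ∀ k : s, (k : K) ≠ 0 → (cn K' (n + 1) + dv (f / ψ (g * ι j))) P =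
      kap (Wd ι e y (om a j k)) R - R.ord (ι k) := fun P R l k hk => by
    have := congrFun (kap_om h.hc h.rel h.ne hk hD hE) R
    rw [dv_div f0 g1, ← add_sub_assoc, ef, Pi.sub_apply, h.gf.pb_eq l, eg, dv_apply,
      h.gf.ord_eq l, Pl.ord_mul _ g0 j0]
    simp only [Pi.add_apply, dv_apply] at this ⊢
    push_cast
    linarith
  refine ⟨_, div_ne_zero f0 g1, fun P l => ?_, fun P Q l => ?_⟩
  · obtain ⟨R, l1⟩ := h.gf.below h.fk' P
    have l2 : Trv ι R := fun x => (l1 _).2 (l x)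
    have am := fun i => h.gf.toExt.hor l1 _ (h.mem i)
    have wm := Wd_all (e := e) (b := om a j j) (p := (· ∈ R.ring)) (fun i => l2 (y i))
      fun _ => am _
    have q := (sp_om (e := e) (j := j) h.rel h.ne am (fun i => l2 (y i)) (fun _ => l2 _)
      fun x _ => Gx.hr_apply l2 x ▸ cl_map (Pb.hor_cst (Gx.hr_apply l2) (.of_lin h.hc)) (by
        rintro _ ⟨i, rfl⟩
        exact sub_Cl ⟨i, (Gx.hr_apply l2 _).symm⟩) (cl_basis h.fk hy (by simp) x)).trans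
      (spn_iff h.gf l1 h.f₁ h.fk' h.card h.mem h.ind).symm
    rw [key P R l1 j h.ne, l2.ord, Int.cast_zero, sub_zero, ← q]
    exact ⟨kap_nonneg h.f₁ wm, Wd_zero h.hc h.f₁ (om_gen h.rel h.ne h.gen) hD hE ⊤
      (fun x _ => l2 x) fun _ _ _ => trivial, one_le_kap h.f₁ (wi j h.ne y hy) wm⟩
  · obtain ⟨R, l1⟩ := h.gf.below h.fk' P
    have l2 := l1.of_comp l
    have am := fun i => h.gf.toExt.hor l1 _ (h.mem i)
    obtain ⟨k, k1, k2, k3⟩ := exists_nrm Q.ring (s := s) ⟨j, j.2, h.ne⟩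
    obtain ⟨u, au⟩ := exists_ada h.fk Q
    obtain ⟨D', a'⟩ := au.ad h.fk
    have ti := wi ⟨k, k1⟩ k2 _ au.indep
    obtain ⟨E', hE'⟩ := fr_of h.f₁ ti
    have tm := fun i => (l2 _).1 (a'.mem i)
    have wm := Wd_all (e := e) (b := om a j ⟨k, k1⟩) (p := (· ∈ R.ring)) tm fun _ => am _
    have q := (sp_om (e := e) (j := j) (k := ⟨k, k1⟩) h.rel k2 am tm
      (fun i => (l2 _).1 (k3 _ i.2)) fun x hx => l2.isRd x ((l2 x).2 hx) ▸
        cl_map (l2.isRd.cst (.of_lin h.hc)) (by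
          rintro _ ⟨_, ⟨i, rfl⟩, rfl⟩
          exact sub_Cl ⟨i.succ, (l2.isRd _ (au.mem i)).symm⟩)
          ((sp_iff.1 (au.sp h.fk)).2 _)).trans
      (spn_iff h.gf l1 h.f₁ h.fk' h.card h.mem h.ind).symm
    have e0 : P.ord (ψ.comp ι Q.t) = R.ord (Wd ι e (Fin.cons Q.t u) (om a j ⟨k, k1⟩)
        (e.symm (.inl 0))) := by
      rw [Wd_l]
      exact h.gf.ord_eq l1 _
    have mz : Q.mz s = -Q.ord k := Q.mz_eq k1 k2 fun x hx x0 => by
      have := Pl.ord_nonneg_of_mem _ (k3 x hx)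
      rw [Pl.ord_mul _ x0 (inv_ne_zero k2), Pl.ord_inv] at this
      omega
    refine ⟨kap (Wd ι e (Fin.cons Q.t u) (om a j ⟨k, k1⟩)) R, ?_, e0 ▸ ord_le_succ h.f₁ ti wm _,
      fun z => Wd_zero h.hc h.f₁ (om_gen h.rel k2 h.gen) a'.fr hE' Q.ring (fun x => (l2 x).1)
        a'.pre (q.2 z), fun z => e0 ▸ ord_le_kap h.f₁ ti wm (fun w => z (q.1 w)) _⟩
    rw [Pi.sub_apply, key P R l1 ⟨k, k1⟩ k2, l.pb, Wd_chg h.hc a'.fr hE' hy, ey, kap_eq a',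
      RingHom.comp_apply, h.gf.ord_eq l1, mx, mz]
    simp only [Pi.add_apply, dv_apply, l2.ord (jac _ _), l2.ord k]
    push_cast
    ring

end Mem

theorem ba : BA := fun _ _ _ _ hK _ => (big_mx_iff hK).1

theorem cl_of_map (φ : K →ₐ[ℂ] K') {S : Set K} {x : K} (h : φ x ∈ Cl (φ '' S)) : x ∈ Cl S :=
  mem_algebraicClosure_iff.2 ((alg_map_iff φ).1 (by
    rw [IntermediateField.adjoin_map]
    exact mem_algebraicClosure_iff.1 h))

theorem ind_sub {L : IntermediateField ℂ K} (hL : FF L m) {a : σ → K} (h1 : ∀ i, a i ∈ L)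
    (h2 : ∀ f ∈ L, IsAlgebraic (IntermediateField.adjoin ℂ (range a)) f)
    (e : Fintype.card σ ≤ m) : AlgebraicIndependent ℂ a :=
  (ind_of_cl hL (y := fun i => ⟨a i, h1 i⟩) (fun x => cl_of_map L.val (by
    rw [← range_comp]
    exact mem_algebraicClosure_iff.2 (h2 x x.2))) e).map' (f := L.val) L.val.injective

/-- **GEN.trm** -/
theorem gen_trm (hR : RES) (n : ℕ) : ForH fun K K' _ _ _ _ φ => ∀ s, GM s φ → FF K (n + 2) →
    FF K' (n + 1) → ∃ f, Tr (n + 1) n φ (mx s) (fun Λ => Dsc Λ (mx s)) f := by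
  intro K K' _ _ _ _ φ s ⟨_, _, K₁, _, _, ι, a, L, ψ, j, h1, h2, h3, h4, h5, h6, _, h7, h8⟩ hK hK'
  classical
  obtain ⟨m, hm⟩ := Nat.exists_eq_succ_of_ne_zero (Fintype.card_pos_iff.2 ⟨j⟩).ne'
  have f₁ : FF K₁ (n + (m + 1) + 1) := by
    have g := om_gen (ι := (ι : K →+* K₁)) (j := j) h2 h1 h4
    rw [show om a j j = fun i : {i // i ≠ j} => a i from funext fun i => by simp [om]] at g
    have := ff_gen ι.commutes hK (ind_iff'.1 h3) g
    rwa [show n + 2 + Fintype.card {i // i ≠ j} = n + (m + 1) + 1 by simp [hm]; omega] at this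
  obtain ⟨m', hL, e⟩ := dim_ext h7.toExt f₁ hK'
  obtain rfl : m' = m + 1 := by omega
  have h : Mem n m s (ι : K →+* K₁) a L ψ j :=
    ⟨ι.commutes, hK, f₁, hK', hL, hm, h1, h2, h4, h5, ind_sub hL h5 h6 hm.le, h7⟩
  obtain ⟨f, hf⟩ := h.loc
  exact h8 ▸ ⟨f, hf.tr hR ba h.cst hK hK' fun Λ a b P Q l o => h.on hR ba a b l o⟩

end Vale.Agent.P287D.Gm
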