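import Vale.Agent.P287D.Gm.Irr
import Vale.Agent.P287D.Gm.Uhn
import Vale.Agent.P287D.Gm.Unit
import Vale.Agent.P287D.Gf.Five
import Vale.Agent.P287D.Gf.Des
import Vale.Agent.P287D.Va.Alg

/-!
# P287D, block GM: the row GEN.gm
-/

set_option linter.all false

open Set IntermediateField

noncomputable section

namespace Vale.Agent.P287D.Gm

namespace Ir

variable {K : Type} [Field K] [Algebra ℂ K] {n m : ℕ} {σ : Type} [Fintype σ]

open Classical in
/-- independent ratios -/
theorem ratios (hK : FF K n) {s : σ → K} (h : m + 1 ≤ dim (mx (Finset.univ.image s))) :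
    ∃ (k : σ) (y : Fin (m + 1) → σ), AlgebraicIndependent ℂ fun i => s (y i) / s k := by
  obtain ⟨_, hf, hk⟩ : Nz (Finset.univ.image s) := by_contra fun z => by
    rw [mx_of_not z, (fld_eq_bot_iff hK).1 (fld_prn hK (zero_mem _))] at h
    omega
  obtain ⟨k, -, rfl⟩ := Finset.mem_image.1 hf
  let A := rts (Finset.univ.image s)
  have ms : ∀ l, s l ∈ Finset.univ.image s := fun l => Finset.mem_image_of_mem s (Finset.mem_univ l)
  let w : σ → A := fun l => ⟨s l / s k, div_mem_rts (ms l) (ms k)⟩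
  have t : adjoin ℂ (range w) = ⊤ := IntermediateField.lift_injective _ (by
    rw [lift_adjoin, lift_top, ← range_comp]
    refine le_antisymm (adjoin_le_iff.2 (range_subset_iff.2 fun l => (w l).2))
      (adjoin_le_iff.2 ?_)
    rintro _ ⟨f, hf, g, hg, rfl⟩
    obtain ⟨i, -, rfl⟩ := Finset.mem_image.1 hf
    obtain ⟨j, -, rfl⟩ := Finset.mem_image.1 hg
    rw [← div_div_div_cancel_right₀ hk]
    exact div_mem (subset_adjoin _ _ ⟨i, rfl⟩) (subset_adjoin _ _ ⟨j, rfl⟩))
  have : Algebra.IsAlgebraic (Algebra.adjoin ℂ (range w)) A :=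
    isAlgebraic_adjoin_iff_top.1 ⟨fun x =>
      isAlgebraic_algebraMap (⟨x, t ▸ mem_top⟩ : adjoin ℂ (range w))⟩
  obtain ⟨T, hT, b⟩ := exists_isTranscendenceBasis_subset (R := ℂ) (range w)
  have c := b.cardinalMk_eq_trdeg
  rw [dim_mx hK] at c
  obtain ⟨e⟩ : Nonempty (Fin (m + 1) ↪ T) := by
    rw [← Cardinal.le_def, c, Cardinal.mk_fin]
    exact_mod_cast h
  choose y hy using fun i => hT (e i).2
  refine ⟨k, y, ?_⟩
  have := (b.1.comp e e.injective).map' (f := A.val) Subtype.val_injective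
  rwa [show A.val ∘ Subtype.val ∘ e = fun i => s (y i) / s k from
    funext fun i => congrArg Subtype.val (hy i).symm] at this

end Ir

open Ir in
/-- **GEN.gm** -/
theorem gen_gm (hF : FFS) (hM : MOD) (hR : RES) (hI : INT) (hP : PB) :
    ForS fun n K _ _ => ∀ s : Finset K, 0 < dim (mx s) →
    ∃ (K' : Type) (_ : Field K') (_ : Algebra ℂ K') (φ : K →+* K') (c : ℕ), GM s φ ∧ FF K' n ∧
      0 < c ∧ (2 ≤ dim (mx s) → c = 1) ∧ ∀ β : Fin n → BD K, (∀ j, IsB n (β j)) →
        (∀ j : Fin n, j.1 ≠ 0 → β j ∈ Car K) →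
        I (n + 1) K (Fin.snoc β (mx s)) = c * I n K' fun j => pb φ (β j) := by
  classical
  intro n K _ _ hK s hs
  obtain ⟨N, ⟨e⟩⟩ : ∃ N, Nonempty (Fin N ≃ s) := ⟨_, ⟨s.equivFin.symm⟩⟩
  let u : Fin N → K := fun i => e i
  have su : Finset.univ.image u = s := Finset.ext fun x => by
    simp only [Finset.mem_image, Finset.mem_univ, true_and]
    exact ⟨fun ⟨i, h⟩ => h ▸ (e i).2, fun h => ⟨e.symm ⟨x, h⟩, by simp [u]⟩⟩
  obtain ⟨k, y, hy⟩ := ratios (m := 0) hK (s := u) (su.symm ▸ hs)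
  have t := hy.transcendental 0
  have hk : u k ≠ 0 := fun z => t (by rw [z, div_zero]; exact isAlgebraic_zero)
  obtain ⟨K₁, _, _, ι, a, h, cl⟩ := irr _ K hK _ u ⟨k, hk⟩
  have ia := ind h t
  obtain _ | M := N
  · exact k.elim0
  have f1 : FF K₁ (M + 1 + n) := by
    have := Uh.uh_ff h hK
    rwa [show n + 1 + M = M + 1 + n by omega] at this
  obtain ⟨L, l1, l2, l3⟩ := exists_cld (adjoin ℂ (range a))
  have aL : ∀ i, a i ∈ L := fun i => l1 (subset_adjoin _ _ ⟨i, rfl⟩)
  let b : Fin (M + 1) → L := fun i => ⟨a i, aL i⟩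
  have ib : AlgebraicIndependent ℂ b := .of_comp L.val ia
  have lb : lift (adjoin ℂ (range b)) = adjoin ℂ (range a) := by
    rw [lift_adjoin, ← range_comp]
    rfl
  obtain ⟨r, -, fL⟩ := ff_sub f1 L
  have al : Algebra.IsAlgebraic (adjoin ℂ (range b)) L := ⟨fun x =>
    (alg_map_iff L.val).1 (show IsAlgebraic (lift (adjoin ℂ (range b))) (x : K₁) from
      lb.symm ▸ l3 x x.2)⟩
  have bb : IsTranscendenceBasis ℂ b := ib.isTranscendenceBasis_iff_isAlgebraic.2
    (isAlgebraic_adjoin_iff_top.1 al)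
  obtain rfl : r = M + 1 := by
    have := bb.cardinalMk_eq_trdeg
    rw [fL.trdeg, Cardinal.mk_fin] at this
    exact_mod_cast this.symm
  have := fL.ess
  have := Algebra.EssFiniteType.of_comp ℂ (adjoin ℂ (range b)) L
  have fin : Module.Finite (adjoin ℂ (range b)) L := Algebra.finite_of_essFiniteType_of_isAlgebraic
  obtain ⟨K', _, _, ψ, g⟩ := gen_ex _ K₁ f1 L l2
  have f' : FF K' n := g.toExt.ff fL (add_comm n _ ▸ f1)
  have ra : range (a ∘ e.symm) = range a := e.symm.surjective.range_comp a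
  refine ⟨K', inferInstance, inferInstance, ψ.comp ι.toRingHom,
    Module.finrank (adjoin ℂ (range b)) L, ⟨fun c => ?_, ?_, K₁, inferInstance, inferInstance, ι,
      a ∘ e.symm, L, ψ, e k, hk, ?_, ?_, ra.symm ▸ h.gen, fun i => aL _, ra.symm ▸ l3, l2, g, rfl⟩,
    f', Module.finrank_pos, fun d => ?_, fun β _ hβ => ?_⟩
  · exact g.cst _ (by rw [show ι.toRingHom _ = _ from ι.commutes c]; exact L.algebraMap_mem c)
  · refine top_le_iff.1 (g.gen.ge.trans (Subfield.closure_le.2 (union_subset ?_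
      (subset_union_right.trans Subfield.subset_closure))))
    rintro _ ⟨x, rfl⟩
    refine (Subfield.mem_comap (f := ψ)).1
      (Subfield.closure_le.2 ?_ (h.gen.ge (Subfield.mem_top x)))
    rintro _ (⟨f, rfl⟩ | ⟨i, rfl⟩)
    exacts [Subfield.subset_closure (Or.inl ⟨f, rfl⟩),
      Subfield.subset_closure (Or.inr (g.cst _ (aL i)))]
  · rw [← h.rel]
    exact (Fintype.sum_equiv e _ _ fun i => by simp [u]).symm
  · exact (h.ind k hk).comp (fun i : {i // i ≠ e k} =>
      (⟨e.symm i, fun z => i.2 (e.symm_apply_eq.1 z)⟩ : {i // i ≠ k}))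
      fun i j z => Subtype.ext (e.symm.injective (congrArg Subtype.val z))
  · obtain ⟨k, y, hy⟩ := ratios (m := 1) hK (s := u) (su.symm ▸ d)
    have := cl (y 0) (y 1) k (by
      rwa [show ![u (y 0) / u k, u (y 1) / u k] = fun i => u (y i) / u k from
        funext fun i => by fin_cases i <;> rfl])
    refine finrank_eq_one_iff_eq_top.2 (top_le_iff.1 fun x _ => (mem_lift x).1 ?_)
    rw [lb]
    exact this x (l3 x x.2)
  · have p := g5 hF hM hR hI hP g1b g2 g2b _ _ _ _ L ψ ⟨g, f1, fL⟩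
      (fun j => pb (ι : K →+* K₁) (β j)) (fun i => Un.pr (b i))
      (fun j z => (f1.ok ι).car (hβ j z)) fun _ => Un.pr_car _
    rw [show I _ L (fun i => Un.pr (b i)) = _ from unit _ L fL b ib] at p
    rw [← su, ← uhn hM hR hI hP unit n _ K K₁ ι u a hK h β hβ,
      funext fun j => (g.toExt.ok f').pb_comp ι.toRingHom (β j)]
    refine Eq.trans (congrArg _ (congrArg _ (funext fun i => ?_))) p
    exact (Un.pb_pair (f1.ok_sub L) (b i)).symm

end Vale.Agent.P287D.Gm
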