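import Vale.Agent.P287D.Gm.Ffs

/-!
# P287D, block GM: relatively algebraically closed subfields, the theorem of Bertini for fields
-/

set_option linter.all false

open Set IntermediateField

noncomputable section

namespace Vale.Agent.P287D.Gm.Ir

variable {k L Ω ι ι' : Type} [Field k] [Field L] [Field Ω] [Algebra k Ω]

theorem int_frac {A : Type} [CommRing A] [IsDomain A] [IsIntegrallyClosed A] {e : A →+* Ω}
    (he : Function.Injective e) {r s : A} (hi : e.IsIntegralElem (e r / e s)) :
    ∃ p, e p = e r / e s := by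
  let j : FractionRing A →+* Ω := IsFractionRing.lift he
  have c : j.comp (algebraMap _ _) = e := RingHom.ext (IsFractionRing.lift_algebraMap he)
  have d : j (algebraMap _ _ r / algebraMap _ _ s) = e r / e s := by rw [map_div₀, ← c]; rfl
  have i2 : IsIntegral A (algebraMap _ (FractionRing A) r / algebraMap _ _ s) :=
    RingHom.IsIntegralElem.of_map (g := j) j.injective (by rwa [c, d])
  obtain ⟨p, hp⟩ := IsIntegrallyClosed.isIntegral_iff.1 i2
  exact ⟨p, by rw [← d, ← hp, ← c]; rfl⟩

theorem poly_of_int [Algebra L Ω] {u : ι → Ω} (hu : AlgebraicIndependent L u) {g : Ω}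
    (hg : g ∈ adjoin L (range u))
    (hi : (MvPolynomial.aeval u : MvPolynomial ι L →ₐ[L] Ω).toRingHom.IsIntegralElem g) :
    ∃ p : MvPolynomial ι L, MvPolynomial.aeval u p = g := by
  obtain ⟨r, s, rfl⟩ := (mem_adjoin_range_iff L u g).1 hg
  exact int_frac (e := (MvPolynomial.aeval u : MvPolynomial ι L →ₐ[L] Ω).toRingHom) hu hi

/-- a relatively algebraically closed subfield stays so after a purely transcendental extension -/
theorem cld_tr [Algebra k L] [Algebra L Ω] [IsScalarTower k L Ω]
    (hk : ∀ c : L, IsIntegral k c → c ∈ range (algebraMap k L)) {u : ι → Ω}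
    (hu : AlgebraicIndependent L u) {f : Ω} (hf : f ∈ adjoin L (range u))
    (ha : IsAlgebraic (adjoin k (range u)) f) : f ∈ adjoin k (range u) := by
  have hu' : AlgebraicIndependent k u := hu.restrictScalars (algebraMap k L).injective
  obtain ⟨r, r0, hi⟩ := (isAlgebraic_adjoin_iff.1 ha).exists_integral_multiple
  have rk : (r : Ω) ∈ adjoin k (range u) := algebra_adjoin_le_adjoin _ _ r.2
  have rL : (r : Ω) ∈ adjoin L (range u) := by
    have : adjoin k (range u) ≤ (adjoin L (range u)).restrictScalars k :=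
      adjoin_le_iff.2 (subset_adjoin L _)
    exact this rk
  have i1 : (MvPolynomial.aeval u : MvPolynomial ι k →ₐ[k] Ω).toRingHom.IsIntegralElem
      ((r : Ω) * f) := by
    obtain ⟨p, h1, h2⟩ := hi
    refine ⟨p.map hu'.repr.toRingHom, h1.map _, ?_⟩
    have : (MvPolynomial.aeval u : MvPolynomial ι k →ₐ[k] Ω).toRingHom.comp
        hu'.repr.toRingHom = algebraMap _ Ω := RingHom.ext hu'.aeval_repr
    rwa [Polynomial.eval₂_map, this]
  have e : (MvPolynomial.aeval u : MvPolynomial ι L →ₐ[L] Ω).toRingHom.comp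
      (MvPolynomial.map (algebraMap k L)) =
      (MvPolynomial.aeval u : MvPolynomial ι k →ₐ[k] Ω).toRingHom :=
    RingHom.ext fun p => MvPolynomial.aeval_map_algebraMap L u p
  obtain ⟨p, hp⟩ := poly_of_int hu (mul_mem rL hf) (.of_comp (e.symm ▸ i1))
  have i3 : (MvPolynomial.map (algebraMap k L)).IsIntegralElem p :=
    RingHom.IsIntegralElem.of_map (g := (MvPolynomial.aeval u : _ →ₐ[L] Ω).toRingHom) hu (by
      rw [e]
      exact (show MvPolynomial.aeval u p = _ from hp).symm ▸ i1)
  obtain ⟨p₀, rfl⟩ : p ∈ range (MvPolynomial.map (algebraMap k L)) :=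
    MvPolynomial.mem_range_map_iff_coeffs_subset.2 fun c hc => by
      obtain ⟨n, -, rfl⟩ := MvPolynomial.mem_coeffs_iff.1 hc
      exact hk _ (MvPolynomial.isIntegral_iff_isIntegral_coeff.1 i3 n)
  have m : (r : Ω) * f ∈ adjoin k (range u) := by
    rw [← hp, MvPolynomial.aeval_map_algebraMap]
    exact algebra_adjoin_le_adjoin _ _
      ((Algebra.adjoin_range_eq_range_aeval k u).ge ⟨p₀, rfl⟩)
  have r1 : (r : Ω) ≠ 0 := fun e => r0 (Subtype.ext e)
  simpa [r1] using mul_mem (inv_mem rk) m

theorem ind_of_alg [Finite ι] [Finite ι'] {y : ι → Ω} {y' : ι' → Ω} (hc : Nat.card ι' ≤ Nat.card ι)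
    (hy : AlgebraicIndependent k y) (h : ∀ i, IsAlgebraic (adjoin k (range y')) (y i)) :
    AlgebraicIndependent k y' := by
  let M := AlgebraicIndependent.matroid k Ω
  have a : M.Indep (range y) := hy.to_subtype_range
  have b : range y ⊆ M.closure (range y') := by
    rintro _ ⟨i, rfl⟩
    rw [AlgebraicIndependent.matroid_closure_eq]
    exact isAlgebraic_adjoin_iff.1 (h i)
  have c : (Nat.card ι : ℕ∞) ≤ M.eRk (range y') := by
    rw [← M.eRk_closure_eq, ← Nat.card_range_of_injective hy.injective, Nat.card_coe_set_eq,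
      (finite_range y).cast_ncard_eq, ← a.eRk_eq_encard]
    exact M.eRk_mono b
  have d := M.eRk_le_encard (range y')
  have e : Nat.card ι' ≤ Nat.card (range y') := by
    rw [Nat.card_coe_set_eq, ← ENat.coe_le_coe, (finite_range y').cast_ncard_eq]
    exact (ENat.coe_le_coe.2 hc).trans (c.trans d)
  have f := rangeFactorization_surjective.bijective_of_nat_card_le e
  refine .of_subtype_range (fun _ _ k => f.1 (Subtype.ext k)) ?_
  refine (M.indep_iff_eRk_eq_encard_of_finite (finite_range y')).2 (le_antisymm d (c.trans' ?_))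
  rw [← (finite_range y').cast_ncard_eq, ← Nat.card_coe_set_eq, ENat.coe_le_coe]
  exact (Nat.card_le_card_of_surjective _ f.2).trans hc

theorem ind_of_mem [Finite ι] [Finite ι'] {y : ι → Ω} {y' : ι' → Ω} (hc : Nat.card ι' ≤ Nat.card ι)
    (hy : AlgebraicIndependent k y) (h : ∀ i, y i ∈ adjoin k (range y')) :
    AlgebraicIndependent k y' :=
  ind_of_alg hc hy fun i => isAlgebraic_algebraMap (⟨_, h i⟩ : adjoin k (range y'))

/-- translations of a purely transcendental extension -/
theorem exists_transl [Finite ι] {b : ι → Ω} (hb : AlgebraicIndependent k b)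
    (ht : adjoin k (range b) = ⊤) (c : ι → k) :
    ∃ τ : Ω ≃ₐ[k] Ω, ∀ l, τ (b l) = b l + algebraMap k Ω (c l) := by
  let b' : ι → Ω := fun l => b l + algebraMap k Ω (c l)
  have m : ∀ l, b l ∈ adjoin k (range b') := fun l => by
    simpa [b'] using sub_mem (subset_adjoin k _ (mem_range_self (f := b') l))
      (IntermediateField.algebraMap_mem _ (c l))
  have ht' : adjoin k (range b') = ⊤ :=
    top_le_iff.1 (ht.ge.trans (adjoin_le_iff.2 (range_subset_iff.2 m)))
  have hb' := ind_of_mem le_rfl hb m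
  let e := hb.aevalEquivField.trans ((equivOfEq ht).trans topEquiv)
  let e' := hb'.aevalEquivField.trans ((equivOfEq ht').trans topEquiv)
  refine ⟨e.symm.trans e', fun l => ?_⟩
  have a : e (algebraMap _ _ (MvPolynomial.X l : MvPolynomial ι k)) = b l :=
    (hb.aevalEquivField_algebraMap_apply_coe _).trans (MvPolynomial.aeval_X _ _)
  rw [AlgEquiv.trans_apply, ← a, AlgEquiv.symm_apply_apply, a]
  exact (hb'.aevalEquivField_algebraMap_apply_coe _).trans (MvPolynomial.aeval_X _ _)

/-- the theorem of Bertini over a relatively algebraically closed field -/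
theorem bertini [CharZero k] [Algebra.EssFiniteType k Ω]
    (hk : ∀ c : Ω, IsAlgebraic k c → c ∈ range (algebraMap k Ω)) {z x : Ω}
    (h : AlgebraicIndependent k ![z, x]) (θ : ℕ → Ω)
    (hθ : ∀ m : ℕ, IsAlgebraic k⟮z - m * x⟯ (θ m)) : ∃ m : ℕ, θ m ∈ k⟮z - m * x⟯ := by
  have : CharZero Ω := charZero_of_injective_algebraMap (algebraMap k Ω).injective
  let E := k⟮z, x⟯
  have hz : z ∈ E := subset_adjoin _ _ (by simp)
  have hx : x ∈ E := subset_adjoin _ _ (by simp)
  have le : ∀ m : ℕ, k⟮z - m * x⟯ ≤ E := fun m =>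
    adjoin_simple_le_iff.2 (sub_mem hz (mul_mem (_root_.natCast_mem _ m) hx))
  have al : ∀ m, IsAlgebraic E (θ m) := fun m =>
    (hθ m).tower_top_of_subalgebra_le (A := k⟮z - m * x⟯.toSubalgebra) (B := E.toSubalgebra) (le m)
  have : Algebra.EssFiniteType E Ω := .of_comp k _ _
  have := fin_algCl E Ω
  have := Field.finite_intermediateField_of_exists_primitive_element E (algebraicClosure E Ω)
    (Field.exists_primitive_element _ _)
  obtain ⟨m, m', ne, e⟩ := Finite.exists_ne_map_eq_of_infinite fun m : ℕ =>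
    E⟮(⟨θ m, mem_algebraicClosure_iff.2 (al m)⟩ : algebraicClosure E Ω)⟯
  have e' : θ m ∈ E⟮θ m'⟯ := by
    have := congrArg (IntermediateField.map (algebraicClosure E Ω).val) e
    simp only [adjoin_map, image_singleton] at this
    exact this.le (mem_adjoin_simple_self _ _)
  set u := z - m * x with hu
  set v := z - m' * x with hv
  have d : ((m' : Ω) - m) ≠ 0 := sub_ne_zero.2 fun e => ne (Nat.cast_injective e).symm
  have gen : ∀ F : IntermediateField k Ω, u ∈ F → v ∈ F → z ∈ F ∧ x ∈ F := fun F a b => by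
    have : x ∈ F := by
      rw [show x = (u - v) / (m' - m) by rw [hu, hv]; field_simp; ring]
      exact div_mem (sub_mem a b) (sub_mem (_root_.natCast_mem _ _) (_root_.natCast_mem _ _))
    exact ⟨by simpa [hu] using add_mem a (mul_mem (_root_.natCast_mem F m) this), this⟩
  have ind : AlgebraicIndependent k ![u, v] := ind_of_mem le_rfl h fun i => by
    have := gen (adjoin k (range ![u, v])) (subset_adjoin _ _ ⟨0, rfl⟩) (subset_adjoin _ _ ⟨1, rfl⟩)
    fin_cases i
    exacts [this.1, this.2]
  have tr : Transcendental k⟮v⟯ u := by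
    have := ind.transcendental_adjoin (s := {1}) (i := 0) (by simp)
    rw [image_singleton] at this
    exact transcendental_adjoin_iff.2 this
  have alg : Algebra.IsAlgebraic k⟮v⟯ k⟮v⟯⟮θ m'⟯ :=
    isAlgebraic_adjoin_simple (hθ m').isIntegral
  have tr₀ : AlgebraicIndependent k⟮v⟯⟮θ m'⟯ fun _ : Unit => u :=
    AlgebraicIndependent.extendScalars _ (algebraicIndependent_unique_type_iff.2 tr)
  let L : IntermediateField k Ω := k⟮v⟯⟮θ m'⟯.restrictScalars k
  have tr' : AlgebraicIndependent L fun _ : Unit => u := tr₀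
  refine ⟨m, ?_⟩
  have r : (range fun _ : Unit => u) = {u} := range_const
  rw [← r]
  refine cld_tr (fun c hc => ?_) tr' ?_ (r.symm ▸ hθ m)
  · obtain ⟨a, ha⟩ := hk c (hc.map (IsScalarTower.toAlgHom k _ Ω)).isAlgebraic
    exact ⟨a, Subtype.ext ha⟩
  · rw [r]
    let F : IntermediateField k Ω := L⟮u⟯.restrictScalars k
    have a : ∀ w ∈ k⟮v⟯⟮θ m'⟯, w ∈ F := fun w hw =>
      IntermediateField.algebraMap_mem L⟮u⟯ ⟨w, hw⟩
    have b := gen F (mem_adjoin_simple_self L u)
      (a _ (IntermediateField.algebraMap_mem _ (⟨v, mem_adjoin_simple_self _ v⟩ : k⟮v⟯)))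
    have c : E ≤ F := adjoin_le_iff.2 (insert_subset b.1 (singleton_subset_iff.2 b.2))
    have : E⟮θ m'⟯ ≤ extendScalars c := adjoin_simple_le_iff.2 (a _ (mem_adjoin_simple_self _ _))
    exact this e'

end Vale.Agent.P287D.Gm.Ir
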