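import Vale.Agent.P287D.Gm.Cl
import Vale.Agent.P287D.Va.Fld
import Vale.Agent.P287D.Gf.Rs

/-!
# P287D, block GM: prime divisors of a pulled back model; `Tr` from local data
-/

open Set
open Vale.Agent.P285N.Brep (jac Fr)
open Vale.Agent.P297Z Vale.Agent.P287D.Cb

noncomputable section

namespace Vale.Agent.P287D.Gm

/-- **BA**: a big system generates the field up to a finite extension -/
def BA : Prop := ForK fun _ K _ _ => ∀ s : Finset K, Big (mx s) → ∀ f : K, IsAlgebraic (rts s) f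

variable {K K' : Type} [Field K] [Algebra ℂ K] [Field K'] [Algebra ℂ K'] {n r : ℕ}

theorem big_cl (hB : BA) (hK : FF K n) {s : Finset K} (h1 : 1 ∈ s) :
    Big (mx s) ↔ ∀ x, x ∈ Cl (s : Set K) := by
  refine ⟨fun h x => cl_le (S := {a : K | ∃ f ∈ s, ∃ g ∈ s, a = f / g}) ?_
    (mem_algebraicClosure_iff.2 (hB n K hK s h x)), fun h => big_mx fun x =>
      mem_algebraicClosure_iff.1 (cl_le (T := {a : K | ∃ f ∈ s, ∃ g ∈ s, a = f / g})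
        (fun f hf => sub_Cl ⟨f, hf, 1, h1, (div_one f).symm⟩) (h x))⟩
  rintro _ ⟨f, hf, g, hg, rfl⟩
  exact div_mem (sub_Cl hf) (sub_Cl hg)

theorem on_iff (hR : RES) (hB : BA) (hK : FF K (n + 1)) {Λ : BD K} {s : Finset K}
    (h : AmpOn Λ (mx s)) (h1 : 1 ∈ s) {P : Pl K} (h2 : ∀ f ∈ s, f ∈ P.ring) :
    On n Λ P ↔ ∀ x, x ∈ Cl (P.rd '' s) := by
  classical
  have e : P.mz s = 0 := by
    rw [P.mz_eq h1 one_ne_zero fun g hg _ => by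
      simpa using Pl.ord_nonneg_of_mem _ (h2 g hg)]
    simp
  have e' : (P.rs s : Set P.κ) = P.rd '' s := by simp [Pl.rs, e]
  have o : (1 : P.κ) ∈ P.rs s := by
    rw [← Finset.mem_coe, e']
    exact ⟨1, h1, by simpa using rd_const (P := P) 1⟩
  rw [hR.on n K hK Λ P h.smp_left, (AmpOn.of_dsc (hR.des n K hK _ _ P h.1)
    (hR.des n K hK _ _ P h.dsc')).big_iff, hR.sys n K hK, big_cl hB (ff_κ P hK) o, e']

omit [Algebra ℂ K] in
theorem exists_nrm (V : ValuationSubring K) {s : Finset K} (h : Nz s) :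
    ∃ g ∈ s, g ≠ 0 ∧ ∀ f ∈ s, f * g⁻¹ ∈ V := by
  obtain ⟨f0, h1, h2⟩ := h
  obtain ⟨g, k1, k2⟩ := s.exists_max_image V.valuation ⟨f0, h1⟩
  have g0 : V.valuation g ≠ 0 := fun e => h2 (by simpa [e] using k2 f0 h1)
  refine ⟨g, k1, by simpa using g0, fun f hf => ?_⟩
  rw [← V.valuation_le_one_iff, map_mul, map_inv₀, mul_inv_le_iff₀ (zero_lt_iff.2 g0), one_mul]
  exact k2 f hf

theorem exists_sys {Λ : BD K} (h : Smp Λ) (V : ValuationSubring K) {u : Finset K} (h1 : 1 ∈ u)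
    (h2 : ∀ f ∈ u, f ∈ V) (h3 : Dsc Λ (mx u)) :
    ∃ s : Finset K, AmpOn Λ (mx s) ∧ 1 ∈ s ∧ u ⊆ s ∧ ∀ f ∈ s, f ∈ V := by
  classical
  obtain ⟨s, ε, a, b, c, d⟩ := h.exists_mx
  obtain ⟨g, g1, g2, g3⟩ := exists_nrm V a
  have k : AmpOn Λ (mx s) := ⟨.of_smp h (smp_mx s) b c, ε, b, d⟩
  have o : (1 : K) ∈ s.image (· * g⁻¹) := Finset.mem_image.2 ⟨g, g1, mul_inv_cancel₀ g2⟩
  have k' : AmpOn Λ (mx (s.image (· * g⁻¹))) := k.congr (by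
    rw [mx_image_mul a (inv_ne_zero g2), sub_sub_cancel_left]
    exact neg_mem (dv_mem_Prn _))
  open Pointwise in
  refine ⟨s.image (· * g⁻¹) * u, ?_, ?_, fun f hf => ?_, fun f hf => ?_⟩
  · rw [mx_mul ⟨1, o, one_ne_zero⟩ ⟨1, h1, one_ne_zero⟩]
    exact k'.add_smp (smp_mx u) h3
  · exact Finset.mem_mul.2 ⟨1, o, 1, h1, mul_one 1⟩
  · exact Finset.mem_mul.2 ⟨1, o, f, hf, one_mul f⟩
  · obtain ⟨x, hx, y, hy, rfl⟩ := Finset.mem_mul.1 hf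
    obtain ⟨z, hz, rfl⟩ := Finset.mem_image.1 hx
    exact mul_mem (g3 z hz) (h2 y hy)

theorem exists_sys₀ {Λ : BD K} (h : Smp Λ) (V : ValuationSubring K) :
    ∃ s : Finset K, AmpOn Λ (mx s) ∧ 1 ∈ s ∧ ∀ f ∈ s, f ∈ V :=
  let ⟨s, a, b, _, c⟩ := exists_sys h V (u := {1}) (Finset.mem_singleton_self 1)
    (fun _ hf => Finset.mem_singleton.1 hf ▸ one_mem V)
    (by rw [mx_single, dv_one, neg_zero]; exact .zero h)
  ⟨s, a, b, c⟩

variable {φ : K →+* K'} {P : Pl K'} {Q : Pl K} {Λ : BD K}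

theorem on_pb (hR : RES) (hB : BA) (hK' : FF K' (r + 1)) (ok : Ok φ) {s : Finset K}
    (h : AmpOn Λ (mx s)) (h1 : 1 ∈ s) (h2 : ∀ f ∈ s, φ f ∈ P.ring) :
    On r (pb φ Λ) P ↔ ∀ x, x ∈ Cl (P.rd '' (φ '' s)) := by
  have := on_iff hR hB hK' (ok.pb_mx s ▸ ok.ampOn h) (Pb.mem_im.2 ⟨1, h1, map_one φ⟩) (P := P)
    fun f hf => by
      obtain ⟨g, hg, rfl⟩ := Pb.mem_im.1 hf
      exact h2 g hg
  rwa [im, Finset.coe_map] at this

/-- the residues of the image of `φ` span the residue field -/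
def Spn (φ : K →+* K') (P : Pl K') : Prop := ∀ x, x ∈ Cl (P.rd '' (range φ ∩ P.ring))

theorem spn_of_on (hR : RES) (hB : BA) (hK' : FF K' (r + 1)) (ok : Ok φ) (h : Smp Λ)
    (o : On r (pb φ Λ) P) : Spn φ P := fun x => by
  obtain ⟨s, a, b, c⟩ := exists_sys₀ h (P.ring.comap φ)
  refine cl_le ?_ ((on_pb hR hB hK' ok a b c).1 o x)
  rintro _ ⟨_, ⟨f, hf, rfl⟩, rfl⟩
  exact sub_Cl ⟨_, ⟨⟨f, rfl⟩, c f hf⟩, rfl⟩

theorem Spn.lies (h : Spn φ P) (hc : Cst φ) (l : Lies φ P Q) {S : Set Q.κ} (hS : ∀ x, x ∈ Cl S)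
    {T : Set P.κ} (hT : ∀ x ∈ S, l.κ x ∈ Cl T) (x : P.κ) : x ∈ Cl T := by
  refine cl_le ?_ (h x)
  rintro _ ⟨_, ⟨⟨f, rfl⟩, hf⟩, rfl⟩
  exact l.isRd f ((l f).2 hf) ▸ cl_map (l.isRd.cst hc) hT (hS _)

theorem Spn.trv (h : Spn φ P) (hc : Cst φ) (l : Trv φ P) {S : Set K} (hS : ∀ x, x ∈ Cl S)
    {T : Set P.κ} (hT : ∀ x ∈ S, P.rd (φ x) ∈ Cl T) (x : P.κ) : x ∈ Cl T := by
  refine cl_le ?_ (h x)
  rintro _ ⟨_, ⟨⟨f, rfl⟩, -⟩, rfl⟩
  exact Gx.hr_apply l f ▸ cl_map (Pb.hor_cst (Gx.hr_apply l) hc)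
    (fun x hx => (Gx.hr_apply l x).symm ▸ hT x hx) (hS f)

/-- the local comparison of the canonical divisors -/
structure Loc (n r : ℕ) (φ : K →+* K') (ω : BD K) (f : K') : Prop where
  ne : f ≠ 0
  trv : ∀ P, Trv φ P → 0 ≤ (cn K' (r + 1) + dv f) P ∧
    (Spn φ P → (cn K' (r + 1) + dv f) P = 0) ∧ (¬ Spn φ P → 1 ≤ (cn K' (r + 1) + dv f) P)
  lie : ∀ P Q, Lies φ P Q → ∃ X : ℝ,
    (cn K' (r + 1) + dv f - pb φ ω) P = X + P.ord (φ Q.t) * cn K (n + 1) Q ∧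
      P.ord (φ Q.t) ≤ X + 1 ∧ (Spn φ P → X = 0) ∧ (¬ Spn φ P → P.ord (φ Q.t) ≤ X)

theorem Loc.tr {ω : BD K} {f : K'} (h : Loc n r φ ω f) (hR : RES) (hB : BA) (hc : Cst φ)
    (hK : FF K (n + 1)) (hK' : FF K' (r + 1)) {ok : BD K → Prop}
    (ho : ∀ Λ, Smp Λ → ok Λ → ∀ P Q, Lies φ P Q → On r (pb φ Λ) P → On n Λ Q) :
    Tr n r φ ω ok f := by
  have o := hc.ok hK hK'
  refine ⟨h.ne, fun P Q l => ?_, fun P l => (h.trv P l).1, fun Λ a b c P d => ?_,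
    fun Λ a b c P d => ⟨fun l => (h.trv P l).2.2 fun s => d ?_, fun Q l q => ?_⟩⟩
  · obtain ⟨X, e, k, -⟩ := h.lie P Q l
    rw [e]
    linarith
  · have s := spn_of_on hR hB hK' o a d
    rcases o P with l | ⟨Q, l⟩
    · exact .inl ⟨l, (h.trv P l).2.1 s⟩
    · obtain ⟨X, e, k, k', -⟩ := h.lie P Q l
      rw [k' s, zero_add] at k e
      have e1 : P.ord (φ Q.t) = 1 := le_antisymm (by exact_mod_cast k) l.e_pos
      exact .inr ⟨Q, l, ho Λ a c P Q l d, e1, by rw [e, e1, Int.cast_one, one_mul]⟩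
  · obtain ⟨u, u1, u2, -⟩ := exists_sys₀ a ⊤
    exact (on_pb hR hB hK' o u1 u2 fun f _ => l f).2 (s.trv hc l
      ((big_cl hB hK u2).1 (u1.big_iff.1 b)) fun x hx => sub_Cl ⟨_, ⟨x, hx, rfl⟩, rfl⟩)
  · obtain ⟨X, e, -, -, k⟩ := h.lie P Q l
    have := k fun s => d (by
      obtain ⟨u, u1, u2, u3⟩ := exists_sys₀ a Q.ring
      refine (on_pb hR hB hK' o u1 u2 fun f hf => (l f).1 (u3 f hf)).2
        (s.lies hc l ((on_iff hR hB hK u1 u2 u3).1 q) ?_)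
      rintro _ ⟨x, hx, rfl⟩
      exact l.isRd x (u3 x hx) ▸ sub_Cl ⟨_, ⟨x, hx, rfl⟩, rfl⟩)
    rw [e]
    linarith

theorem ord_le_succ {P : Pl K} (hK : FF K n) {w : Fin n → K} (hi : AlgebraicIndependent ℂ w)
    (hw : ∀ i, w i ∈ P.ring) (j : Fin n) : P.ord (w j) ≤ kap w P + 1 :=
  (Finset.single_le_sum (f := fun i => (P.ord (w i) : ℝ)) (fun i _ => by
    exact_mod_cast Pl.ord_nonneg_of_mem _ (hw i)) (Finset.mem_univ j)).trans (sum_le_kap hK hi P)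

omit [Algebra ℂ K] in
theorem adj_top {S : Set K'} (h : Subfield.closure (range φ ∪ range (algebraMap ℂ K')) = ⊤)
    (V : ValuationSubring K) (hS : ∀ f ∈ V, φ f ∈ IntermediateField.adjoin ℂ S) (x : K') :
    x ∈ IntermediateField.adjoin ℂ S := by
  refine (Subfield.closure_le (t := (IntermediateField.adjoin ℂ S).toSubfield)).2 ?_
    (h ▸ Subfield.mem_top x)
  rintro _ (⟨f, rfl⟩ | ⟨c, rfl⟩)
  · rcases V.mem_or_inv_mem f with k | k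
    · exact hS f k
    · have := inv_mem (hS _ k)
      rwa [map_inv₀, inv_inv] at this
  · exact IntermediateField.algebraMap_mem _ c

end Vale.Agent.P287D.Gm
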