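import Vale.Agent.P287D.Cb.Ad
import Vale.Agent.P287D.Pb.Abh
import Vale.Agent.P287D.I.Mu

/-!
# P287D: the place of a smooth point, Taylor expansions by the Euler derivation
-/

open Set
open Vale.Agent.P297 (Place)
open Vale.Agent.P297Z
open Vale.Agent.P285N.Brep (jac Fr)
open Vale.Agent.P287D.Cb
open Vale.Agent.P287D.I (Mon)

noncomputable section

namespace Vale.Agent.P287D.Gm

variable {n : ℕ} {K : Type} [Field K] [Algebra ℂ K]

open IsDedekindDomain IntermediateField IntermediateField.algebraAdjoinAdjoin in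
theorem exists_place {k E : Type} [Field k] [CharZero k] [Field E] [Algebra k E] {z : E}
    (hz : Transcendental k z) [FiniteDimensional k⟮z⟯ E] :
    ∃ Q : Place E, 0 < Q.ord z ∧ ∀ a, algebraMap k E a ∈ Q.ring := by
  let e := Polynomial.algEquivOfTranscendental k z hz
  have := IsPrincipalIdealRing.of_surjective e.toRingEquiv.toRingHom e.surjective
  have : CharZero k⟮z⟯ := charZero_of_injective_algebraMap (algebraMap k k⟮z⟯).injective
  have := integralClosure.isDedekindDomain (Algebra.adjoin k {z}) k⟮z⟯ E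
  have := integralClosure.isFractionRing_of_finite_extension (A := Algebra.adjoin k {z}) k⟮z⟯ E
  have z0 : z ≠ 0 := fun h => hz (h ▸ isAlgebraic_zero)
  have hp : Prime (e Polynomial.X) := (MulEquiv.prime_iff e.toMulEquiv).2 Polynomial.prime_X
  have he : ((e Polynomial.X : Algebra.adjoin k {z}) : E) = z := by simp [e]
  have := (Ideal.span_singleton_prime hp.ne_zero).2 hp
  obtain ⟨J, j1, j2⟩ := Ideal.exists_ideal_over_prime_of_isIntegral_of_isDomain
    (S := integralClosure (Algebra.adjoin k {z}) E) (Ideal.span {e Polynomial.X}) fun a ha => by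
      have := congrArg (algebraMap (integralClosure (Algebra.adjoin k {z}) E) E)
        (RingHom.mem_ker.1 ha)
      rw [show a = 0 from Subtype.ext this]
      exact zero_mem _
  have m : algebraMap _ _ (e Polynomial.X) ∈ J :=
    Ideal.mem_comap.1 (j2 ▸ Ideal.mem_span_singleton_self _)
  let v : HeightOneSpectrum (integralClosure (Algebra.adjoin k {z}) E) := ⟨J, j1, fun h => by
    rw [h, Ideal.mem_bot] at m
    exact z0 (he.symm.trans (congrArg Subtype.val m))⟩
  refine ⟨⟨(v.valuation E).valuationSubring, inferInstance⟩, Pl.ord_pos_of_inv_notMem _ ?_,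
    fun a => v.valuation_le_one (K := E) (algebraMap _ _ (algebraMap k (Algebra.adjoin k {z}) a))⟩
  have k1 := (v.valuation_lt_one_iff_mem (K := E) _).2 m
  change ¬ v.valuation E z⁻¹ ≤ 1
  rw [map_inv₀, inv_le_one₀ ((Valuation.pos_iff _).2 z0), not_le]
  exact (congrArg (v.valuation E) he.symm).trans_lt k1

theorem fin_of_le (F F' : Type) {E : Type} [Field F] [Field F'] [Field E] [Algebra F E]
    [Algebra F' E] [FiniteDimensional F E] (h : range (algebraMap F E) ⊆ range (algebraMap F' E)) :
    FiniteDimensional F' E := by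
  obtain ⟨s, hs⟩ := Module.Finite.fg_top (R := F) (M := E)
  refine ⟨s, eq_top_iff.2 fun x hx => ?_⟩
  clear hx
  induction (hs ▸ Submodule.mem_top : x ∈ Submodule.span F (s : Set E))
    using Submodule.span_induction with
  | mem a ha => exact Submodule.subset_span ha
  | zero => exact zero_mem _
  | add a b _ _ ha hb => exact add_mem ha hb
  | smul c a _ ha =>
    obtain ⟨c', e⟩ := h ⟨c, rfl⟩
    rw [Algebra.smul_def, ← e, ← Algebra.smul_def]
    exact Submodule.smul_mem _ _ ha

theorem pl_of (h : FF K (n + 1)) (Q : Place K) (k : IntermediateField ℂ K)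
    (q : ∀ a, algebraMap k K a ∈ Q.ring) {u : Fin n → K} (hu : AlgebraicIndependent ℂ u)
    (hk : ∀ i, u i ∈ k) : ∃ P : Pl K, P.toPlace = Q ∧ Ada P P.t u := by
  have hc : ∀ c, algebraMap ℂ K c ∈ Q.ring := fun c => q (algebraMap ℂ k c)
  let _ := (cst Q hc).toAlgebra
  let ρ : k →ₐ[ℂ] IsLocalRing.ResidueField Q.ring :=
    { (IsLocalRing.residue Q.ring).comp ((algebraMap k K).codRestrict Q.ring q) with
      commutes' := fun _ => rfl }
  have h3 : AlgebraicIndependent ℂ fun i => (⟨u i, hk i⟩ : k) :=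
    AlgebraicIndependent.of_comp k.val hu
  have h4 := h3.map' (f := ρ) ρ.injective
  have h5 : Algebra.trdeg ℂ (IsLocalRing.ResidueField Q.ring) + 1 = Algebra.trdeg ℂ K :=
    le_antisymm (Pb.res_lt (Pl.ring_ne_top Q) hc fun _ => rfl) (by
      rw [h.trdeg, Nat.cast_succ]
      exact add_le_add_left (by simpa using h4.cardinalMk_le_trdeg) 1)
  let P : Pl K := ⟨Q, hc, h5⟩
  refine ⟨P, rfl, P.ord_t, fun i => q ⟨_, hk i⟩, ?_⟩
  have : (fun i => P.rd (u i)) = ρ ∘ fun i => ⟨u i, hk i⟩ :=
    funext fun i => rd_of (P := P) (q ⟨_, hk i⟩)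
  rw [this]
  exact h4

/-- a divisorial place with a given parameter and given independent residues -/
theorem exists_pl (h : FF K (n + 1)) {z : K} {u : Fin n → K}
    (hz : AlgebraicIndependent ℂ (Fin.cons z u : Fin (n + 1) → K)) :
    ∃ P : Pl K, 0 < P.ord z ∧ Ada P P.t u := by
  obtain ⟨k, hk⟩ : ∃ k, k = IntermediateField.adjoin ℂ (range u) := ⟨_, rfl⟩
  have : CharZero k := charZero_of_injective_algebraMap (algebraMap ℂ k).injective
  have h0 : ∀ i, u i ∈ k := fun i => hk ▸ IntermediateField.subset_adjoin _ _ ⟨i, rfl⟩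
  have h1 : Transcendental k z := by
    have := hz.transcendental_adjoin (s := range Fin.succ) (i := 0) (by simp)
    rw [← range_comp, Fin.cons_zero, show Fin.cons z u ∘ Fin.succ = u from funext fun _ => rfl,
      ← IntermediateField.transcendental_adjoin_iff] at this
    rwa [hk]
  have h2 : FiniteDimensional (IntermediateField.adjoin k {z}) K := by
    have := h.fin hz
    refine fin_of_le (IntermediateField.adjoin ℂ (range (Fin.cons z u : Fin (n + 1) → K))) _ ?_
    rintro _ ⟨a, rfl⟩
    refine ⟨⟨a.1, (IntermediateField.adjoin_le_iff (T := (IntermediateField.adjoin k {z}).restrictScalars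
      ℂ)).2 (range_subset_iff.2 fun i => ?_) a.2⟩, rfl⟩
    induction i using Fin.cases with
    | zero => exact IntermediateField.mem_adjoin_simple_self k z
    | succ i => exact (IntermediateField.adjoin k {z}).algebraMap_mem ⟨u i, h0 i⟩
  obtain ⟨Q, q1, q2⟩ := exists_place h1
  obtain ⟨P, rfl, hP⟩ := pl_of h Q k q2 (u := u) (by simpa [Function.comp_def] using hz.comp _ (Fin.succ_injective n)) h0
  exact ⟨P, q1, hP⟩

/-- `P` lies over the blow up of the origin in the coordinates `t` -/
structure Org (P : Pl K) (t : Fin (n + 1) → K) (D : Fin (n + 1) → Derivation ℂ K K) : Prop where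
  fr : Fr t D
  pos : 0 < P.ord (t 0)
  ada : Ada P P.t fun i : Fin n => t i.succ / t 0

theorem exists_org (h : FF K (n + 1)) {t : Fin (n + 1) → K} (ht : AlgebraicIndependent ℂ t) :
    ∃ P D, Org P t D := by
  obtain ⟨D, hD⟩ := fr_of h ht
  have t0 := ht.ne_zero 0
  have : AlgebraicIndependent ℂ (Fin.cons (t 0) fun i : Fin n => t i.succ / t 0 :
      Fin (n + 1) → K) := by
    rw [← jac_ne_iff hD, jac, Matrix.det_succ_column_zero, Fin.sum_univ_succ]
    simp only [Matrix.of_apply, Fin.cons_zero, hD.dual, Fin.succ_ne_zero, if_false, if_true,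
      mul_zero, zero_mul, Finset.sum_const_zero, add_zero, Fin.succAbove_zero]
    rw [show Matrix.submatrix _ Fin.succ Fin.succ = Matrix.diagonal fun _ => (t 0)⁻¹ from ?_]
    · simpa using fun e => absurd e t0
    · ext i j
      simp [Derivation.leibniz_div, hD.dual, Matrix.diagonal_apply, sq, t0]
  obtain ⟨P, h1, h2⟩ := exists_pl h this
  exact ⟨P, D, hD, h1, h2⟩

/-- the Euler derivation -/
def eul (t : Fin n → K) (D : Fin n → Derivation ℂ K K) : Derivation ℂ K K := ∑ i, t i • D i

theorem eul_apply (t : Fin n → K) (D : Fin n → Derivation ℂ K K) (f : K) :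
    eul t D f = ∑ i, t i * D i f := by
  have := map_sum Derivation.coeFnAddMonoidHom (fun i => t i • D i) Finset.univ
  exact (congrFun this f).trans (Finset.sum_apply _ _ _)

theorem eul_t {t : Fin n → K} {D : Fin n → Derivation ℂ K K} (h : Fr t D) (j : Fin n) :
    eul t D (t j) = t j := by
  simp [eul_apply, h.dual]

theorem eul_mon {t : Fin n → K} {D : Fin n → Derivation ℂ K K} (h : Fr t D)
    (σ : Multiset (Option (Fin n))) : ∃ k : ℕ, eul t D (σ.map fun o => o.elim 1 t).prod =
      k * (σ.map fun o => o.elim 1 t).prod := by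
  induction σ using Multiset.induction_on with
  | empty => exact ⟨0, by simp⟩
  | cons a σ ih =>
    obtain ⟨k, hk⟩ := ih
    rw [Multiset.map_cons, Multiset.prod_cons, Derivation.leibniz, hk]
    cases a with
    | none => exact ⟨k, by simp⟩
    | some i => exact ⟨k + 1, by simp [eul_t h]; ring⟩

namespace Org

variable {P : Pl K} {t : Fin (n + 1) → K} {D : Fin (n + 1) → Derivation ℂ K K} (h : Org P t D)
include h

theorem ff : FF K (n + 1) := ff_of h.fr

theorem ne : t 0 ≠ 0 := fun e => by simpa [e] using h.pos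

theorem div_mem (i : Fin (n + 1)) : t i / t 0 ∈ P.ring :=
  Fin.cases (by rw [div_self h.ne]; exact one_mem _) h.ada.mem i

theorem mx (i : Fin (n + 1)) : Mx P (t i) := by
  have := (mx_iff.2 (Or.inr h.pos)).mul (h.div_mem i)
  rwa [div_mul_cancel₀ _ h.ne] at this

theorem eul_div (i : Fin (n + 1)) : eul t D (t i / t 0) = 0 := by
  simp [Derivation.leibniz_div, eul_t h.fr, mul_comm]

/-- the Euler derivation does not change nonzero orders -/
theorem ord_eul {g : K} (g0 : g ≠ 0) (hg : P.ord g ≠ 0) :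
    eul t D g ≠ 0 ∧ P.ord (eul t D g) = P.ord g := by
  have d := dr_of (eul t D)
  have s := h.ada.sp h.ff
  have z : ∀ x ∈ range fun i : Fin n => t i.succ / t 0, eul t D x = 0 := by
    rintro _ ⟨i, rfl⟩
    exact h.eul_div _
  have e1 : eul t D (t 0) / t 0 = 1 := by rw [eul_t h.fr, div_self h.ne]
  obtain ⟨c, hc⟩ := exists_pow P fun _ : Unit => eul t D P.t / P.t
  have l : Lg P (eul t D) := lg_of d s (fun x hx => by rw [z x hx]; exact zero_mem _)
    (fun c => by simp) h.pos.ne' (e1 ▸ one_mem _) c (h.ada.lg h.ff (d.smul _)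
      (by rw [mul_div_assoc]; exact hc ()) (fun i => by simp [h.eul_div]) fun c => by simp)
  have m : ∀ x ∈ P.ring, Mx P (eul t D x) := fun x hx =>
    l.small d s (fun x hx => by rw [z x hx]; exact mx_zero) (fun c => by simp [mx_zero]) hx
  have k : ¬ Mx P (eul t D g / g) := fun k => by
    have : CharZero K := charZero_of_injective_algebraMap (algebraMap ℂ K).injective
    obtain ⟨u, u1, u2, u3⟩ := ld_eq d P g0
    obtain ⟨v, v1, v2, v3⟩ := ld_eq d P h.ne
    have a := (k.sub ((m u u1).mul u2)).mul (int_inv_mem P (P.ord g))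
    rw [u3, add_sub_cancel_left, inv_mul_cancel_left₀ (Int.cast_ne_zero.2 hg)] at a
    have b := ((m v v1).mul v2).add (a.mul (int_mem P (P.ord (t 0))))
    rw [← v3, e1] at b
    exact not_mx_one b
  rw [mx_iff, not_or] at k
  have k0 := (div_ne_zero_iff.1 k.1).1
  have k1 := Pl.ord_nonneg_of_mem _ (l g)
  rw [Pl.ord_div _ k0 g0] at k k1
  exact ⟨k0, by omega⟩

theorem mon_mem {s : ℕ} {w : K} (hw : w ∈ Mon t s) (i : Fin (n + 1)) :
    ∃ w' ∈ Mon t (s + 1), eul t D w' = w * t i ∧ Mx P w' := by
  cases s with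
  | zero => exact ⟨0, zero_mem _, by simp [(Submodule.mem_bot ℂ).1 hw], mx_zero⟩
  | succ s =>
    induction hw using Submodule.span_induction with
    | zero => exact ⟨0, zero_mem _, by simp, mx_zero⟩
    | add a b _ _ ha hb =>
      obtain ⟨a', a1, a2, a3⟩ := ha
      obtain ⟨b', b1, b2, b3⟩ := hb
      exact ⟨a' + b', add_mem a1 b1, by rw [map_add, a2, b2, add_mul], a3.add b3⟩
    | smul c a _ ha =>
      obtain ⟨a', a1, a2, a3⟩ := ha
      exact ⟨c • a', Submodule.smul_mem _ c a1, by rw [Derivation.map_smul, a2, smul_mul_assoc],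
        by rw [Algebra.smul_def]; exact a3.mul (P.con c)⟩
    | mem a ha =>
      have a1 := I.mul_mem_mon t i (s := s + 1) (Submodule.subset_span ha)
      obtain ⟨σ, rfl⟩ := ha
      obtain ⟨k, hk⟩ := eul_mon h.fr σ.1
      have m : (σ.1.map fun o => o.elim 1 t).prod ∈ P.ring := multiset_prod_mem _ fun a ha => by
        obtain ⟨o, -, rfl⟩ := Multiset.mem_map.1 ha
        cases o with
        | none => exact one_mem _
        | some j => exact (h.mx j).mem
      refine ⟨((k : ℂ) + 1)⁻¹ • _, Submodule.smul_mem _ _ a1, ?_, ?_⟩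
      · rw [Derivation.map_smul, Derivation.leibniz, hk, eul_t h.fr,
          inv_smul_eq_iff₀ (Nat.cast_add_one_ne_zero k), Algebra.smul_def ((k : ℂ) + 1)]
        simp only [smul_eq_mul, map_add, map_natCast, map_one]
        ring
      · rw [Algebra.smul_def]
        exact ((h.mx i).mul m).mul (P.con _)

/-- **Taylor expansions** -/
theorem taylor {A : Set K} (h1 : ∀ a ∈ A, ∀ i, D i a ∈ A)
    (h2 : ∀ a ∈ A, ∃ c : ℂ, Mx P (a - algebraMap ℂ K c)) (s : ℕ) :
    ∀ f ∈ A, ∃ w ∈ Mon t s, f - w ∈ P.sub (-s) := by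
  induction s with
  | zero =>
    refine fun f hf => ⟨0, zero_mem _, Or.inr ?_⟩
    obtain ⟨c, hc⟩ := h2 f hf
    have := Pl.ord_nonneg_of_mem _ (add_mem hc.mem (P.con c))
    rw [sub_add_cancel] at this
    simpa using this
  | succ s ih =>
    intro f hf
    obtain ⟨c, hc⟩ := h2 f hf
    choose w w1 w2 using fun i => ih _ (h1 f hf i)
    choose v v1 v2 v3 using fun i => h.mon_mem (w1 i) i
    refine ⟨algebraMap ℂ K c + ∑ i, v i, add_mem ?_ (sum_mem fun i _ => v1 i), ?_⟩
    · rw [Algebra.algebraMap_eq_smul_one]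
      exact Submodule.smul_mem _ _ (I.one_mem_mon t s)
    have m : Mx P (f - (algebraMap ℂ K c + ∑ i, v i)) := by
      rw [← sub_sub]
      exact hc.sub (Finset.sum_induction _ _ (fun _ _ => Mx.add) mx_zero fun i _ => v3 i)
    have e : eul t D (f - (algebraMap ℂ K c + ∑ i, v i)) ∈ P.sub (-(s + 1 : ℕ)) := by
      rw [map_sub, map_add, Derivation.map_algebraMap, zero_add, map_sum, eul_apply,
        ← Finset.sum_sub_distrib]
      refine sum_mem fun i _ => or_iff_not_imp_left.2 fun z => ?_
      rw [v2, mul_comm (w i), ← mul_sub] at z ⊢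
      have a := (w2 i).resolve_left (right_ne_zero_of_mul z)
      have b := Int.cast_le (R := ℝ).2
        (Int.add_one_le_of_lt ((mx_iff.1 (h.mx i)).resolve_left (left_ne_zero_of_mul z)))
      rw [Pl.ord_mul _ (left_ne_zero_of_mul z) (right_ne_zero_of_mul z)]
      push_cast at a b ⊢
      linarith
    refine or_iff_not_imp_left.2 fun z => ?_
    obtain ⟨a, b⟩ := h.ord_eul z ((mx_iff.1 m).resolve_left z).ne'
    exact b ▸ e.resolve_left a

/-- the place is unramified -/
theorem ord_one {A : Set K} (h1 : ∀ a ∈ A, ∀ i, D i a ∈ A) (h2 : A ⊆ P.ring)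
    (h3 : Subfield.closure (A ∪ range (algebraMap ℂ K)) = ⊤) : P.ord (t 0) = 1 := by
  let B := Algebra.adjoin ℂ (A ∪ range fun i => t i / t 0)
  have b1 : ∀ b ∈ B, b ∈ P.ring := fun b =>
    adj_mem (union_subset h2 (range_subset_iff.2 h.div_mem))
  have b2 : ∀ b ∈ B, eul t D b / t 0 ∈ B := fun b hb => by
    induction hb using Algebra.adjoin_induction with
    | mem a ha =>
      rcases ha with ha | ⟨i, rfl⟩
      · rw [eul_apply, Finset.sum_div]
        refine sum_mem fun i _ => ?_
        rw [mul_div_right_comm]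
        exact mul_mem (Algebra.subset_adjoin (Or.inr ⟨i, rfl⟩))
          (Algebra.subset_adjoin (Or.inl (h1 a ha i)))
      · simp [h.eul_div]
    | algebraMap a => simp
    | add a b _ _ ha hb => rw [map_add, add_div]; exact add_mem ha hb
    | mul a b a' b' ha hb =>
      rw [Derivation.leibniz, add_div, smul_eq_mul, smul_eq_mul, mul_div_assoc, mul_div_assoc]
      exact add_mem (mul_mem a' hb) (mul_mem b' ha)
  have b3 : ∀ (m : ℕ), ∀ b ∈ B, P.ord b = m → P.ord (t 0) ∣ P.ord b := fun m => by
    induction m using Nat.strong_induction_on with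
    | _ m ih =>
      intro b hb e
      by_cases o : P.ord b = 0
      · simp [o]
      obtain ⟨a1, a2⟩ := h.ord_eul (g := b) (fun z => o (by simp [z])) o
      have a3 := Pl.ord_nonneg_of_mem _ (b1 _ (b2 b hb))
      have a4 := h.pos
      have a5 := ih (P.ord (eul t D b / t 0)).toNat (by
        rw [Pl.ord_div _ a1 h.ne, a2] at a3 ⊢
        omega) _ (b2 b hb) (Int.toNat_of_nonneg a3).symm
      rw [Pl.ord_div _ a1 h.ne, a2] at a5
      simpa using a5.add (dvd_refl _)
  have b4 : ∀ b ∈ Subring.closure (A ∪ range (algebraMap ℂ K)), P.ord (t 0) ∣ P.ord b :=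
    fun b hb => by
      have : b ∈ B := (Subring.closure_le (t := B.toSubring)).2 (union_subset
        (fun a ha => Algebra.subset_adjoin (Or.inl ha)) (range_subset_iff.2 B.algebraMap_mem)) hb
      exact b3 _ b this (Int.toNat_of_nonneg (Pl.ord_nonneg_of_mem _ (b1 b this))).symm
  obtain ⟨y, hy, z, hz, e⟩ := Subfield.mem_closure_iff.1 (h3 ▸ Subfield.mem_top P.t)
  have := P.ord_t
  rw [← e, Pl.ord_div _ (div_ne_zero_iff.1 (e ▸ P.t_ne)).1 (div_ne_zero_iff.1 (e ▸ P.t_ne)).2]
    at this
  exact Int.eq_one_of_dvd_one h.pos.le (this ▸ (b4 y hy).sub (b4 z hz))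

/-- the discrepancy of the blow up of a smooth point -/
theorem kap_eq (e : P.ord (t 0) = 1) : kap t P = n := by
  obtain ⟨E, hE⟩ := Ada.ad (P := P) (π := t 0) ⟨e, h.ada.mem, h.ada.ind⟩ h.ff
  have d := hE.fr.dual
  have d0 : ∀ i, E i (t 0) = if i = 0 then 1 else 0 := fun i => d i 0
  rw [Cb.kap_eq hE, jac, Matrix.det_succ_column_zero, Fin.sum_univ_succ]
  simp only [Matrix.of_apply, d0, Fin.succ_ne_zero, if_false, if_true,
    mul_zero, zero_mul, Finset.sum_const_zero, add_zero, Fin.succAbove_zero]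
  rw [show Matrix.submatrix _ Fin.succ Fin.succ = Matrix.diagonal fun _ => t 0 from ?_]
  · simp [Pl.ord_pow, e]
  · ext i j
    have := d i.succ j.succ
    rw [Fin.cons_succ] at this
    rw [Matrix.submatrix_apply, Matrix.of_apply, ← div_mul_cancel₀ (t j.succ) h.ne,
      Derivation.leibniz, this, d0]
    simp [Matrix.diagonal_apply]

end Org

end Vale.Agent.P287D.Gm
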