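import Vale.Agent.P287D.Gm.Uh0
import Vale.Agent.P287D.Pb.Gau

/-!
# P287D, block GM: Gauss places, uniqueness, vanishing away from them
-/

set_option linter.all false

open Set Algebra IsLocalRing
open Vale.Agent.P297Z

noncomputable section

namespace Vale.Agent.P287D.Gm.Uh

open Gx

variable {K K₁ τ : Type} [Field K] [Algebra ℂ K] [Field K₁] [Algebra ℂ K₁] {p m M : ℕ}

/-- `R` is a Gauss extension of `Q` in the coordinates `b` -/
structure G (φ : K →+* K₁) (b : τ → K₁) (R : Pl K₁) (Q : Pl K) : Prop where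
  lies : Lies φ R Q
  mem : ∀ i, b i ∈ R.ring
  ind : Ind lies.κ fun i => R.rd (b i)

theorem rd_add (P : Pl K) {f g : K} (h : f ∈ P.ring) (k : g ∈ P.ring) :
    P.rd (f + g) = P.rd f + P.rd g := by
  rw [rd_of P h, rd_of P k, rd_of P (add_mem h k)]
  exact map_add (residue P.ring) ⟨f, h⟩ ⟨g, k⟩

theorem rd_zero (P : Pl K) : P.rd 0 = 0 := by simpa using rd_cst P 0

theorem rd_one (P : Pl K) : P.rd 1 = 1 := by simpa using rd_cst P 1

theorem rd_sum (P : Pl K) {f : τ → K} (s : Finset τ) (h : ∀ i, f i ∈ P.ring) :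
    P.rd (∑ i ∈ s, f i) = ∑ i ∈ s, P.rd (f i) := by
  classical
  refine Finset.induction_on s (by simpa using rd_zero P) fun i s hi ih => ?_
  rw [Finset.sum_insert hi, Finset.sum_insert hi, rd_add P (h i) (sum_mem fun j _ => h j), ih]

theorem rd_neg (P : Pl K) {f : K} (h : f ∈ P.ring) : P.rd (-f) = -P.rd f :=
  eq_neg_of_add_eq_zero_left (by rw [← rd_add P (neg_mem h) h, neg_add_cancel, rd_zero])

theorem rd_eq_zero (P : Pl K) {f : K} (h : 0 < P.ord f) : P.rd f = 0 := by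
  have f0 : f ≠ 0 := fun e => by simp [e] at h
  have k := (Pl.ord_nonneg_iff _ f0).1 h.le
  rw [rd_of P k]
  exact (residue_eq_zero_iff _).2 ((Pl.mem_maximalIdeal_iff _ _).2 (Or.inr h))

theorem ord_of_rd (P : Pl K) {f : K} (h : f ∈ P.ring) (k : P.rd f ≠ 0) : f ≠ 0 ∧ P.ord f = 0 :=
  ⟨fun e => k (e ▸ rd_zero P), le_antisymm (not_lt.1 fun z => k (rd_eq_zero P z))
    (Pl.ord_nonneg_of_mem _ h)⟩

section gau

variable [Algebra K K₁] {b : τ → K₁} {R R' : Pl K₁} {Q : Pl K}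

theorem G.unit (h : G (algebraMap K K₁) b R Q) {q : MvPolynomial τ Q.ring}
    (hq : MvPolynomial.map (residue Q.ring) q ≠ 0) :
    Pb.ev Q.ring b q ≠ 0 ∧ R.ord (Pb.ev Q.ring b q) = 0 := by
  let u : MvPolynomial τ Q.ring →+* R.ring :=
    MvPolynomial.eval₂Hom (Pb.rh h.lies) fun i => ⟨b i, h.mem i⟩
  have e1 : R.ring.subtype.comp u = Pb.ev Q.ring b := by
    refine MvPolynomial.ringHom_ext (fun r => ?_) fun i => ?_
    · rw [Pb.ev_C, RingHom.comp_apply, MvPolynomial.eval₂Hom_C]; rfl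
    · rw [Pb.ev_X, RingHom.comp_apply, MvPolynomial.eval₂Hom_X']; rfl
  have e2 : (rdA R).comp u = (MvPolynomial.eval₂Hom h.lies.κ fun i => R.rd (b i)).comp
      (MvPolynomial.map (rdA Q)) := by
    refine MvPolynomial.ringHom_ext (fun r => ?_) fun i => ?_
    · rw [RingHom.comp_apply, RingHom.comp_apply, MvPolynomial.map_C, MvPolynomial.eval₂Hom_C,
        MvPolynomial.eval₂Hom_C]
      rfl
    · rw [RingHom.comp_apply, RingHom.comp_apply, MvPolynomial.map_X, MvPolynomial.eval₂Hom_X',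
        MvPolynomial.eval₂Hom_X']
      exact (rd_of R (h.mem i)).symm
  rw [← e1]
  refine ord_of_rd R (u q).2 fun z => hq (h.ind (Eq.trans ?_ (map_zero _).symm))
  exact (DFunLike.congr_fun e2 q).symm.trans ((rd_of R (u q).2).symm.trans z)

theorem G.mem_iff (h : G (algebraMap K K₁) b R Q) {z : K₁} {c : K} {q r : MvPolynomial τ Q.ring}
    (z0 : z ≠ 0) (c0 : c ≠ 0) (hq : MvPolynomial.map (residue Q.ring) q ≠ 0)
    (hr : MvPolynomial.map (residue Q.ring) r ≠ 0)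
    (e : z * Pb.ev Q.ring b r = algebraMap K K₁ c * Pb.ev Q.ring b q) :
    z ∈ R.ring ↔ c ∈ Q.ring := by
  have c1 := (map_ne_zero (algebraMap K K₁)).2 c0
  have k := congrArg R.ord e
  rw [Pl.ord_mul _ z0 (h.unit hr).1, Pl.ord_mul _ c1 (h.unit hq).1, (h.unit hr).2,
    (h.unit hq).2, add_zero, add_zero] at k
  rw [h.lies c, ← Pl.ord_nonneg_iff _ z0, ← Pl.ord_nonneg_iff _ c1, k]

end gau

theorem G.uq {φ : K →+* K₁} {b : τ → K₁} {R R' : Pl K₁} {Q : Pl K} (g : gn φ b = ⊤)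
    (h : G φ b R Q) (h' : G φ b R' Q) : R = R' := by
  let _ := φ.toAlgebra
  refine Pb.pl_ext (ValuationSubring.ext _ _ fun z => ?_)
  by_cases z0 : z = 0
  · simp [z0]
  obtain ⟨c, q, r, c0, hq, hr, e⟩ := Pb.nf Q.ring (adj_top (F := K) g) z0
  exact (G.mem_iff (K := K) h z0 c0 hq hr e).trans (G.mem_iff (K := K) h' z0 c0 hq hr e).symm

theorem ex_G (ι : K →ₐ[ℂ] K₁) {b : τ → K₁} (g : gn (ι : K →+* K₁) b = ⊤)
    (hb : Ind (ι : K →+* K₁) b) (Q : Pl K) : ∃ R, ∃ h : G (ι : K →+* K₁) b R Q,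
      R.ord (ι Q.t) = 1 ∧ gn h.lies.κ (fun i => R.rd (b i)) = ⊤ := by
  let _ := (ι : K →+* K₁).toAlgebra
  have : IsScalarTower ℂ K K₁ := .of_algebraMap_eq fun a => (ι.commutes a).symm
  obtain ⟨R, h, a1, a2, a3, a4⟩ := exists_gauss (K := K) hb (adj_top (F := K) g) Q
  refine ⟨R, ⟨h, a2, (injective_iff_map_eq_zero _).2 a3⟩, a1, eq_top_iff.2 fun x _ => ?_⟩
  obtain ⟨q, r, rfl⟩ := a4 x
  have k : ∀ q, MvPolynomial.eval₂ h.κ (fun i => R.rd (b i)) q ∈ gn h.κ fun i => R.rd (b i) :=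
    fun q => by
      induction q using MvPolynomial.induction_on with
      | C a => rw [MvPolynomial.eval₂_C]; exact mem_l _ _ _
      | add _ _ u v => rw [MvPolynomial.eval₂_add]; exact add_mem u v
      | mul_X _ i u =>
        rw [MvPolynomial.eval₂_mul, MvPolynomial.eval₂_X]; exact mul_mem u (mem_r _ _ i)
  exact div_mem (k q) (k r)

/-- the residue map as an algebra homomorphism -/
def κa {ι : K →ₐ[ℂ] K₁} {R : Pl K₁} {Q : Pl K} (h : Lies (ι : K →+* K₁) R Q) : Q.κ →ₐ[ℂ] R.κ :=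
  ⟨h.κ, rd_lin h.isRd ι.commutes⟩

open Classical in
theorem mz_pair (P : Pl K) (f : K) : (P.mz {1, f} : ℝ) = max 0 (-(P.ord f : ℝ)) :=
  congrFun (mx_one_pair f) P

open Classical in
theorem res_mem (hR : RES) (hK : FF K (m + 1)) (P : Pl K) {f : K} (h : f ∈ P.ring) :
    mx {1, f} P = 0 ∧ res P (mx {1, f}) = mx {1, P.rd f} := by
  have e : (P.mz {1, f} : ℝ) = 0 := by
    rw [mz_pair, max_eq_left]
    exact neg_nonpos.2 (Int.cast_nonneg (Pl.ord_nonneg_of_mem _ h))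
  refine ⟨e, ?_⟩
  rw [hR.sys m K hK, Pl.rs, Int.cast_eq_zero.1 e, Finset.image_insert, Finset.image_singleton,
    zpow_zero, mul_one, mul_one, rd_one]

open Classical in
theorem res_not (hR : RES) (hK : FF K (m + 1)) (P : Pl K) {f : K} (h : f ∉ P.ring) :
    res P (mx {1, f}) ∈ Prn P.κ := by
  have f0 : f ≠ 0 := fun e => h (e ▸ zero_mem _)
  have o : P.ord f < 0 := not_le.1 fun z => h ((Pl.ord_nonneg_iff _ f0).1 z)
  have e : 0 < P.mz {1, f} := by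
    have := P.le_mz (s := {1, f}) (by simp) f0
    omega
  rw [hR.sys m K hK, Pl.rs, Finset.image_insert, Finset.image_singleton, one_mul,
    rd_eq_zero P (by rwa [P.ord_t_zpow]), mx_congr_span (u := {P.rd (f * P.t ^ P.mz {1, f})})
      (by simp [Submodule.span_insert]), mx_single]
  exact neg_mem (dv_mem_Prn _)

open Classical in
/-- only the Gauss place counts -/
theorem van (hM : MOD) (hR : RES) (hI : INT) (hP : PB) {ι : K →ₐ[ℂ] K₁} (hK : FF K (p + 1))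
    (hK₁ : FF K₁ (m + 1)) (e : m = p + M) {R : Pl K₁} {Q : Pl K} (h : Lies (ι : K →+* K₁) R Q)
    {b : Fin M → K₁} {γ : Fin m → BD K₁} (hc : ∀ j, γ j ∈ Car K₁)
    (hb : ∀ i, ∃ j, γ j = mx {1, b i})
    (hγ : (∀ i, b i ∈ R.ring) → ∀ j, (∃ β ∈ Car K, γ j = pb (ι : K →+* K₁) β) ∨
      ∃ x ∈ R.ring, R.rd x ∈ gn h.κ (fun i => R.rd (b i)) ∧ γ j = mx {1, x})
    (hn : ¬ G (ι : K →+* K₁) b R Q) : I m R.κ (fun j => res R (γ j)) = 0 := by
  have f1 := ff_κ R hK₁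
  have f0 := ff_κ Q hK
  have cr := fun j => res_car hR hK₁ R (hc j)
  by_cases z : ∀ i, b i ∈ R.ring
  swap
  · obtain ⟨i, hi⟩ := not_forall.1 z
    obtain ⟨j, hj⟩ := hb i
    exact hI.prn m _ f1 _ j (fun j _ => cr j) (hj ▸ res_not hR hK₁ R hi)
  have k : ∀ j, ∃ δ, δ - res R (γ j) ∈ Prn R.κ ∧ ((∃ β ∈ Car Q.κ, δ = pb h.κ β) ∨
      ∃ x ∈ gn h.κ (fun i => R.rd (b i)), δ = mx {1, x}) := fun j => by
    obtain ⟨β, a1, a2⟩ | ⟨x, a1, a2, a3⟩ := hγ z j
    · refine ⟨_, ?_, .inl ⟨_, res_car hR hK Q a1, rfl⟩⟩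
      rw [a2, ← neg_sub]
      exact neg_mem (rst hR hK hK₁ (hK₁.ok ι) h h.isRd (f1.ok (κa h)) a1)
    · exact ⟨_, by rw [a3, (res_mem hR hK₁ R a1).2, sub_self]; exact zero_mem _, .inr ⟨_, a2, rfl⟩⟩
  choose δ d1 d2 using k
  rw [← I_congr hI hM f1 cr d1]
  exact low hP (κa h) f0 f1 e (fun a => hn ⟨h, z, a⟩) d2

end Vale.Agent.P287D.Gm.Uh
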